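import Crest.Agent.N207.H.Inv
import Crest.Agent.N207.G.Tr

/-!
# Row 207, block H: the leaf `TOPS` (helper66)
-/

set_option autoImplicit false

open scoped ContDiff Manifold Topology
open Set Filter Metric
open Crest.Agent.N207.Sk

noncomputable section

namespace Crest.Agent.N207.H

/-- the region inside a level set of `‖Yt‖` -/
def DD (Yt : E4 → E4) (a a' B : ℝ) (p : ℝ → Prop) : Set E4 :=
  {x | a < ‖x‖ ∧ (‖x‖ ≤ a' / 2 ∨ (‖x‖ < B / 2 ∧ p ‖Yt x‖))}

theorem tops (M : Type*) [TopologicalSpace M] [ChartedSpace E4 M] [IsManifold 𝓘(ℝ, E4) ∞ M]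
    [T2Space M] : TOPS M := by
  intro N Yt Z A B a' b' hN hA hB hI heq h1 h2 h3
  have a0 := hN.a_pos
  have sAB : shell A B ⊆ shell N.a N.b := fun x hx => ⟨hA.trans_lt hx.1, hx.2.trans_le hB⟩
  have s2 : shell (2 * A) (B / 2) ⊆ shell A B := fun x hx =>
    ⟨by linarith [hx.1], by linarith [hx.2]⟩
  have s4 : ∀ y : E4, a' < ‖y‖ → ‖y‖ ≤ b' → y ∈ shell (4 * A) (B / 4) := fun y u v =>
    ⟨by linarith, by linarith⟩
  have nr : ∀ x : E4, A < ‖x‖ → ‖x‖ < B → 19 / 20 * ‖x‖ ≤ ‖Yt x‖ ∧ ‖Yt x‖ ≤ 21 / 20 * ‖x‖ :=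
    fun x u v => by
      have := abs_le.1 (hI.nrm x ⟨u, v⟩)
      exact ⟨by linarith [this.1], by linarith [this.2]⟩
  have sD : ∀ p, DD Yt N.a a' B p ⊆ shell N.a N.b := fun p x hx =>
    ⟨hx.1, hx.2.elim (fun u => by linarith) fun u => by linarith [u.1]⟩
  have key : ∀ p : ℝ → Prop, (∀ s, s ≤ a' → p s) → (∀ s, p s → s ≤ b') →
      (N.In ∪ N.Ψ '' DD Yt N.a a' B (· ≤ a')) ∪
        (fun y => N.Ψ (Z y)) '' {y | a' < ‖y‖ ∧ p ‖y‖} = N.In ∪ N.Ψ '' DD Yt N.a a' B p := by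
    intro p p1 p2
    refine Subset.antisymm (union_subset (union_subset_union_right _ (image_mono fun x hx =>
      ⟨hx.1, hx.2.imp_right fun u => ⟨u.1, p1 _ u.2⟩⟩)) ?_) (union_subset
        (subset_union_left.trans subset_union_left) ?_)
    · rintro _ ⟨y, hy, rfl⟩
      obtain ⟨u, v⟩ := hI.inv y (s4 y hy.1 (p2 _ hy.2))
      exact Or.inr ⟨Z y, ⟨(sAB (s2 u)).1, Or.inr ⟨u.2, by rw [v]; exact hy.2⟩⟩, rfl⟩
    · rintro _ ⟨x, hx, rfl⟩
      rcases le_or_gt ‖x‖ (a' / 2) with u | u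
      · exact Or.inl (Or.inr ⟨x, ⟨hx.1, Or.inl u⟩, rfl⟩)
      obtain ⟨v, w⟩ := hx.2.resolve_left (not_le.2 u)
      rcases le_or_gt ‖Yt x‖ a' with z | z
      · exact Or.inl (Or.inr ⟨x, ⟨hx.1, Or.inr ⟨v, z⟩⟩, rfl⟩)
      obtain ⟨c, d⟩ := hI.inv _ (s4 _ z (p2 _ w))
      exact Or.inr ⟨Yt x, ⟨z, w⟩, congrArg N.Ψ (hI.inj c ⟨by linarith, v⟩ d)⟩
  have om : ∀ r, a' < r → r ≤ b' → (⟨N.Γ, fun y => N.Ψ (Z y),
      N.In ∪ N.Ψ '' DD Yt N.a a' B (· ≤ a'), a', b'⟩ : Nk M).Om r =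
        N.In ∪ N.Ψ '' DD Yt N.a a' B (· < r) := fun r u v =>
    key (· < r) (fun s hs => hs.trans_lt u) fun s hs => hs.le.trans v
  have hc : ContinuousOn (fun x => ‖Yt x‖) (shell A B) := hI.sm.continuousOn.norm
  refine ⟨⟨N.Γ, fun y => N.Ψ (Z y), N.In ∪ N.Ψ '' DD Yt N.a a' B (· ≤ a'), a', b'⟩,
    ⟨hN.grp, by linarith, h2, ?_, ?_, ?_, ?_, ?_, hN.ne.mono subset_union_left⟩, rfl, rfl, rfl, rfl,
    subset_union_left, union_subset_union_right _ (image_mono fun x hx => ⟨hx.1, ?_⟩), ?_⟩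
  · refine Gs.par_comp hN.par (isOpen_sh _ _) (hI.smZ.mono fun y hy => s4 y hy.1 hy.2.le)
      (fun y hy => sAB (s2 (hI.inv y (s4 y hy.1 hy.2.le)).1)) fun y hy => ?_
    have hy' := (isOpen_sh _ _).mem_nhds (s4 y hy.1 hy.2.le)
    have d1 := ((hI.smZ.contDiffAt hy').differentiableAt (by simp)).hasFDerivAt
    have d2 := ((hI.sm.contDiffAt ((isOpen_sh _ _).mem_nhds
      (s2 (hI.inv y (s4 y hy.1 hy.2.le)).1))).differentiableAt (by simp)).hasFDerivAt
    have e : (fun z : E4 => z) =ᶠ[𝓝 y] Yt ∘ Z :=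
      mem_of_superset hy' fun z hz => (hI.inv z hz).2.symm
    have := (hasFDerivAt_id y).unique ((d2.comp y d1).congr_of_eventuallyEq e)
    refine Function.Injective.of_comp (f := fderiv ℝ Yt (Z y)) fun u v huv => ?_
    exact (congrArg (fun L : E4 →L[ℝ] E4 => L u) this).trans
      (huv.trans (congrArg (fun L : E4 →L[ℝ] E4 => L v) this).symm)
  · intro y hy y' hy'
    obtain ⟨u, v⟩ := hI.inv y (s4 y hy.1 hy.2.le)
    obtain ⟨u', v'⟩ := hI.inv y' (s4 y' hy'.1 hy'.2.le)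
    refine (hN.fib _ (sAB (s2 u)) _ (sAB (s2 u'))).trans (exists_congr fun γ =>
      and_congr_right fun hγ => ⟨fun e => ?_, fun e => ?_⟩)
    · rw [← v, ← heq γ hγ _ (s2 u), e, v']
    · refine hI.inj ⟨by rw [γ.norm_map]; exact u.1, by rw [γ.norm_map]; exact u.2⟩ u' ?_
      rw [heq γ hγ _ (s2 u), v, v', e]
  · rintro y hy (hin | ⟨x, hx, e⟩)
    · exact hN.disj _ (sAB (s2 (hI.inv y (s4 y hy.1 hy.2.le)).1)) hin
    obtain ⟨u, v⟩ := hI.inv y (s4 y hy.1 hy.2.le)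
    obtain ⟨γ, hγ, f⟩ := (hN.fib _ (sD _ hx) _ (sAB (s2 u))).1 e
    have n1 : ‖Z y‖ = ‖x‖ := by rw [← f, γ.norm_map]
    have n2 := (nr _ (s2 u).1 (s2 u).2).2
    have y1 : a' < ‖y‖ := hy.1
    rw [v, n1] at n2
    obtain ⟨-, w⟩ := hx.2.resolve_left (by linarith)
    have : ‖y‖ = ‖Yt x‖ := by
      rw [← v, ← f, heq γ hγ x ⟨n1 ▸ (s2 u).1, n1 ▸ (s2 u).2⟩, γ.norm_map]
    exact absurd w (by simp only [not_le]; linarith)
  · intro r hr
    have r1 : a' < r := hr.1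
    rw [om r hr.1 hr.2]
    have e : DD Yt N.a a' B (· < r) = shell N.a (3 / 4 * a') ∪
        (shell (a' / 2) (B / 2) ∩ (fun x => ‖Yt x‖) ⁻¹' Iio r) := by
      ext x
      refine ⟨fun hx => ?_, fun hx => hx.elim (fun u => ⟨u.1, ?_⟩) fun u =>
        ⟨by linarith [u.1.1], Or.inr ⟨u.1.2, u.2⟩⟩⟩
      · rcases le_or_gt ‖x‖ (a' / 2) with u | u
        · exact Or.inl ⟨hx.1, by linarith⟩
        · obtain ⟨v, w⟩ := hx.2.resolve_left (not_le.2 u)
          exact Or.inr ⟨⟨u, v⟩, w⟩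
      · refine (le_or_gt ‖x‖ (a' / 2)).imp_right fun v => ⟨by linarith [u.2], ?_⟩
        linarith [(nr x (by linarith) (by linarith [u.2])).2, u.2]
    have s5 : shell (a' / 2) (B / 2) ⊆ shell A B := fun x hx =>
      ⟨by linarith [hx.1], by linarith [hx.2]⟩
    rw [e, image_union, ← union_assoc]
    exact (hN.opn (3 / 4 * a') ⟨by linarith, by linarith⟩).union (Gs.par_isOpen hN.par
      ((hc.mono s5).isOpen_inter_preimage (isOpen_sh _ _) isOpen_Iio) fun x hx => sAB (s5 hx.1))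
  · intro r hr
    have r1 : a' < r := hr.1
    have r2 : r < b' := hr.2
    have := key (· ≤ r) (fun s hs => hs.trans r1.le) fun s hs => hs.trans r2.le
    refine this ▸ ?_
    have s6 : closedBall (0 : E4) (B / 4) \ ball 0 (a' / 2) ⊆ shell A B := fun x hx => by
      have a := mem_closedBall_zero_iff.1 hx.1
      have b := not_lt.1 (mt mem_ball_zero_iff.2 hx.2)
      exact ⟨by linarith, by linarith⟩
    have cK := (isCompact_closedBall (0 : E4) (B / 4)).diff (isOpen_ball (x := 0) (ε := a' / 2))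
    have e : DD Yt N.a a' B (· ≤ r) = {x | N.a < ‖x‖ ∧ ‖x‖ ≤ a' / 2} ∪
        ((closedBall (0 : E4) (B / 4) \ ball 0 (a' / 2)) ∩ (fun x => ‖Yt x‖) ⁻¹' Iic r) := by
      ext x
      refine ⟨fun hx => ?_, fun hx => hx.elim (fun u => ⟨u.1, Or.inl u.2⟩) fun u =>
        ⟨(sAB (s6 u.1)).1, Or.inr ⟨by linarith [mem_closedBall_zero_iff.1 u.1.1], u.2⟩⟩⟩
      rcases le_or_gt ‖x‖ (a' / 2) with u | u
      · exact Or.inl ⟨hx.1, u⟩
      · obtain ⟨v, w⟩ := hx.2.resolve_left (not_le.2 u)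
        have w' : ‖Yt x‖ ≤ r := w
        exact Or.inr ⟨⟨mem_closedBall_zero_iff.2
          (by linarith [(nr x (by linarith) (by linarith)).1]),
          fun c => by linarith [mem_ball_zero_iff.1 c]⟩, w⟩
    rw [e, image_union, ← union_assoc]
    refine (hN.cls (a' / 2) ⟨by linarith, by linarith⟩).union (IsCompact.isClosed ?_)
    exact (cK.of_isClosed_subset ((hc.mono s6).preimage_isClosed_of_isClosed cK.isClosed
      isClosed_Iic) inter_subset_left).image_of_continuousOn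
      ((Gs.par_cont hN.par).mono fun x hx => sAB (s6 hx.1))
  · rcases le_or_gt ‖x‖ (a' / 2) with u | u
    · linarith
    · obtain ⟨v, w⟩ := hx.2.resolve_left (not_le.2 u)
      have w' : ‖Yt x‖ ≤ a' := w
      linarith [(nr x (by linarith) (by linarith)).1]
  · intro r hr
    have r1 := hr.1
    have r2 := hr.2
    constructor
    · rw [om r (by linarith) r2]
      refine union_subset_union_right _ (image_mono fun x hx => ⟨hx.1, ?_⟩)
      refine (le_or_gt ‖x‖ (a' / 2)).imp_right fun v => ⟨by linarith [hx.2], ?_⟩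
      linarith [(nr x (by linarith) (by linarith [hx.2])).2, hx.2]
    · refine Subset.trans (b := (⟨N.Γ, fun y => N.Ψ (Z y),
        N.In ∪ N.Ψ '' DD Yt N.a a' B (· ≤ a'), a', b'⟩ : Nk M).Om (3 / 4 * r))
        (union_subset_union_right _ (image_mono fun x hx => ⟨hx.1, by linarith [hx.2]⟩)) ?_
      rw [om _ (by linarith) (by linarith)]
      refine union_subset_union_right _ (image_mono fun x hx => ⟨hx.1, ?_⟩)
      rcases le_or_gt ‖x‖ (a' / 2) with u | u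
      · linarith
      · obtain ⟨v, w⟩ := hx.2.resolve_left (not_le.2 u)
        have w' : ‖Yt x‖ < 3 / 4 * r := w
        linarith [(nr x (by linarith) (by linarith)).1]

end Crest.Agent.N207.H

end
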