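import Crest.Agent.N207.H.St
import Crest.Agent.N207.Rad.Crd
import Crest.Agent.N207.G.Tr
import Crest.Agent.N207.AI.Par2

/-!
# Row 207, block H (helper41): the dictionary `BR`
-/

set_option autoImplicit false
set_option linter.unusedSectionVars false

open scoped ContDiff Manifold Topology
open Set Filter
open Crest.GeometryTopology.CoordMetric
open Crest.Agent.R202.Tens Crest.Agent.R247 Crest.Agent.N207.Sk

noncomputable section

namespace Crest.Agent.N207.H

theorem sum_abs_le (u : E4) : ∑ i, |u i| ≤ 2 * ‖u‖ := by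
  have h := Finset.sum_mul_sq_le_sq_mul_sq Finset.univ (fun _ : Fin 4 => (1 : ℝ)) fun i => |u i|
  simp only [one_mul, one_pow, sq_abs, Finset.sum_const, Finset.card_univ, Fintype.card_fin,
    nsmul_eq_mul, mul_one, ← EuclideanSpace.real_norm_sq_eq] at h
  refine abs_le_of_sq_le_sq' ?_ (by positivity) |>.2
  push_cast at h
  linarith

theorem bilin_le {D : Fin 4 → Fin 4 → ℝ} {c : ℝ} (h : ∀ i j, |D i j| ≤ c) (u v : E4) :
    |∑ i, ∑ j, D i j * u i * v j| ≤ 4 * c * ‖u‖ * ‖v‖ := by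
  have hc : 0 ≤ c := (abs_nonneg _).trans (h 0 0)
  have h1 : |∑ i, ∑ j, D i j * u i * v j| ≤ ∑ i, ∑ j, c * (|u i| * |v j|) := by
    refine (Finset.abs_sum_le_sum_abs _ _).trans (Finset.sum_le_sum fun i _ =>
      (Finset.abs_sum_le_sum_abs _ _).trans (Finset.sum_le_sum fun j _ => ?_))
    rw [mul_assoc, abs_mul, abs_mul]
    exact mul_le_mul_of_nonneg_right (h i j) (by positivity)
  simp only [← Finset.mul_sum, ← Finset.sum_mul] at h1
  refine h1.trans ?_
  have h2 : (∑ i, |u i|) * ∑ j, |v j| ≤ (2 * ‖u‖) * (2 * ‖v‖) :=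
    mul_le_mul (sum_abs_le u) (sum_abs_le v) (by positivity) (by positivity)
  nlinarith

theorem bil_one' (u v : E4) : bil (1 : Matrix (Fin 4) (Fin 4) ℝ) u v = inner ℝ u v := by
  rw [bil_apply, PiLp.inner_apply]
  refine Finset.sum_congr rfl fun i _ => ?_
  rw [Finset.sum_eq_single i]
  · simp [mul_comm]
  · intro j _ hj
    simp [Matrix.one_apply_ne hj.symm]
  · simp

theorem norm_le_of_comp {z : E4} {c : ℝ} (h : ∀ k, |z k| ≤ c) : ‖z‖ ≤ 2 * c := by
  have hc : 0 ≤ c := (abs_nonneg _).trans (h 0)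
  refine abs_le_of_sq_le_sq' ?_ (by positivity) |>.2
  rw [EuclideanSpace.real_norm_sq_eq]
  have : ∑ k, z k ^ 2 ≤ ∑ _k : Fin 4, c ^ 2 :=
    Finset.sum_le_sum fun k _ => sq_le_sq' (abs_le.1 (h k)).1 (abs_le.1 (h k)).2
  simp only [Finset.sum_const, Finset.card_univ, Fintype.card_fin, nsmul_eq_mul] at this
  push_cast at this
  linarith

theorem norm_Gam_le {G : MetricField 4} {x : E4} {c : ℝ}
    (h : ∀ k i j, |christoffel G x k i j| ≤ c) : ‖Gam G x‖ ≤ 8 * c := by
  have hc : 0 ≤ c := (abs_nonneg _).trans (h 0 0 0)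
  refine ContinuousLinearMap.opNorm_le_bound₂ _ (by positivity) fun u v => ?_
  refine (norm_le_of_comp fun k => ?_).trans (le_of_eq (by ring : 2 * (4 * c * ‖u‖ * ‖v‖) = _))
  rw [Gam_apply]
  exact bilin_le (h k) u v

variable (M : Type*) [TopologicalSpace M] [ChartedSpace E4 M] [IsManifold 𝓘(ℝ, E4) ∞ M]
  [CompactSpace M] [T3Space M] [ConnectedSpace M] [MeasurableSpace M] [BorelSpace M]

variable {M} in
theorem pm_inv (g : Met 4 M) {N : Nk M} (hN : N.Top) {γ : E4 ≃ₗᵢ[ℝ] E4} (hγ : γ ∈ N.Γ) {x : E4}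
    (hx : x ∈ shell N.a N.b) (u v : E4) :
    bil (g.pm N.Ψ (γ x)) (γ u) (γ v) = bil (g.pm N.Ψ x) u v := by
  have hs : ∀ z ∈ shell N.a N.b, γ z ∈ shell N.a N.b := fun z hz => by
    simpa only [shell, mem_ofPred_eq, γ.norm_map] using hz
  have hd : HasFDerivAt (fun z => γ z) (γ.toContinuousLinearEquiv : E4 →L[ℝ] E4) x :=
    γ.toContinuousLinearEquiv.hasFDerivAt
  have h1 := Gs.pm_comp_bil g (Gs.par_md hN.par (hs x hx)) hd.differentiableAt u v
  rw [hd.fderiv, Gs.pm_congr g (Ψ' := N.Ψ) (ev_of_on hN.par.isOpen hx fun z hz =>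
    ((hN.fib z hz _ (hs z hz)).2 ⟨γ, hγ, rfl⟩).symm)] at h1
  exact h1.symm

theorem br : BR M := by
  refine ⟨fun η hη => ⟨min (1 / 100) (η / 96), by positivity, fun g N V hN hR => ?_⟩,
    fun g N hN hR x hx ρ hρ h0 u v w => ?_⟩
  · have hG := hN.par.riem g
    have h1 : min (1 / 100) (η / 96) ≤ 1 / 100 := min_le_left _ _
    have h2 : min (1 / 100) (η / 96) ≤ η / 96 := min_le_right _ _
    refine ⟨hN.grp.fin, hN.a_pos, hG, fun γ hγ x hx u v => pm_inv g hN hγ hx u v,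
      fun x hx u v => ?_, fun x hx => ?_⟩
    · have h := bilin_le (Rad.jg_ent (hR.jet x hx)) u v
      rw [← bil_one', bil_apply, bil_apply, ← Finset.sum_sub_distrib]
      simp only [← Finset.sum_sub_distrib, ← sub_mul]
      refine h.trans ?_
      gcongr
      linarith
    · have hx0 : 0 < ‖x‖ := hN.a_pos.trans hx.1
      have h := norm_Gam_le fun k i j => Rad.jg_chr hG hx (hR.jet x hx) h1 le_rfl hx0 k i j
      rw [← le_div_iff₀ hx0]
      refine h.trans ?_
      rw [← mul_assoc, ← mul_div_assoc]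
      gcongr
      linarith
  · have hG := hR.riem
    set G := g.pm N.Ψ with hGd
    set Z := curv (Gam G) x u v w with hZ
    have hb : ∀ X : E4, |bil (G x) X X - ‖X‖ ^ 2| ≤ 1 / 100 * ‖X‖ ^ 2 := fun X => by
      have h := hR.near x hx X X
      rwa [real_inner_self_eq_norm_sq, mul_assoc, ← sq] at h
    have hs : ∀ X : E4, √(bil (G x) X X) ≤ 11 / 10 * ‖X‖ := fun X => by
      rw [Real.sqrt_le_left (by positivity)]
      have := (abs_le.1 (hb X)).2
      nlinarith [sq_nonneg ‖X‖]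
    have h1 := Ar.abs_evT_le (hG.posDef x hx) (rmT G x) ![Z, w, u, v]
    rw [AI.evT_rmT hG hx, Fin.prod_univ_four] at h1
    simp only [Matrix.cons_val_zero, Matrix.cons_val_one, Matrix.cons_val] at h1
    have h2 : √(ipA (G x)⁻¹ (rmT G x) (rmT G x)) ≤ ρ := by
      rw [Real.sqrt_le_left hρ]
      exact (hN.par.par_rm g 0 hx).symm.trans_le h0
    have h3 : bil (G x) Z Z ≤ ρ * (11 / 10 * ‖Z‖ * (11 / 10 * ‖w‖) * (11 / 10 * ‖u‖) *
        (11 / 10 * ‖v‖)) := by
      refine ((le_abs_self _).trans h1).trans ?_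
      gcongr <;> exact hs _
    have h4 := (abs_le.1 (hb Z)).1
    rcases (norm_nonneg Z).eq_or_lt with h5 | h5
    · rw [← h5]; positivity
    · have h6 : 0 ≤ ρ * ‖u‖ * ‖v‖ * ‖w‖ := by positivity
      refine le_of_mul_le_mul_left ?_ h5
      nlinarith [mul_nonneg h5.le h6]

end Crest.Agent.N207.H

end
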