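import Crest.Agent.N207.H.Curv1
import Crest.Agent.N207.Rad.Crd2
import Crest.Agent.N207.D.Ricb

/-!
# Row 207, block H (helper10): curvature decay on a rough neck
-/

set_option autoImplicit false
set_option linter.unusedSectionVars false

open scoped ContDiff Manifold Topology
open Set Filter Metric MeasureTheory
open Crest.GeometryTopology.CoordMetric
open Crest.Agent.R202.Tens Crest.Agent.N207.Sk Crest.Agent.R247

noncomputable section

namespace Crest.Agent.N207.H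

theorem le_wt_sq {a b : ℝ} (ha : 0 ≤ a) (hb : 0 ≤ b) (x : E4) :
    a / ‖x‖ + ‖x‖ / b ≤ wt a b x ^ 2 := by
  have h1 := Real.sq_sqrt (show 0 ≤ a / ‖x‖ by positivity)
  have h2 := Real.sq_sqrt (show 0 ≤ ‖x‖ / b by positivity)
  unfold wt
  nlinarith [mul_nonneg (Real.sqrt_nonneg (a / ‖x‖)) (Real.sqrt_nonneg (‖x‖ / b))]

/-- the static decay estimate -/
theorem decay_static (hB : BoRm) (hK : KaRm) : ∃ C : ℝ, 1 ≤ C ∧ ∀ (G : MetricField 4)
    (a b δ η K : ℝ), 0 < a → 0 < b → 0 < δ → 0 ≤ K → C * δ ≤ 1 / 10 → C * (K * b) ≤ δ / 10 →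
    η ≤ 1 / 16000 → 30000 * η ≤ δ → IsRiemannianOn G (shell a b) →
    (∀ x ∈ shell a b, JG 2 G x ‖x‖ η) →
    (∀ x : E4, 3 / 2 * a ≤ ‖x‖ → ‖x‖ ≤ 3 / 4 * b →
      nsq G (covN G (ricT G) 1) x ≤ K ^ 2 / ‖x‖ ^ 4 ∧ nsq G (covN G (ricT G) 2) x ≤ K ^ 2 / ‖x‖ ^ 6) →
    ∀ x : E4, 3 / 2 * a ≤ ‖x‖ → ‖x‖ ≤ 3 / 4 * b →
      nsq G (rmT G) x ≤ 6 * δ ^ 2 / ‖x‖ ^ 4 * (a / ‖x‖ + ‖x‖ / b) := by
  obtain ⟨C1, h1⟩ := hB
  obtain ⟨C2, h2⟩ := hK
  obtain ⟨C, c0, c1, c2⟩ : ∃ C : ℝ, 1 ≤ C ∧ C1 ≤ C ∧ C2 ≤ C :=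
    ⟨max 1 (max C1 C2), le_max_left _ _, (le_max_left _ _).trans (le_max_right _ _),
      (le_max_right _ _).trans (le_max_right _ _)⟩
  refine ⟨C, c0, fun G a b δ η K ha hb hδ K0 k1 k2 η1 η2 hG hJ hE x x1 x2 => ?_⟩
  obtain ⟨S, hSd⟩ : ∃ S : Set E4, S = {y | 3 / 2 * a ≤ ‖y‖ ∧ ‖y‖ ≤ 3 / 4 * b} := ⟨_, rfl⟩
  have mS : ∀ {y}, y ∈ S ↔ 3 / 2 * a ≤ ‖y‖ ∧ ‖y‖ ≤ 3 / 4 * b := by rw [hSd]; exact Iff.rfl
  have hS : IsCompact S := (isCompact_closedBall (0 : E4) (3 / 4 * b)).of_isClosed_subset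
    (hSd ▸ (isClosed_le continuous_const continuous_norm).inter
      (isClosed_le continuous_norm continuous_const))
    fun y hy => mem_closedBall_zero_iff.2 (mS.1 hy).2
  have hs : S ⊆ shell a b := fun y hy => ⟨by linarith [(mS.1 hy).1], by linarith [(mS.1 hy).2]⟩
  have pos : ∀ y ∈ S, 0 < ‖y‖ := fun y hy => ha.trans (hs hy).1
  have sP : ContDiffOn ℝ ∞ (nsq G (rmT G)) (shell a b) := (SmT.rmT hG).ip hG (SmT.rmT hG)
  have nn : ∀ {k} (T : Tn 4 k), ∀ y ∈ S, 0 ≤ nsq G T y := fun T y hy =>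
    Ar.ipA_nonneg (hG.posDef y (hs hy)) _
  have := decay_abs hS (P := nsq G (rmT G)) (ρ := rho) (L := laplaceBeltrami G (nsq G (rmT G)))
    (Γ := Bo84.gam G (nsq G (rmT G)) (nsq G (rmT G))) (τ := nsq G (covN G (rmT G) 1))
    (E1 := nsq G (covN G (ricT G) 1)) (E2 := nsq G (covN G (ricT G) 2)) (a := 3 / 2 * a)
    (b := 3 / 4 * b) c0 hδ K0 (by positivity) (by positivity) k1
    (by nlinarith [mul_nonneg K0 hb.le]) (sP.continuousOn.mono hs) rho_cd.continuous.continuousOn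
    (fun y hy => pow_pos (pos y hy) 2) (fun y hy => by
      have a1 := Rad.jg_rm hG (hs hy) (hJ y (hs hy)) (by linarith) le_rfl (pos y hy)
      have a2 : √(nsq G (rmT G) y) ≤ δ / rho y := by
        rw [← mul_div_assoc] at a1
        exact a1.trans (div_le_div_of_nonneg_right η2 (sq_nonneg _))
      rw [← div_pow]
      exact (Real.sqrt_le_left (div_nonneg hδ.le (sq_nonneg _))).1 a2)
    (fun y hy y1 y2 => by
      have hy' := hs hy
      obtain ⟨e1, e2⟩ := hE y (mS.1 hy).1 (mS.1 hy).2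
      refine ⟨by rw [rho, ← pow_mul]; exact e1, by rw [rho, ← pow_mul]; exact e2, ?_, ?_,
        fun A B Λ hA hB hΛ hm he => ?_⟩
      · have := nn (rmT G) y hy
        refine le_trans ?_ (h1 G _ hG y hy')
        gcongr
      · refine (h2 G _ hG y hy').trans ?_
        have := nn (rmT G) y hy
        have := nn (covN G (ricT G) 1) y hy
        gcongr
      · have nb : S ∈ 𝓝 y := by
          have z1 : 3 / 2 * a < ‖y‖ := lt_of_pow_lt_pow_left₀ 2 (norm_nonneg _) y1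
          have z2 : ‖y‖ < 3 / 4 * b := lt_of_pow_lt_pow_left₀ 2 (by positivity) y2
          filter_upwards [continuous_norm.continuousAt.eventually (Ioo_mem_nhds z1 z2)] with z hz
            using mS.2 ⟨hz.1.le, hz.2.le⟩
        have g1 := (abs_le.1 (Rad.nq_gam hG hy' (hJ y hy') (by linarith))).2
        have g2 := (abs_le.1 (Rad.nq_lap hG hy' (hJ y hy') (by linarith) one_le_two (pos y hy))).1
        refine contact hG hy' ((sP.contDiffAt (hG.isOpen.mem_nhds hy')).of_le Bo84.two_le_infty)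
          (rho_cd.contDiffAt.of_le Bo84.two_le_infty) (pow_pos (pos y hy) 2) hA hB hΛ
          (hm.isLocalMax nb) he ?_ ?_
        · show Bo84.gam G Rad.nq Rad.nq y ≤ 41 / 10 * ‖y‖ ^ 2
          nlinarith [sq_nonneg ‖y‖]
        · show _ ≤ laplaceBeltrami G Rad.nq y
          linarith) x (mS.2 ⟨x1, x2⟩)
  have x0 := pos x (mS.2 ⟨x1, x2⟩)
  rw [rho, Real.sqrt_sq x0.le, ← pow_mul] at this
  refine this.trans ?_
  have e : 3 / 2 * a / ‖x‖ + ‖x‖ / (3 / 4 * b) ≤ 3 / 2 * (a / ‖x‖ + ‖x‖ / b) := by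
    have : ‖x‖ / (3 / 4 * b) = 4 / 3 * (‖x‖ / b) := by field_simp
    have : 0 ≤ ‖x‖ / b := by positivity
    rw [mul_div_assoc]; linarith
  calc _ ≤ 4 * δ ^ 2 / ‖x‖ ^ (2 * 2) * (3 / 2 * (a / ‖x‖ + ‖x‖ / b)) :=
        mul_le_mul_of_nonneg_left e (by positivity)
    _ = _ := by ring

variable {M : Type*} [TopologicalSpace M] [ChartedSpace E4 M] [IsManifold 𝓘(ℝ, E4) ∞ M]
  [CompactSpace M] [T3Space M] [ConnectedSpace M] [MeasurableSpace M] [BorelSpace M]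

/-- **curvature decay on a rough neck** -/
theorem curv {F : Flow M} (hF : Base F) (hB : BoRm) (hK : KaRm) : CURV F := by
  intro η2 η20
  obtain ⟨C, C1, dec⟩ := decay_static hB hK
  obtain ⟨ε0, c, r0, ε00, c0, r00, -, reg⟩ := hF.e.reg _ (half_pos F.hT)
  choose Ce Ce0 reg using reg
  obtain ⟨Cv, Cv0, up⟩ := hF.c.up _ (half_pos F.hT)
  obtain ⟨β, β0, sub⟩ := ball_sub_shell (M := M)
  obtain ⟨δ, δ0, δ1, δ2, δ3⟩ : ∃ δ : ℝ, 0 < δ ∧ C * δ ≤ 1 / 10 ∧ 3 * δ ≤ η2 ∧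
      4 * (Cv * β ^ 4) * δ ≤ ε0 := by
    refine ⟨min (1 / (10 * C)) (min (η2 / 3) (ε0 / (4 * (Cv * β ^ 4)))), by positivity, ?_, ?_, ?_⟩
    · have := (le_div_iff₀ (by positivity)).1
        (min_le_left (1 / (10 * C)) (min (η2 / 3) (ε0 / (4 * (Cv * β ^ 4)))))
      linarith
    · have := (min_le_right (1 / (10 * C)) _).trans (min_le_left (η2 / 3) (ε0 / (4 * (Cv * β ^ 4))))
      linarith
    · have := (le_div_iff₀ (by positivity)).1
        ((min_le_right (1 / (10 * C)) _).trans (min_le_right (η2 / 3) (ε0 / (4 * (Cv * β ^ 4)))))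
      linarith
  have δ4 : δ ≤ 1 := by nlinarith
  obtain ⟨K, K1, K2, K3⟩ : ∃ K : ℝ, 1 ≤ K ∧ Ce 1 / β ^ 4 ≤ K ∧ Ce 2 / β ^ 6 ≤ K := by
    have := Ce0 1; have := Ce0 2
    have : 0 ≤ Ce 1 / β ^ 4 := by positivity
    have : 0 ≤ Ce 2 / β ^ 6 := by positivity
    exact ⟨1 + Ce 1 / β ^ 4 + Ce 2 / β ^ 6, by linarith, by linarith, by linarith⟩
  refine ⟨min (1 / 16000) (δ / 30000), min (min 1 (r0 / β)) (δ / (10 * C * K)),
    fun k => √(Ce k * (26 * δ ^ 2 * (Cv * β ^ 4) + β) / β ^ (4 + 2 * k)), by positivity,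
    by positivity, fun t ht N V hN hR hb x hx => ?_⟩
  have tm := late_mem ht
  have a0 := hN.a_pos
  have b0 : 0 < N.b := a0.trans hN.a_lt
  have b1 : N.b ≤ 1 := hb.trans ((min_le_left _ _).trans (min_le_left _ _))
  have b2 : N.b * β ≤ r0 :=
    (le_div_iff₀ β0).1 (hb.trans ((min_le_left _ _).trans (min_le_right _ _)))
  have b3 : N.b * (10 * C * K) ≤ δ := (le_div_iff₀ (by positivity)).1 (hb.trans (min_le_right _ _))
  have η1 : min (1 / 16000) (δ / 30000) ≤ 1 / 16000 := min_le_left _ _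
  have η2' : min (1 / 16000) (δ / 30000) ≤ δ / 30000 := min_le_right _ _
  have hG := hN.par.riem (F.m t)
  have prm : ∀ y ∈ shell N.a N.b, (F.m t).rm 0 (N.Ψ y) =
      nsq ((F.m t).pm N.Ψ) (rmT ((F.m t).pm N.Ψ)) y := fun y hy => hN.par.par_rm (F.m t) 0 hy
  have en_le : ∀ y : E4, 3 / 2 * N.a ≤ ‖y‖ → ‖y‖ ≤ 3 / 4 * N.b → ∀ m : ℝ, 0 ≤ m →
      (∀ z : E4, 3 / 4 * ‖y‖ ≤ ‖z‖ → ‖z‖ ≤ 5 / 4 * ‖y‖ → (F.m t).rm 0 (N.Ψ z) ≤ m / ‖y‖ ^ 4) →
      F.hc.en t (N.Ψ y) (β * ‖y‖) ≤ m * (Cv * β ^ 4) := by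
    intro y y1 y2 m m0 hm
    have y0 : 0 < ‖y‖ := by linarith
    have := hF.ok.int.fin t tm
    have h1 := norm_setIntegral_le_of_norm_le_const (μ := F.hc.vol t) (f := F.hc.N 0 t)
      (s := F.hc.B t (N.Ψ y) (β * ‖y‖)) (C := m / ‖y‖ ^ 4) (measure_lt_top _ _) fun p hp => by
        obtain ⟨z, z1, z2, rfl⟩ := sub (F.m t) N hN (fun z hz => by
          have := (abs_le.1 (Rad.nq_gam hG hz (hR.jet z hz) (by linarith))).2
          show Bo84.gam _ Rad.nq Rad.nq z ≤ 41 / 10 * ‖z‖ ^ 2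
          nlinarith [sq_nonneg ‖z‖]) y (by linarith) (by linarith) p hp
        rw [Real.norm_of_nonneg (hF.ok.evo.N_nonneg 0 t tm _)]
        exact hm z z1 z2
    refine ((le_abs_self _).trans h1).trans ((mul_le_mul_of_nonneg_left
      (up t ht _ _ (by positivity)) (by positivity)).trans (le_of_eq ?_))
    field_simp
  have quart : ∀ {y z : E4} {m : ℝ}, 0 < ‖y‖ → 0 ≤ m → 3 / 4 * ‖y‖ ≤ ‖z‖ →
      m / ‖z‖ ^ 4 ≤ 256 / 81 * m / ‖y‖ ^ 4 := fun {y z m} y0 m0 h => by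
    calc _ ≤ m / (3 / 4 * ‖y‖) ^ 4 := by gcongr
      _ = _ := by field_simp; ring
  have small : ∀ y : E4, 3 / 2 * N.a ≤ ‖y‖ → ‖y‖ ≤ 3 / 4 * N.b →
      F.hc.en t (N.Ψ y) (β * ‖y‖) ≤ ε0 := fun y y1 y2 => by
    have y0 : 0 < ‖y‖ := by linarith
    refine (en_le y y1 y2 (256 / 81 * δ ^ 2) (by positivity) fun z z1 z2 => ?_).trans ?_
    · have hz : z ∈ shell N.a N.b := ⟨by linarith, by linarith⟩
      have z0 : 0 < ‖z‖ := by linarith
      have a1 := Rad.jg_rm hG hz (hR.jet z hz) (by linarith) le_rfl z0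
      have a2 : √(nsq ((F.m t).pm N.Ψ) (rmT ((F.m t).pm N.Ψ)) z) ≤ δ / ‖z‖ ^ 2 := by
        rw [← mul_div_assoc] at a1
        exact a1.trans (div_le_div_of_nonneg_right (by linarith) (sq_nonneg _))
      rw [Real.sqrt_le_left (by positivity), div_pow, ← pow_mul, ← prm z hz] at a2
      exact a2.trans (quart y0 (sq_nonneg δ) z1)
    · nlinarith [mul_pos (mul_pos Cv0 (pow_pos β0 4)) δ0]
  have R : ∀ k, ∀ y : E4, 3 / 2 * N.a ≤ ‖y‖ → ‖y‖ ≤ 3 / 4 * N.b →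
      (F.m t).rm k (N.Ψ y) ≤
        Ce k * (F.hc.en t (N.Ψ y) (β * ‖y‖) + β * ‖y‖) / (β * ‖y‖) ^ (4 + 2 * k) ∧
      (F.m t).rc k (N.Ψ y) ≤ Ce k / (β * ‖y‖) ^ (2 + 2 * k) := fun k y y1 y2 => by
    have y0 : 0 < ‖y‖ := by linarith
    have s0 : 0 < β * ‖y‖ := by positivity
    exact (reg k t ht (N.Ψ y) _ s0 (by nlinarith) (small y y1 y2) (N.Ψ y)
      (by show F.hc.d t _ _ < _; rw [hF.ok.dist.self t tm]; positivity)).1 t tm
      (by rw [sub_self, abs_zero]; positivity)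
  have D := dec _ N.a N.b δ _ K a0 b0 δ0 (by linarith) δ1 (by linarith) η1 (by linarith) hG hR.jet
    fun y y1 y2 => by
      have y0 : 0 < ‖y‖ := by linarith
      have hy : y ∈ shell N.a N.b := ⟨by linarith, by linarith⟩
      rw [← hN.par.par_rc (F.m t) 1 hy, ← hN.par.par_rc (F.m t) 2 hy]
      have kk : K ≤ K ^ 2 := by nlinarith
      refine ⟨(R 1 y y1 y2).2.trans ?_, (R 2 y y1 y2).2.trans ?_⟩
      · rw [mul_pow, ← div_div]
        exact div_le_div_of_nonneg_right (K2.trans kk) (by positivity)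
      · rw [mul_pow, ← div_div]
        exact div_le_div_of_nonneg_right (K3.trans kk) (by positivity)
  have x1 := hx.1
  have x2 := hx.2
  have x0 : 0 < ‖x‖ := by linarith
  have W := le_wt_sq a0.le b0.le x
  have p1 : 0 ≤ N.a / ‖x‖ := by positivity
  have p2 : 0 ≤ ‖x‖ / N.b := by positivity
  refine ⟨?_, fun k => ?_⟩
  · rw [prm x ⟨by linarith, by linarith⟩]
    refine (D x (by linarith) (by linarith)).trans ?_
    have : 6 * δ ^ 2 ≤ η2 ^ 2 := by nlinarith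
    calc _ ≤ η2 ^ 2 / ‖x‖ ^ 4 * wt N.a N.b x ^ 2 := by gcongr
      _ = _ := by ring
  · have e1 := en_le x (by linarith) (by linarith) (26 * δ ^ 2 * wt N.a N.b x ^ 2) (by positivity)
      fun z z1 z2 => by
        have z0 : 0 < ‖z‖ := by linarith
        rw [prm z ⟨by linarith, by linarith⟩]
        refine (D z (by linarith) (by linarith)).trans ?_
        have a1 : N.a / ‖z‖ ≤ 4 / 3 * (N.a / ‖x‖) := by
          calc _ ≤ N.a / (3 / 4 * ‖x‖) := by gcongr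
            _ = _ := by field_simp
        have a2 : ‖z‖ / N.b ≤ 5 / 4 * (‖x‖ / N.b) := by
          rw [← mul_div_assoc]; gcongr
        calc _ ≤ 256 / 81 * (6 * δ ^ 2) / ‖x‖ ^ 4 * (4 / 3 * wt N.a N.b x ^ 2) :=
              mul_le_mul (quart x0 (by positivity) z1) (by linarith) (by positivity) (by positivity)
          _ = 2048 / 81 * (δ ^ 2 * wt N.a N.b x ^ 2) / ‖x‖ ^ 4 := by ring
          _ ≤ _ := div_le_div_of_nonneg_right (by nlinarith [sq_nonneg (δ * wt N.a N.b x)])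
              (by positivity)
    have e2 : ‖x‖ ≤ wt N.a N.b x ^ 2 := by
      have : ‖x‖ ≤ ‖x‖ / N.b := by rw [le_div_iff₀ b0]; nlinarith
      linarith
    have e3 := mul_le_mul_of_nonneg_left e2 β0.le
    have := Ce0 k
    refine (R k x (by linarith) (by linarith)).1.trans ?_
    rw [div_pow, mul_pow (√_), Real.sq_sqrt (by positivity)]
    calc _ ≤ Ce k * ((26 * δ ^ 2 * (Cv * β ^ 4) + β) * wt N.a N.b x ^ 2) /
          (β * ‖x‖) ^ (4 + 2 * k) := by gcongr; linarith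
      _ = _ := by field_simp; ring

end Crest.Agent.N207.H

end
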