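import Crest.Agent.R247.Bo3_84
import Crest.Agent.R226.EucMin_77

/-!
# Row 207, block H: the contact point lemma for the neck barrier

`bψ A B s = A s^(-5/6) + B s^(-1/2)` (`s = r²`). If `P - Λ bψ(ρ)³` has a local maximum `0` at `x`,
`|∇ρ|² ≤ 4.1 ρ` and `Δρ ≥ 7.9`, then `P ΔP - (2/3)|∇P|² ≤ -(9/10) P²/ρ` at `x`.
-/

set_option autoImplicit false

open scoped ContDiff Topology
open Set Filter
open Crest.GeometryTopology.CoordMetric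
open Crest.Agent.R247.Bo84

noncomputable section

namespace Crest.Agent.N207.H

/-- the cube root of the barrier, as a function of `s = r²` -/
def bψ (A B s : ℝ) : ℝ := A * s ^ (-5 / 6 : ℝ) + B * s ^ (-1 / 2 : ℝ)

/-- its first derivative -/
def bψ1 (A B s : ℝ) : ℝ := (-5 / 6 * (A * s ^ (-5 / 6 : ℝ)) - 1 / 2 * (B * s ^ (-1 / 2 : ℝ))) / s

/-- its second derivative -/
def bψ2 (A B s : ℝ) : ℝ :=
  (55 / 36 * (A * s ^ (-5 / 6 : ℝ)) + 3 / 4 * (B * s ^ (-1 / 2 : ℝ))) / s ^ 2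

theorem hasDerivAt_rpow' (p : ℝ) {s : ℝ} (hs : 0 < s) :
    HasDerivAt (fun s : ℝ => s ^ p) (p * s ^ p / s) s := by
  have h := Real.hasDerivAt_rpow_const (p := p) (Or.inl hs.ne')
  convert h using 1
  rw [Real.rpow_sub_one hs.ne']
  ring

theorem hasDerivAt_bψ (A B : ℝ) {s : ℝ} (hs : 0 < s) : HasDerivAt (bψ A B) (bψ1 A B s) s := by
  have h := ((hasDerivAt_rpow' (-5 / 6) hs).const_mul A).add
    ((hasDerivAt_rpow' (-1 / 2) hs).const_mul B)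
  refine HasDerivAt.congr_deriv (f := bψ A B) h ?_
  simp only [bψ1]; ring

theorem hasDerivAt_bψ1 (A B : ℝ) {s : ℝ} (hs : 0 < s) : HasDerivAt (bψ1 A B) (bψ2 A B s) s := by
  have h := ((((hasDerivAt_rpow' (-5 / 6) hs).const_mul A).const_mul (-5 / 6)).sub
    (((hasDerivAt_rpow' (-1 / 2) hs).const_mul B).const_mul (1 / 2))).div (hasDerivAt_id s) hs.ne'
  refine HasDerivAt.congr_deriv (f := bψ1 A B) h ?_
  simp only [bψ2, id, Pi.sub_apply]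
  field_simp
  ring

theorem contDiffAt_bψ (A B : ℝ) {s : ℝ} (hs : 0 < s) : ContDiffAt ℝ 2 (bψ A B) s :=
  (contDiffAt_const.mul (contDiffAt_id.rpow_const_of_ne hs.ne')).add
    (contDiffAt_const.mul (contDiffAt_id.rpow_const_of_ne hs.ne'))

theorem deriv_bψ3 (A B : ℝ) {s : ℝ} (hs : 0 < s) :
    deriv (fun s => bψ A B s ^ 3) s = 3 * bψ A B s ^ 2 * bψ1 A B s := by
  have h := ((hasDerivAt_bψ A B hs).pow 3).deriv
  refine Eq.trans ?_ (h.trans ?_)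
  · rfl
  · push_cast; ring

theorem deriv2_bψ3 (A B : ℝ) {s : ℝ} (hs : 0 < s) :
    deriv (deriv fun s => bψ A B s ^ 3) s =
      6 * bψ A B s * bψ1 A B s ^ 2 + 3 * bψ A B s ^ 2 * bψ2 A B s := by
  have e : deriv (fun s => bψ A B s ^ 3) =ᶠ[𝓝 s] fun s => 3 * bψ A B s ^ 2 * bψ1 A B s := by
    filter_upwards [Ioi_mem_nhds hs] with t ht using deriv_bψ3 A B ht
  rw [e.deriv_eq]
  have h := ((((hasDerivAt_bψ A B hs).pow 2).const_mul 3).mul (hasDerivAt_bψ1 A B hs)).deriv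
  refine Eq.trans ?_ (h.trans ?_)
  · rfl
  · simp only [Pi.pow_apply]; push_cast; ring

/-- the barrier inequality -/
theorem bψ_super {A B s g l : ℝ} (hA : 0 ≤ A) (hB : 0 ≤ B) (hs : 0 < s) (hg : g ≤ 41 / 10 * s)
    (hl : 79 / 10 ≤ l) : bψ2 A B s * g + bψ1 A B s * l ≤ -(3 / 10) * bψ A B s / s := by
  have hu : 0 ≤ A * s ^ (-5 / 6 : ℝ) := mul_nonneg hA (Real.rpow_nonneg hs.le _)
  have hw : 0 ≤ B * s ^ (-1 / 2 : ℝ) := mul_nonneg hB (Real.rpow_nonneg hs.le _)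
  simp only [bψ, bψ1, bψ2]
  generalize A * s ^ (-5 / 6 : ℝ) = u at hu ⊢
  generalize B * s ^ (-1 / 2 : ℝ) = w at hw ⊢
  have h1 : (55 / 36 * u + 3 / 4 * w) / s ^ 2 * g ≤ (55 / 36 * u + 3 / 4 * w) / s ^ 2 * (41 / 10 * s) :=
    mul_le_mul_of_nonneg_left hg (by positivity)
  have h2 : (5 / 6 * u + 1 / 2 * w) / s * (79 / 10) ≤ (5 / 6 * u + 1 / 2 * w) / s * l :=
    mul_le_mul_of_nonneg_left hl (by positivity)
  have e1 : (55 / 36 * u + 3 / 4 * w) / s ^ 2 * (41 / 10 * s) =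
      41 / 10 * (55 / 36 * (u / s) + 3 / 4 * (w / s)) := by field_simp
  have e2 : (5 / 6 * u + 1 / 2 * w) / s * (79 / 10) = 79 / 10 * (5 / 6 * (u / s) + 1 / 2 * (w / s)) := by
    field_simp
  have e3 : (-5 / 6 * u - 1 / 2 * w) / s * l = -((5 / 6 * u + 1 / 2 * w) / s * l) := by ring
  have e4 : -(3 / 10) * (u + w) / s = -(3 / 10) * (u / s + w / s) := by ring
  have hus : 0 ≤ u / s := by positivity
  have hws : 0 ≤ w / s := by positivity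
  rw [e3, e4]
  linarith

variable {n : ℕ} {G : MetricField n} {U : Set (EuclideanSpace ℝ (Fin n))}
  {x : EuclideanSpace ℝ (Fin n)}

theorem lap_nonpos_of_max (hg : IsRiemannianOn G U) (hx : x ∈ U)
    {f : EuclideanSpace ℝ (Fin n) → ℝ} (hf : ContDiffAt ℝ 2 f x) (hm : IsLocalMax f x) :
    laplaceBeltrami G f x ≤ 0 := by
  have h1 : IsLocalMin (fun y => (-1) * f y) x := by
    filter_upwards [hm] with q hq
    linarith
  have hf' : ContDiffAt ℝ 2 (fun y => (-1) * f y) x := contDiffAt_const.mul hf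
  have h2 : 0 ≤ laplaceBeltrami G (fun y => (-1) * f y) x := by
    obtain ⟨ξ, hξ⟩ := exists_frame hg hx
    rw [lap_frame hg hx hf' hξ]
    refine Finset.sum_nonneg fun a _ => ?_
    rw [hess_apply, h1.fderiv_eq_zero]
    simpa using Crest.Agent.R226.EucMin77.hess_nonneg_of_isLocalMin hf' h1 (ξ a)
  rw [lap_const_mul hg hx (-1) hf] at h2
  linarith

/-- **contact point lemma** -/
theorem contact (hg : IsRiemannianOn G U) (hx : x ∈ U) {P ρ : EuclideanSpace ℝ (Fin n) → ℝ}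
    (hP : ContDiffAt ℝ 2 P x) (hρ : ContDiffAt ℝ 2 ρ x) (hρ0 : 0 < ρ x) {A B Λ : ℝ}
    (hA : 0 ≤ A) (hB : 0 ≤ B) (hΛ : 0 ≤ Λ)
    (hm : IsLocalMax (fun y => P y - Λ * bψ A B (ρ y) ^ 3) x)
    (he : P x = Λ * bψ A B (ρ x) ^ 3) (h1 : gam G ρ ρ x ≤ 41 / 10 * ρ x)
    (h2 : 79 / 10 ≤ laplaceBeltrami G ρ x) :
    P x * laplaceBeltrami G P x - 2 / 3 * gam G P P x ≤ -(9 / 10) * P x ^ 2 / ρ x := by
  have hφ : ContDiffAt ℝ 2 (fun s => bψ A B s ^ 3) (ρ x) := (contDiffAt_bψ A B hρ0).pow 3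
  have hh : ContDiffAt ℝ 2 (fun y => bψ A B (ρ y) ^ 3) x := hφ.comp x hρ
  have hΛh : ContDiffAt ℝ 2 (fun y => Λ * bψ A B (ρ y) ^ 3) x := contDiffAt_const.mul hh
  have hρd : DifferentiableAt ℝ ρ x := hρ.differentiableAt (by norm_num)
  have hφd : DifferentiableAt ℝ (fun s => bψ A B s ^ 3) (ρ x) := hφ.differentiableAt (by norm_num)
  have hhd : DifferentiableAt ℝ (fun y => bψ A B (ρ y) ^ 3) x := hh.differentiableAt (by norm_num)
  have l1 := lap_nonpos_of_max hg hx (hP.sub hΛh) hm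
  rw [lap_sub hg hx hP hΛh, lap_const_mul hg hx Λ hh,
    lap_comp hg hx (φ := fun s => bψ A B s ^ 3) hφ hρ, deriv_bψ3 A B hρ0,
    deriv2_bψ3 A B hρ0] at l1
  have d1 : fderiv ℝ P x = fderiv ℝ (fun y => Λ * bψ A B (ρ y) ^ 3) x := by
    have := hm.fderiv_eq_zero
    rw [fderiv_fun_sub (hP.differentiableAt (by norm_num)) (hΛh.differentiableAt (by norm_num)),
      sub_eq_zero] at this
    exact this
  have g1 : gam G P P x = (Λ * (3 * bψ A B (ρ x) ^ 2 * bψ1 A B (ρ x))) ^ 2 * gam G ρ ρ x := by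
    rw [gam_congr_fderiv d1 d1, gam_const_mul_left Λ hhd, gam_const_mul_right Λ hhd,
      gam_comp_left (φ := fun s => bψ A B s ^ 3) hφd hρd,
      gam_comp_right (φ := fun s => bψ A B s ^ 3) hφd hρd, deriv_bψ3 A B hρ0]
    ring
  have hψ0 : 0 ≤ bψ A B (ρ x) :=
    add_nonneg (mul_nonneg hA (Real.rpow_nonneg hρ0.le _))
      (mul_nonneg hB (Real.rpow_nonneg hρ0.le _))
  have s1 := bψ_super hA hB hρ0 h1 h2
  rw [g1, he]
  generalize bψ A B (ρ x) = ψ at *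
  generalize bψ1 A B (ρ x) = ψ1 at *
  generalize bψ2 A B (ρ x) = ψ2 at *
  generalize gam G ρ ρ x = γ at *
  generalize laplaceBeltrami G ρ x = l at *
  generalize laplaceBeltrami G P x = L at *
  have hP0 : 0 ≤ Λ * ψ ^ 3 := by positivity
  have a1 : Λ * ψ ^ 3 * L ≤
      Λ * ψ ^ 3 * (Λ * (3 * ψ ^ 2 * ψ1 * l + (6 * ψ * ψ1 ^ 2 + 3 * ψ ^ 2 * ψ2) * γ)) :=
    mul_le_mul_of_nonneg_left (by linarith) hP0
  have a2 : 3 * Λ ^ 2 * ψ ^ 5 * (ψ2 * γ + ψ1 * l) ≤ 3 * Λ ^ 2 * ψ ^ 5 * (-(3 / 10) * ψ / ρ x) :=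
    mul_le_mul_of_nonneg_left s1 (by positivity)
  have a3 : 3 * Λ ^ 2 * ψ ^ 5 * (-(3 / 10) * ψ / ρ x) = -(9 / 10) * (Λ * ψ ^ 3) ^ 2 / ρ x := by
    ring
  rw [← a3]
  nlinarith [a1, a2]

theorem bψ_eq (A B : ℝ) {s : ℝ} (hs : 0 < s) :
    ∃ u : ℝ, 0 ≤ u ∧ u ^ 3 = 1 / √s ^ 5 ∧ bψ A B s = A * u + B * (1 / √s) := by
  refine ⟨s ^ (-5 / 6 : ℝ), Real.rpow_nonneg hs.le _, ?_, ?_⟩
  · rw [Real.sqrt_eq_rpow, ← Real.rpow_natCast, ← Real.rpow_natCast, ← Real.rpow_mul hs.le,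
      ← Real.rpow_mul hs.le, one_div, ← Real.rpow_neg hs.le]
    norm_num
  · rw [bψ, Real.sqrt_eq_rpow, one_div (s ^ (1 / 2 : ℝ)), ← Real.rpow_neg hs.le]
    norm_num

theorem continuousOn_bψ (A B : ℝ) : ContinuousOn (bψ A B) (Ioi 0) := fun _ hs =>
  (hasDerivAt_bψ A B hs).continuousAt.continuousWithinAt

/-- the numerical contradiction at a contact point -/
theorem dec_num {C δ K b r P L Γ τ E1 E2 : ℝ} (hC : 1 ≤ C) (hδ : 0 < δ) (hK : 0 ≤ K) (hr : 0 < r)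
    (hrb : r ≤ b) (h1 : C * δ ≤ 1 / 10) (h2 : C * (K * b) ≤ δ / 10)
    (hlo : δ ^ 2 / (b * r ^ 3) ≤ P) (hup : P ≤ δ ^ 2 / r ^ 4)
    (hE1 : E1 ≤ K ^ 2 / r ^ 4) (hE2 : E2 ≤ K ^ 2 / r ^ 6)
    (hB : 2 * τ - C * (P * √P + √P * √E2) ≤ L) (hKa : Γ ≤ 3 * P * τ + C * P * E1)
    (hc : P * L - 2 / 3 * Γ ≤ -(9 / 10) * P ^ 2 / r ^ 2) : False := by
  have hb : 0 < b := hr.trans_le hrb
  have hP : 0 < P := lt_of_lt_of_le (by positivity) hlo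
  obtain ⟨p, hp⟩ : ∃ p, p = √P := ⟨_, rfl⟩
  have hp0 : 0 < p := hp ▸ Real.sqrt_pos.2 hP
  have hp2 : P = p ^ 2 := by rw [hp, Real.sq_sqrt hP.le]
  rw [← hp] at hB
  have u1 : p ≤ δ / r ^ 2 := by
    rw [hp, Real.sqrt_le_left (by positivity), div_pow, ← pow_mul]; exact hup
  have u2 : δ / (b * r) ≤ p := by
    rw [hp]
    refine Real.le_sqrt_of_sq_le (le_trans ?_ hlo)
    rw [div_pow]
    refine div_le_div_of_nonneg_left (by positivity) (by positivity) ?_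
    nlinarith [mul_le_mul_of_nonneg_left hrb (by positivity : 0 ≤ b * r ^ 2)]
  have u3 : √E2 ≤ K / r ^ 3 := by
    rw [Real.sqrt_le_left (by positivity), div_pow, ← pow_mul]; exact hE2
  have u4 : C * (K / r) ≤ p / 10 := by
    have : δ ≤ p * (b * r) := by rwa [div_le_iff₀ (by positivity)] at u2
    rw [← mul_div_assoc, div_le_iff₀ hr]
    have h3 : C * K * b ≤ p / 10 * r * b := by nlinarith
    exact le_of_mul_le_mul_right h3 hb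
  have u5 : K / r ≤ p / 10 := le_trans (le_mul_of_one_le_left (by positivity) hC) u4
  obtain ⟨w, hw⟩ : ∃ w, w = 1 / r ^ 2 := ⟨_, rfl⟩
  have hw0 : 0 < w := by rw [hw]; positivity
  obtain ⟨k, hk⟩ : ∃ k, k = K / r := ⟨_, rfl⟩
  have hk0 : 0 ≤ k := by rw [hk]; positivity
  have v1 : C * p ≤ w / 10 := by
    have : p ≤ δ * w := by rw [hw, mul_one_div]; exact u1
    nlinarith [mul_le_mul_of_nonneg_left this (by linarith : 0 ≤ C)]
  have v2 : C * √E2 ≤ p / 10 * w := by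
    have e : K / r ^ 3 = k * w := by rw [hk, hw]; field_simp
    rw [e] at u3
    rw [← hk] at u4
    calc C * √E2 ≤ C * (k * w) := by gcongr
      _ = C * k * w := by ring
      _ ≤ p / 10 * w := by gcongr
  have v3 : C * E1 ≤ p ^ 2 / 100 * w := by
    have e : K ^ 2 / r ^ 4 = k ^ 2 * w := by rw [hk, hw]; field_simp
    rw [e] at hE1
    rw [← hk] at u4 u5
    calc C * E1 ≤ C * (k ^ 2 * w) := by gcongr
      _ = (C * k) * k * w := by ring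
      _ ≤ p / 10 * (p / 10) * w := by gcongr
      _ = _ := by ring
  have e : -(9 / 10) * P ^ 2 / r ^ 2 = -(9 / 10) * P ^ 2 * w := by rw [hw]; ring
  rw [e] at hc
  have a1 : P * (2 * τ - C * (P * p + p * √E2)) ≤ P * L := mul_le_mul_of_nonneg_left hB hP.le
  have a2 : P * (P * (C * p)) ≤ P * (P * (w / 10)) := by gcongr
  have a3 : P * (p * (C * √E2)) ≤ P * (p * (p / 10 * w)) := by gcongr
  have a4 : P * (C * E1) ≤ P * (p ^ 2 / 100 * w) := by gcongr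
  have a5 : 0 < P ^ 2 * w := by positivity
  have a6 : P * (p * (p / 10 * w)) = P ^ 2 * w / 10 := by rw [hp2]; ring
  have a7 : P * (p ^ 2 / 100 * w) = P ^ 2 * w / 100 := by rw [hp2]; ring
  nlinarith

/-- **abstract decay theorem**. `L = ΔP`, `Γ = |∇P|²`, `τ = |∇Rm|²`, `E1 = |∇Ric|²`,
`E2 = |∇²Ric|²`, `ρ = r²`. -/
theorem decay_abs {X : Type*} [TopologicalSpace X] {S : Set X} (hS : IsCompact S)
    {P ρ L Γ τ E1 E2 : X → ℝ} {C δ K a b : ℝ} (hC : 1 ≤ C) (hδ : 0 < δ) (hK : 0 ≤ K)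
    (ha : 0 < a) (hb : 0 < b) (h1 : C * δ ≤ 1 / 10) (h2 : C * (K * b) ≤ δ / 10)
    (hPc : ContinuousOn P S) (hρc : ContinuousOn ρ S) (hρ0 : ∀ x ∈ S, 0 < ρ x)
    (hup : ∀ x ∈ S, P x ≤ δ ^ 2 / ρ x ^ 2)
    (hin : ∀ x ∈ S, a ^ 2 < ρ x → ρ x < b ^ 2 →
      E1 x ≤ K ^ 2 / ρ x ^ 2 ∧ E2 x ≤ K ^ 2 / ρ x ^ 3 ∧
      2 * τ x - C * (P x * √(P x) + √(P x) * √(E2 x)) ≤ L x ∧
      Γ x ≤ 3 * P x * τ x + C * P x * E1 x ∧
      ∀ A B Λ : ℝ, 0 ≤ A → 0 ≤ B → 0 ≤ Λ →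
        IsMaxOn (fun y => P y - Λ * bψ A B (ρ y) ^ 3) S x → P x = Λ * bψ A B (ρ x) ^ 3 →
        P x * L x - 2 / 3 * Γ x ≤ -(9 / 10) * P x ^ 2 / ρ x) :
    ∀ x ∈ S, P x ≤ 4 * δ ^ 2 / ρ x ^ 2 * (a / √(ρ x) + √(ρ x) / b) := by
  obtain ⟨A, hA0, hA⟩ : ∃ A : ℝ, 0 < A ∧ A ^ 3 = δ ^ 2 * a :=
    ⟨(δ ^ 2 * a) ^ ((3 : ℕ) : ℝ)⁻¹, Real.rpow_pos_of_pos (by positivity) _,
      Real.rpow_inv_natCast_pow (by positivity) (by norm_num)⟩
  obtain ⟨B, hB0, hB⟩ : ∃ B : ℝ, 0 < B ∧ B ^ 3 = δ ^ 2 / b :=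
    ⟨(δ ^ 2 / b) ^ ((3 : ℕ) : ℝ)⁻¹, Real.rpow_pos_of_pos (by positivity) _,
      Real.rpow_inv_natCast_pow (by positivity) (by norm_num)⟩
  have bd : ∀ s : ℝ, 0 < s → δ ^ 2 * a / √s ^ 5 ≤ bψ A B s ^ 3 ∧
      δ ^ 2 / (b * √s ^ 3) ≤ bψ A B s ^ 3 ∧
      bψ A B s ^ 3 ≤ 4 * δ ^ 2 / s ^ 2 * (a / √s + √s / b) := by
    intro s hs
    obtain ⟨u, hu0, hu, e⟩ := bψ_eq A B hs
    have hr : 0 < √s := Real.sqrt_pos.2 hs
    have hs2 : s = √s ^ 2 := (Real.sq_sqrt hs.le).symm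
    have e1 : δ ^ 2 * a / √s ^ 5 = (A * u) ^ 3 := by rw [mul_pow, hA, hu]; ring
    have e2 : δ ^ 2 / (b * √s ^ 3) = (B * (1 / √s)) ^ 3 := by rw [mul_pow, hB]; field_simp
    have e3 : 4 * δ ^ 2 / s ^ 2 * (a / √s + √s / b) =
        4 * (δ ^ 2 * a / √s ^ 5 + δ ^ 2 / (b * √s ^ 3)) := by
      generalize √s = r at hr hs2
      rw [hs2]; field_simp
    have p1 : 0 ≤ A * u := by positivity
    have p2 : 0 ≤ B * (1 / √s) := by positivity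
    rw [e3, e1, e2, e]
    generalize A * u = y at p1
    generalize B * (1 / √s) = z at p2
    refine ⟨pow_le_pow_left₀ p1 (by linarith) 3, pow_le_pow_left₀ p2 (by linarith) 3, ?_⟩
    nlinarith [mul_nonneg (add_nonneg p1 p2) (sq_nonneg (y - z))]
  have hpos : ∀ x ∈ S, 0 < bψ A B (ρ x) ^ 3 := fun x hx => by
    have hr : 0 < √(ρ x) := Real.sqrt_pos.2 (hρ0 x hx)
    exact lt_of_lt_of_le (by positivity) (bd _ (hρ0 x hx)).2.1
  suffices h : ∀ x ∈ S, P x ≤ bψ A B (ρ x) ^ 3 from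
    fun x hx => (h x hx).trans (bd _ (hρ0 x hx)).2.2
  by_contra hne
  push Not at hne
  obtain ⟨x1, hx1, hlt⟩ := hne
  have hc : ContinuousOn (fun y => P y / bψ A B (ρ y) ^ 3) S :=
    hPc.div (((continuousOn_bψ A B).comp hρc fun y hy => hρ0 y hy).pow 3)
      fun y hy => (hpos y hy).ne'
  obtain ⟨x, hx, hmax⟩ := hS.exists_isMaxOn ⟨x1, hx1⟩ hc
  obtain ⟨Λ, hΛ⟩ : ∃ Λ, Λ = P x / bψ A B (ρ x) ^ 3 := ⟨_, rfl⟩
  have hΛ1 : 1 < Λ := by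
    have : P x1 / bψ A B (ρ x1) ^ 3 ≤ P x / bψ A B (ρ x) ^ 3 := hmax hx1
    rw [hΛ]
    exact lt_of_lt_of_le ((one_lt_div (hpos x1 hx1)).2 hlt) this
  have he : P x = Λ * bψ A B (ρ x) ^ 3 := by rw [hΛ, div_mul_cancel₀ _ (hpos x hx).ne']
  have hgt : bψ A B (ρ x) ^ 3 < P x := by rw [he]; nlinarith [hpos x hx]
  have hm : IsMaxOn (fun y => P y - Λ * bψ A B (ρ y) ^ 3) S x := fun y hy => by
    have h3 : P y / bψ A B (ρ y) ^ 3 ≤ Λ := hΛ ▸ hmax hy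
    rw [div_le_iff₀ (hpos y hy)] at h3
    change P y - Λ * bψ A B (ρ y) ^ 3 ≤ P x - Λ * bψ A B (ρ x) ^ 3
    linarith
  have hs := hρ0 x hx
  have hr : 0 < √(ρ x) := Real.sqrt_pos.2 hs
  have hs2 : ρ x = √(ρ x) ^ 2 := (Real.sq_sqrt hs.le).symm
  obtain ⟨b1, b2, -⟩ := bd _ hs
  have hu := hup x hx
  obtain ⟨r, hrr⟩ : ∃ r, r = √(ρ x) := ⟨_, rfl⟩
  rw [← hrr] at hr hs2 b1 b2
  have hu' : P x ≤ δ ^ 2 / r ^ 4 := by rw [hs2, ← pow_mul] at hu; exact hu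
  have har : a < r := by
    by_contra h
    push Not at h
    have : δ ^ 2 / r ^ 4 ≤ δ ^ 2 * a / r ^ 5 := by
      rw [div_le_div_iff₀ (by positivity) (by positivity)]
      nlinarith [mul_le_mul_of_nonneg_left h (by positivity : 0 ≤ δ ^ 2 * r ^ 4)]
    linarith
  have hrb : r < b := by
    by_contra h
    push Not at h
    have : δ ^ 2 / r ^ 4 ≤ δ ^ 2 / (b * r ^ 3) := by
      refine div_le_div_of_nonneg_left (by positivity) (by positivity) ?_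
      nlinarith [mul_le_mul_of_nonneg_left h (by positivity : 0 ≤ r ^ 3)]
    linarith
  obtain ⟨i1, i2, i3, i4, i5⟩ := hin x hx (by rw [hs2]; gcongr) (by rw [hs2]; gcongr)
  have i6 := i5 A B Λ hA0.le hB0.le (by linarith) hm he
  rw [hs2, ← pow_mul] at i1 i2
  rw [hs2] at i6
  exact dec_num hC hδ hK hr hrb.le h1 h2 (by linarith) hu' i1 i2 i3 i4 i6

end Crest.Agent.N207.H

end
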