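import Crest.Agent.N207.H.St
import Crest.Agent.N207.H.Dec
import Crest.Agent.N207.G.Tr
import Crest.Agent.N207.AI.Par2
import Crest.Agent.N207.C.DistM

/-!
# Row 207, block H (helper10): the function `|x|²` and radial functions on a neck
-/

set_option autoImplicit false
set_option linter.unusedSectionVars false

open scoped ContDiff Manifold Topology
open Set Filter Metric
open Crest.GeometryTopology.CoordMetric
open Crest.Agent.R202.Tens Crest.Agent.N207.Sk Crest.Agent.R247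

noncomputable section

namespace Crest.Agent.N207.H

/-- `ρ = |x|²` -/
def rho (x : E4) : ℝ := ‖x‖ ^ 2

theorem rho_cd : ContDiff ℝ ∞ rho := contDiff_norm_sq ℝ

theorem fderiv_rho (x v : E4) : fderiv ℝ rho x v = 2 * inner ℝ x v := by
  have : fderiv ℝ rho x = 2 • innerSL ℝ x := (hasStrictFDerivAt_norm_sq x).hasFDerivAt.fderiv
  rw [this]; simp

theorem fderiv2_rho (x u v : E4) : fderiv ℝ (fderiv ℝ rho) x u v = 2 * inner ℝ u v := by
  have : fderiv ℝ rho = fun x => (2 • innerSL ℝ : E4 →L[ℝ] E4 →L[ℝ] ℝ) x :=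
    funext fun x => (hasStrictFDerivAt_norm_sq x).hasFDerivAt.fderiv
  rw [this, ContinuousLinearMap.fderiv]; simp; rfl

section
variable {G : MetricField 4} {U : Set E4} {x : E4} {η : ℝ}

theorem gam_rho (hg : IsRiemannianOn G U) (hx : x ∈ U) (hη : η ≤ 1 / 200)
    (hn : ∀ u v, |bil (G x) u v - inner ℝ u v| ≤ η * ‖u‖ * ‖v‖) :
    Bo84.gam G rho rho x ≤ 41 / 10 * rho x := by
  have e1 := Bo84.gam_eq_bil hg hx rho rho
  have e2 := Bo84.gam_eq_fderiv_grad G rho rho x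
  set v := Bo84.grad G rho x
  rw [fderiv_rho] at e2
  have h1 := (abs_le.1 (hn v v)).1
  rw [real_inner_self_eq_norm_sq, ← e1] at h1
  have h2 := real_inner_le_norm x v
  have h3 : η * ‖v‖ * ‖v‖ ≤ 1 / 200 * ‖v‖ ^ 2 := by nlinarith [sq_nonneg ‖v‖]
  unfold rho at *
  nlinarith [sq_nonneg (‖v‖ - 41 / 20 * ‖x‖), norm_nonneg x, norm_nonneg v]

theorem lap_rho (hg : IsRiemannianOn G U) (hx : x ∈ U) (hη : η ≤ 1 / 200)
    (hn : ∀ u v, |bil (G x) u v - inner ℝ u v| ≤ η * ‖u‖ * ‖v‖) (hΓ : ‖Gam G x‖ * ‖x‖ ≤ η) :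
    79 / 10 ≤ laplaceBeltrami G rho x := by
  obtain ⟨ξ, hξ⟩ := Bo84.exists_frame hg hx
  rw [Bo84.lap_frame hg hx (rho_cd.of_le Bo84.two_le_infty).contDiffAt hξ]
  have : ∀ a, 79 / 40 ≤ Bo84.hess G rho x (ξ a) (ξ a) := fun a => by
    rw [Bo84.hess_apply, fderiv2_rho, fderiv_rho, real_inner_self_eq_norm_sq]
    have h1 := (abs_le.1 (hn (ξ a) (ξ a))).2
    rw [hξ.orth, if_pos rfl, real_inner_self_eq_norm_sq] at h1
    have h2 := real_inner_le_norm x (Gam G x (ξ a) (ξ a))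
    have h3 := (Gam G x).le_opNorm₂ (ξ a) (ξ a)
    have h4 := mul_le_mul_of_nonneg_left h3 (norm_nonneg x)
    have h5 := mul_le_mul_of_nonneg_right (hΓ.trans hη) (sq_nonneg ‖ξ a‖)
    have h6 : η * ‖ξ a‖ * ‖ξ a‖ ≤ 1 / 200 * ‖ξ a‖ ^ 2 := by nlinarith [sq_nonneg ‖ξ a‖]
    nlinarith
  rw [Fin.sum_univ_four]
  linarith [this 0, this 1, this 2, this 3]

end

variable {M : Type*} [TopologicalSpace M] [ChartedSpace E4 M] [IsManifold 𝓘(ℝ, E4) ∞ M]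

/-- smoothness can be checked in a parametrisation -/
theorem contMDiffAt_of_par {Ψ : E4 → M} {U : Set E4} (hP : Par Ψ U) {y : E4} (hy : y ∈ U)
    {u : M → ℝ} {f : E4 → ℝ} (hf : ContDiff ℝ ∞ f) (e : ∀ z ∈ U, u (Ψ z) = f z) :
    ContMDiffAt 𝓘(ℝ, E4) 𝓘(ℝ, ℝ) ∞ u (Ψ y) := by
  obtain ⟨T, V, hV, hyV, hVU, -, hT, hm⟩ := Gs.exists_trans0 (Par.chart (Ψ y)) hP
    (ctr_mem (Ψ y)) hy (symm_ctr (Ψ y)).symm
  refine contMDiffAt_of_inCh (mem_chart_source E4 _) ?_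
  refine (hf.contDiffAt.comp _ (hT.contDiffAt (hV.mem_nhds hyV))).congr_of_eventuallyEq ?_
  filter_upwards [hV.mem_nhds hyV] with z hz
  rw [Function.comp, ← e _ (hm z hz).1, (hm z hz).2]; rfl

open Classical in
/-- the radial function `φ(|x|²)` on a neck, extended by zero -/
def rad (N : Nk M) (φ : ℝ → ℝ) (p : M) : ℝ :=
  if h : ∃ y ∈ shell N.a N.b, N.Ψ y = p then φ (rho h.choose) else 0

theorem rad_apply {N : Nk M} (hN : N.Top) (φ : ℝ → ℝ) {y : E4} (hy : y ∈ shell N.a N.b) :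
    rad N φ (N.Ψ y) = φ (rho y) := by
  have h : ∃ z ∈ shell N.a N.b, N.Ψ z = N.Ψ y := ⟨y, hy, rfl⟩
  rw [rad, dif_pos h]
  obtain ⟨γ, -, e⟩ := (hN.fib _ h.choose_spec.1 y hy).1 h.choose_spec.2
  have : rho h.choose = rho y := by
    generalize h.choose = w at e
    rw [← e, rho, rho, γ.norm_map]
  rw [this]

theorem rad_zero {N : Nk M} (hN : N.Top) {φ : ℝ → ℝ} {S : Set E4}
    (h0 : ∀ y ∈ shell N.a N.b, y ∉ S → φ (rho y) = 0) {p : M} (hp : p ∉ N.Ψ '' S) :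
    rad N φ p = 0 := by
  by_cases h : ∃ y ∈ shell N.a N.b, N.Ψ y = p
  · obtain ⟨y, hy, rfl⟩ := h
    rw [rad_apply hN φ hy]
    exact h0 y hy fun hs => hp ⟨y, hs, rfl⟩
  · rw [rad, dif_neg h]

variable [T3Space M]

theorem rad_ev {N : Nk M} (hN : N.Top) {φ : ℝ → ℝ} {S : Set E4} (hS : IsCompact S)
    (hs : S ⊆ shell N.a N.b) (h0 : ∀ y ∈ shell N.a N.b, y ∉ S → φ (rho y) = 0) {p : M}
    (hp : p ∉ N.Ψ '' S) : rad N φ =ᶠ[𝓝 p] fun _ => 0 := by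
  filter_upwards [(hS.image_of_continuousOn (hN.par.continuousOn.mono hs)).isClosed.isOpen_compl.mem_nhds
    hp] with q hq using rad_zero hN h0 hq

theorem rad_sm {N : Nk M} (hN : N.Top) {φ : ℝ → ℝ} (hφ : ContDiff ℝ ∞ φ) {S : Set E4}
    (hS : IsCompact S) (hs : S ⊆ shell N.a N.b)
    (h0 : ∀ y ∈ shell N.a N.b, y ∉ S → φ (rho y) = 0) : Sm 4 (rad N φ) := fun p => by
  by_cases hp : p ∈ N.Ψ '' S
  · obtain ⟨y, hy, rfl⟩ := hp
    exact contMDiffAt_of_par hN.par (hs hy) (hφ.comp rho_cd) fun z hz => rad_apply hN φ hz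
  · exact contMDiffAt_const.congr_of_eventuallyEq (rad_ev hN hS hs h0 hp)

theorem rad_gam (g : Met 4 M) {N : Nk M} (hN : N.Top) {φ : ℝ → ℝ} (hφ : ContDiff ℝ ∞ φ)
    {S : Set E4} (hS : IsCompact S) (hs : S ⊆ shell N.a N.b)
    (h0 : ∀ y ∈ shell N.a N.b, y ∉ S → φ (rho y) = 0) {c : ℝ} (hc : 0 ≤ c)
    (h1 : ∀ y ∈ S, deriv φ (rho y) ^ 2 * Bo84.gam (g.pm N.Ψ) rho rho y ≤ c) (p : M) :
    g.gam (rad N φ) (rad N φ) p ≤ c := by
  by_cases hp : p ∈ N.Ψ '' S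
  · obtain ⟨y, hy, rfl⟩ := hp
    have sm := rad_sm hN hφ hS hs h0
    have e : (fun z => rad N φ (N.Ψ z)) =ᶠ[𝓝 y] fun z => φ (rho z) := by
      filter_upwards [hN.par.isOpen.mem_nhds (hs hy)] with z hz using rad_apply hN φ hz
    have d1 : DifferentiableAt ℝ φ (rho y) := hφ.differentiable (by simp) _
    have d2 : DifferentiableAt ℝ rho y := rho_cd.differentiable (by simp) _
    rw [hN.par.par_gam g sm sm (hs hy), Bo84.gam_congr e e, Bo84.gam_comp_left d1 d2,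
      Bo84.gam_comp_right d1 d2, ← mul_assoc, ← sq]
    exact h1 y hy
  · have e : Bo84.inCh 4 p (rad N φ) =ᶠ[𝓝 (ctr 4 p)] fun _ => 0 := by
      have c : ContinuousAt (chartAt E4 p).symm (ctr 4 p) :=
        (chartAt E4 p).continuousAt_symm (ctr_mem p)
      have := rad_ev hN hS hs h0 hp
      rw [← symm_ctr (n := 4) p] at this
      exact c.eventually this
    rw [Met.gam, Bo84.gam_congr e e, Bo84.gam_const_left]
    exact hc

variable [CompactSpace M] [ConnectedSpace M]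

theorem met_lip (g : Met 4 M) {u : M → ℝ} (hu : Sm 4 u) (h : ∀ z, g.gam u u z ≤ 1) (x y : M) :
    u y - u x ≤ g.d x y := by
  rw [Met.d_gs]
  exact Dist.GS.L1.le_d (G := g.gs) ⟨hu, h⟩ x y

theorem exists_beta : ∃ (β : ℝ → ℝ) (L : ℝ), ContDiff ℝ ∞ β ∧ 0 ≤ L ∧ β 1 = 1 ∧
    (∀ s, 1 / 3 ≤ |s - 1| → β s = 0) ∧ ∀ s, |deriv β s| ≤ L := by
  let β : ContDiffBump (1 : ℝ) := ⟨1 / 4, 1 / 3, by norm_num, by norm_num⟩
  obtain ⟨L, hL⟩ := ((β.contDiff (n := 1)).continuous_deriv le_rfl).bounded_above_of_compact_support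
    β.hasCompactSupport.deriv
  exact ⟨β, L, β.contDiff, (norm_nonneg _).trans (hL 0),
    β.one_of_mem_closedBall (mem_closedBall_self β.rIn_pos.le), fun s hs => β.zero_of_le_dist hs, hL⟩

/-- small metric balls stay in a thin shell -/
theorem ball_sub_shell : ∃ c : ℝ, 0 < c ∧ ∀ (g : Met 4 M) (N : Nk M), N.Top →
    (∀ y ∈ shell N.a N.b, Bo84.gam (g.pm N.Ψ) rho rho y ≤ 41 / 10 * rho y) →
    ∀ x : E4, N.a < 3 / 4 * ‖x‖ → 5 / 4 * ‖x‖ < N.b → ∀ p, g.d (N.Ψ x) p < c * ‖x‖ →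
      ∃ y, 3 / 4 * ‖x‖ ≤ ‖y‖ ∧ ‖y‖ ≤ 5 / 4 * ‖x‖ ∧ N.Ψ y = p := by
  obtain ⟨β, L, βc, L0, β1, β0, hL⟩ := exists_beta
  refine ⟨1 / (3 * L + 1), by positivity, fun g N hN hγ x h1 h2 p hp => ?_⟩
  have x0 : 0 < ‖x‖ := by linarith [hN.a_pos]
  obtain ⟨c, hc⟩ : ∃ c, c = 1 / (3 * L + 1) := ⟨_, rfl⟩
  rw [← hc] at hp
  have c0 : 0 < c := by rw [hc]; positivity
  have cL : c * L ≤ 1 / 3 := by rw [hc, one_div_mul_eq_div, div_le_iff₀ (by positivity)]; linarith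
  set S : Set E4 := {y | 3 / 4 * ‖x‖ ≤ ‖y‖ ∧ ‖y‖ ≤ 5 / 4 * ‖x‖} with hSd
  have hS : IsCompact S := (isCompact_closedBall (0 : E4) (5 / 4 * ‖x‖)).of_isClosed_subset
    ((isClosed_le continuous_const continuous_norm).inter
      (isClosed_le continuous_norm continuous_const)) fun y hy => mem_closedBall_zero_iff.2 hy.2
  have hs : S ⊆ shell N.a N.b := fun y hy => ⟨by linarith [hy.1], by linarith [hy.2]⟩
  obtain ⟨φ, hφd⟩ : ∃ φ : ℝ → ℝ, φ = fun s => c * ‖x‖ * β (s / ‖x‖ ^ 2) := ⟨_, rfl⟩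
  have hφ : ContDiff ℝ ∞ φ := hφd ▸ contDiff_const.mul (βc.comp (contDiff_id.div_const _))
  have x2 : 0 < ‖x‖ ^ 2 := by positivity
  have h0 : ∀ y ∈ shell N.a N.b, y ∉ S → φ (rho y) = 0 := fun y _ hy => by
    have : β (rho y / ‖x‖ ^ 2) = 0 := β0 _ (by
      rw [rho]
      rcases not_and_or.1 hy with h | h
      · refine le_abs.2 (Or.inr ?_)
        have : ‖y‖ ^ 2 / ‖x‖ ^ 2 ≤ 2 / 3 := by
          rw [div_le_iff₀ x2]; nlinarith [not_le.1 h, norm_nonneg y]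
        linarith
      · refine le_abs.2 (Or.inl ?_)
        have : 4 / 3 ≤ ‖y‖ ^ 2 / ‖x‖ ^ 2 := by
          rw [le_div_iff₀ x2]; nlinarith [not_le.1 h]
        linarith)
    simp only [hφd, this, mul_zero]
  have dφ : ∀ s, |deriv φ s| ≤ 1 / (3 * ‖x‖) := fun s => by
    have a1 : HasDerivAt β (deriv β (s / ‖x‖ ^ 2)) (s / ‖x‖ ^ 2) :=
      (βc.differentiable (by simp) _).hasDerivAt
    have a2 := ((a1.comp s ((hasDerivAt_id s).div_const (‖x‖ ^ 2))).const_mul (c * ‖x‖)).deriv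
    have a3 : deriv φ s = c * deriv β (s / ‖x‖ ^ 2) / ‖x‖ := hφd ▸ a2.trans (by field_simp)
    rw [a3, abs_div, abs_mul, abs_of_pos c0, abs_of_pos x0, div_le_div_iff₀ x0 (by positivity)]
    have := mul_le_mul_of_nonneg_left (hL (s / ‖x‖ ^ 2)) c0.le
    nlinarith
  have gm := rad_gam g hN hφ hS hs h0 zero_le_one fun y hy => by
    have a1 : deriv φ (rho y) ^ 2 ≤ (1 / (3 * ‖x‖)) ^ 2 := by
      rw [← sq_abs]; exact pow_le_pow_left₀ (abs_nonneg _) (dφ _) 2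
    have a2 : rho y ≤ (5 / 4 * ‖x‖) ^ 2 := pow_le_pow_left₀ (norm_nonneg _) hy.2 2
    calc _ ≤ deriv φ (rho y) ^ 2 * (41 / 10 * (5 / 4 * ‖x‖) ^ 2) :=
          mul_le_mul_of_nonneg_left ((hγ y (hs hy)).trans (by linarith)) (sq_nonneg _)
      _ ≤ (1 / (3 * ‖x‖)) ^ 2 * (41 / 10 * (5 / 4 * ‖x‖) ^ 2) :=
          mul_le_mul_of_nonneg_right a1 (by positivity)
      _ = 41 / 10 * (5 / 12) ^ 2 := by field_simp; ring
      _ ≤ 1 := by norm_num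
  by_contra hne
  have hp' : p ∉ N.Ψ '' S := fun ⟨y, hy, e⟩ => hne ⟨y, hy.1, hy.2, e⟩
  have lip := met_lip g (rad_sm hN hφ hS hs h0) gm p (N.Ψ x)
  rw [rad_zero hN h0 hp', rad_apply hN φ (hs ⟨by linarith, by linarith⟩)] at lip
  have e1 : φ (rho x) = c * ‖x‖ := by
    simp only [hφd, rho, div_self x2.ne', β1, mul_one]
  have e2 : g.d p (N.Ψ x) = g.d (N.Ψ x) p := dist_comm (α := Sl g) _ _
  linarith

end Crest.Agent.N207.H

end
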