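import Crest.Agent.N207.H.Tr1

/-!
# Row 207, block H: defect of a transported frame, isometry, reversibility
-/

set_option autoImplicit false
set_option linter.unusedSectionVars false

open Set Filter Topology
open scoped ContDiff

noncomputable section

namespace Crest.Agent.N207.H

variable {E X 𝔸 : Type} [NormedAddCommGroup E] [NormedSpace ℝ E] [NormedAddCommGroup X]
  [NormedSpace ℝ X] [NormedRing 𝔸] [NormedAlgebra ℝ 𝔸] [CompleteSpace 𝔸]

/-- curvature of the connection form -/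
def crv (Γ : E → E →L[ℝ] 𝔸) (x u v : E) : 𝔸 :=
  fderiv ℝ Γ x u v - fderiv ℝ Γ x v u + Γ x u * Γ x v - Γ x v * Γ x u

/-- defect of the coframe `Θ` along the map `H` -/
def dfc (Γ : E → E →L[ℝ] 𝔸) (H : X → E) (Θ : X → 𝔸) (z w : X) : 𝔸 :=
  fderiv ℝ Θ z w - Θ z * Γ (H z) (fderiv ℝ H z w)

theorem crv_smul_smul (Γ : E → E →L[ℝ] 𝔸) (x v : E) (a b : ℝ) : crv Γ x (a • v) (b • v) = 0 := by
  simp only [crv, map_smul, smul_apply, smul_mul_assoc, mul_smul_comm,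
    smul_smul, mul_comm a b]
  abel

theorem gronwall_le {F : Type*} [NormedAddCommGroup F] [NormedSpace ℝ F] {f f' : ℝ → F}
    {K ρ : ℝ} (hK : 0 ≤ K) (hρ : 0 ≤ ρ) (hf : ∀ t ∈ Icc (0 : ℝ) 1, HasDerivAt f (f' t) t)
    (hb : ∀ t ∈ Icc (0 : ℝ) 1, ‖f' t‖ ≤ K * ‖f t‖ + ρ) :
    ∀ t ∈ Icc (0 : ℝ) 1, ‖f t‖ ≤ (‖f 0‖ + ρ) * Real.exp K := by
  intro t ht
  have h := norm_le_gronwallBound_of_norm_deriv_right_le (f := f) (f' := f') (δ := ‖f 0‖) (K := K)
    (ε := ρ) (a := 0) (b := 1) (fun s hs => (hf s hs).continuousAt.continuousWithinAt)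
    (fun s hs => (hf s (Ico_subset_Icc_self hs)).hasDerivWithinAt) le_rfl
    (fun s hs => hb s (Ico_subset_Icc_self hs)) t ht
  refine h.trans ?_
  rw [sub_zero]
  have e1 : Real.exp (K * t) ≤ Real.exp K := Real.exp_le_exp.2 (by nlinarith [ht.2])
  have e0 : 1 ≤ Real.exp K := Real.one_le_exp hK
  rcases hK.eq_or_lt with rfl | hK'
  · rw [gronwallBound_K0]
    simp only [Real.exp_zero, mul_one]
    nlinarith [ht.2]
  · rw [gronwallBound_of_K_ne_0 hK'.ne']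
    have h2 : Real.exp K - 1 ≤ K * Real.exp K := by
      have := Real.add_one_le_exp (-K)
      have e2 : Real.exp (-K) * Real.exp K = 1 := by rw [← Real.exp_add]; simp
      nlinarith [mul_le_mul_of_nonneg_right this (by linarith : 0 ≤ Real.exp K)]
    have h3 : ρ / K * (Real.exp (K * t) - 1) ≤ ρ * Real.exp K := by
      rw [div_mul_eq_mul_div, div_le_iff₀ hK']
      nlinarith [mul_le_mul_of_nonneg_left (by linarith : Real.exp (K * t) - 1 ≤ K * Real.exp K) hρ]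
    nlinarith [mul_le_mul_of_nonneg_left e1 (norm_nonneg (f 0))]

variable {Γ : E → E →L[ℝ] 𝔸} {U : Set E}

theorem hasFDerivAt_dfc {H : X → E} {Θ : X → 𝔸} {y : X} (hΓ : DifferentiableAt ℝ Γ (H y))
    (hH : ContDiffAt ℝ 2 H y) (hΘ : ContDiffAt ℝ 2 Θ y) (w : X) :
    DifferentiableAt ℝ (fun z => dfc Γ H Θ z w) y ∧ ∀ e, fderiv ℝ (fun z => dfc Γ H Θ z w) y e =
      fderiv ℝ (fderiv ℝ Θ) y e w - (fderiv ℝ Θ y e * Γ (H y) (fderiv ℝ H y w) +
        Θ y * (fderiv ℝ Γ (H y) (fderiv ℝ H y e) (fderiv ℝ H y w) +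
          Γ (H y) (fderiv ℝ (fderiv ℝ H) y e w))) := by
  have h1 := (hH.differentiableAt (by norm_num)).hasFDerivAt
  have h2 := (hΘ.differentiableAt (by norm_num)).hasFDerivAt
  have h3 := ((hH.fderiv_right (m := 1) (by norm_num)).differentiableAt (by norm_num)).hasFDerivAt
  have h4 := ((hΘ.fderiv_right (m := 1) (by norm_num)).differentiableAt (by norm_num)).hasFDerivAt
  have h5 := (hΓ.hasFDerivAt.comp y h1).clm_apply (h3.clm_apply (hasFDerivAt_const w y))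
  have h6 := (h4.clm_apply (hasFDerivAt_const w y)).sub (h2.mul' h5)
  refine ⟨h6.differentiableAt, fun e => ?_⟩
  have h7 : fderiv ℝ (fun z => dfc Γ H Θ z w) y = _ := h6.fderiv
  rw [h7]
  simp [add_comm, mul_add]

theorem fderiv_dfc {H : X → E} {Θ : X → 𝔸} {y : X} (hΓ : DifferentiableAt ℝ Γ (H y))
    (hH : ContDiffAt ℝ 2 H y) (hΘ : ContDiffAt ℝ 2 Θ y) (w e : X)
    (h0 : ∀ᶠ z in 𝓝 y, dfc Γ H Θ z e = 0) :
    fderiv ℝ (fun z => dfc Γ H Θ z w) y e = dfc Γ H Θ y w * Γ (H y) (fderiv ℝ H y e) +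
      Θ y * crv Γ (H y) (fderiv ℝ H y w) (fderiv ℝ H y e) := by
  have a1 := (hasFDerivAt_dfc hΓ hH hΘ w).2 e
  have a2 := (hasFDerivAt_dfc hΓ hH hΘ e).2 w
  have a3 : fderiv ℝ (fun z => dfc Γ H Θ z e) y = 0 := by
    rw [Filter.EventuallyEq.fderiv_eq (f := fun _ => (0 : 𝔸)) h0]; simp
  have a4 : fderiv ℝ Θ y e = Θ y * Γ (H y) (fderiv ℝ H y e) := sub_eq_zero.1 h0.self_of_nhds
  have s1 := (hΘ.isSymmSndFDerivAt (by simp)) e w
  have s2 := (hH.isSymmSndFDerivAt (by simp)) e w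
  rw [a3, zero_apply, eq_comm, sub_eq_zero] at a2
  rw [a1, s1, s2, a2, a4, dfc, crv]
  noncomm_ring

/-- **step lemma** -/
theorem dfc_step (hU : IsOpen U) (hΓ : ContDiffOn ℝ ∞ Γ U) {p q : X → E} {φ : X → 𝔸} {z : X}
    (hp : ContDiffAt ℝ ∞ p z) (hq : ContDiffAt ℝ ∞ q z) (hφ : ContDiffAt ℝ ∞ φ z)
    (hs : (p z, q z) ∈ segD U) (v : X) {K ρ : ℝ} (hK : 0 ≤ K) (hρ : 0 ≤ ρ)
    (h1 : ∀ t ∈ Icc (0 : ℝ) 1, ‖Γ (p z + t • (q z - p z)) (q z - p z)‖ ≤ K)
    (h2 : ∀ t ∈ Icc (0 : ℝ) 1, ‖φ z * trp Γ (p z, p z + t • (q z - p z)) *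
      crv Γ (p z + t • (q z - p z)) (fderiv ℝ p z v + t • (fderiv ℝ q z v - fderiv ℝ p z v))
        (q z - p z)‖ ≤ ρ) :
    ‖dfc Γ q (fun z => φ z * trp Γ (p z, q z)) z v‖ ≤ (‖dfc Γ p φ z v‖ + ρ) * Real.exp K := by
  set H : ℝ × X → E := fun y => p y.2 + y.1 • (q y.2 - p y.2) with hH
  set Θ : ℝ × X → 𝔸 := fun y => φ y.2 * trp Γ (p y.2, H y) with hΘ
  have sm : ∀ y : ℝ × X, ContDiffAt ℝ ∞ p y.2 → ContDiffAt ℝ ∞ q y.2 → ContDiffAt ℝ ∞ φ y.2 →
      (p y.2, H y) ∈ segD U → ContDiffAt ℝ ∞ H y ∧ ContDiffAt ℝ ∞ Θ y := by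
    intro y a b c d
    have a' : ContDiffAt ℝ ∞ (fun y : ℝ × X => p y.2) y := a.comp y contDiffAt_snd
    have b' : ContDiffAt ℝ ∞ (fun y : ℝ × X => q y.2) y := b.comp y contDiffAt_snd
    have hH' : ContDiffAt ℝ ∞ H y := a'.add (contDiffAt_fst.smul (b'.sub a'))
    exact ⟨hH', (c.comp y contDiffAt_snd).mul
      (ContDiffAt.comp (g := trp Γ) y (contDiffAt_trp hU hΓ d) (a'.prodMk hH'))⟩
  have dt : ∀ {F : Type} [NormedAddCommGroup F] [NormedSpace ℝ F] (f : ℝ × X → F) (y : ℝ × X),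
      DifferentiableAt ℝ f y → HasDerivAt (fun s => f (s, y.2)) (fderiv ℝ f y (1, 0)) y.1 := by
    intro F _ _ f y hf
    exact HasFDerivAt.comp_hasDerivAt (l := f) (f := fun s => (s, y.2)) y.1 hf.hasFDerivAt
      ((hasDerivAt_id y.1).prodMk (hasDerivAt_const y.1 y.2))
  have dz : ∀ {F : Type} [NormedAddCommGroup F] [NormedSpace ℝ F] (f : ℝ × X → F) (t : ℝ),
      DifferentiableAt ℝ f (t, z) → fderiv ℝ f (t, z) (0, v) = fderiv ℝ (fun z => f (t, z)) z v := by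
    intro F _ _ f t hf
    have := HasFDerivAt.comp (g := f) (f := fun z => (t, z)) z hf.hasFDerivAt
      (hasFDerivAt_prodMk_right t z)
    rw [show (fun z => f (t, z)) = f ∘ fun z => (t, z) from rfl, this.fderiv]
    simp
  have hHt : ∀ y : ℝ × X, DifferentiableAt ℝ H y → fderiv ℝ H y (1, 0) = q y.2 - p y.2 := by
    intro y hy
    refine (dt H y hy).unique ?_
    have := ((hasDerivAt_id y.1).smul_const (q y.2 - p y.2)).const_add (p y.2)
    rw [one_smul] at this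
    exact this
  have ok : ∀ t ∈ Icc (0 : ℝ) 1, (p z, H (t, z)) ∈ segD U := fun t ht => segD_scale hs ht
  have hpd := hp.differentiableAt (by simp)
  have hqd := hq.differentiableAt (by simp)
  have hHz : ∀ t ∈ Icc (0 : ℝ) 1, fderiv ℝ H (t, z) (0, v) =
      fderiv ℝ p z v + t • (fderiv ℝ q z v - fderiv ℝ p z v) := by
    intro t ht
    rw [dz H t ((sm (t, z) hp hq hφ (ok t ht)).1.differentiableAt (by simp))]
    have := (hpd.hasFDerivAt.add ((hqd.hasFDerivAt.sub hpd.hasFDerivAt).const_smul t)).fderiv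
    exact congrArg (fun L => L v) this
  have key : ∀ t ∈ Icc (0 : ℝ) 1, HasDerivAt (fun s => dfc Γ H Θ (s, z) (0, v))
      (dfc Γ H Θ (t, z) (0, v) * Γ (H (t, z)) (q z - p z) + Θ (t, z) * crv Γ (H (t, z))
        (fderiv ℝ p z v + t • (fderiv ℝ q z v - fderiv ℝ p z v)) (q z - p z)) t := by
    intro t ht
    obtain ⟨s1, s2⟩ := sm (t, z) hp hq hφ (ok t ht)
    have hΓd : DifferentiableAt ℝ Γ (H (t, z)) :=
      (hΓ.contDiffAt (hU.mem_nhds (segD_right (ok t ht)))).differentiableAt (by simp)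
    have s1' : ContDiffAt ℝ 2 H (t, z) := s1.of_le (by norm_cast)
    have s2' : ContDiffAt ℝ 2 Θ (t, z) := s2.of_le (by norm_cast)
    have h0 : ∀ᶠ y in 𝓝 (t, z), dfc Γ H Θ y (1, 0) = 0 := by
      have c1 : ContinuousAt (fun y : ℝ × X => (p y.2, H y)) (t, z) :=
        (ContinuousAt.comp (g := p) hp.continuousAt continuousAt_snd).prodMk s1.continuousAt
      filter_upwards [c1.eventually ((isOpen_segD hU).mem_nhds (ok t ht)),
        s1'.eventually (by simp), s2'.eventually (by simp)] with y y1 y2 y3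
      rw [dfc, hHt y (y2.differentiableAt (by simp)), sub_eq_zero]
      refine (dt Θ y (y3.differentiableAt (by simp))).unique ?_
      rw [hΘ, mul_assoc]
      exact (hasDerivAt_trp hU hΓ y1).const_mul (φ y.2)
    have e := fderiv_dfc hΓd s1' s2' (0, v) (1, 0) h0
    rw [hHt _ (s1.differentiableAt (by simp)), hHz t ht] at e
    rw [← e]
    exact dt (fun y => dfc Γ H Θ y (0, v)) (t, z) (hasFDerivAt_dfc hΓd s1' s2' (0, v)).1
  have g := gronwall_le hK hρ key (fun t ht => (norm_add_le _ _).trans (add_le_add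
    ((norm_mul_le _ _).trans (by rw [mul_comm]; gcongr; exact h1 t ht)) (h2 t ht)))
    1 ⟨zero_le_one, le_rfl⟩
  have i0 : (0 : ℝ) ∈ Icc (0 : ℝ) 1 := ⟨le_rfl, zero_le_one⟩
  have i1 : (1 : ℝ) ∈ Icc (0 : ℝ) 1 := ⟨zero_le_one, le_rfl⟩
  have e1 : dfc Γ H Θ (1, z) (0, v) = dfc Γ q (fun z => φ z * trp Γ (p z, q z)) z v := by
    rw [dfc, dfc, hHz 1 i1, dz Θ 1 ((sm (1, z) hp hq hφ (ok 1 i1)).2.differentiableAt (by simp))]
    simp [hΘ, hH]
  have e0 : dfc Γ H Θ (0, z) (0, v) = dfc Γ p φ z v := by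
    have hpU : p z ∈ U := segD_left hs
    have e : (fun z => Θ (0, z)) =ᶠ[𝓝 z] φ := by
      filter_upwards [hp.continuousAt.eventually (hU.mem_nhds hpU)] with y hy
      simp [hΘ, hH, trp_self hΓ hy]
    rw [dfc, dfc, hHz 0 i0, dz Θ 0 ((sm (0, z) hp hq hφ (ok 0 i0)).2.differentiableAt (by simp)),
      e.fderiv_eq, show Θ (0, z) = φ z from e.self_of_nhds]
    simp [hH]
  rwa [e1, e0] at g

/-- reversibility -/
theorem trp_mul_symm (hU : IsOpen U) (hΓ : ContDiffOn ℝ ∞ Γ U) {p x : E} (h : (p, x) ∈ segD U) :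
    trp Γ (p, x) * trp Γ (x, p) = 1 := by
  -- `f t = T(x,p)-path reversed`: `D t = T(p,x) T(x, H t) - T(p, H t)` solves `D' = D Γ`
  have hc : ContinuousOn (fun t : ℝ => Γ (x + t • (p - x)) (p - x)) (Icc 0 1) :=
    (hΓ.continuousOn.comp (by fun_prop) fun t ht => segD_symm h t ht).clm_apply continuousOn_const
  obtain ⟨K, hK⟩ := isCompact_Icc.exists_bound_of_continuousOn hc
  have hK0 : 0 ≤ K := (norm_nonneg _).trans (hK 0 ⟨le_rfl, zero_le_one⟩)
  have e : ∀ t : ℝ, p + (1 - t) • (x - p) = x + t • (p - x) := fun t => by module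
  have key : ∀ t ∈ Icc (0 : ℝ) 1, HasDerivAt
      (fun s : ℝ => trp Γ (p, x) * trp Γ (x, x + s • (p - x)) - trp Γ (p, p + (1 - s) • (x - p)))
      ((trp Γ (p, x) * trp Γ (x, x + t • (p - x)) - trp Γ (p, p + (1 - t) • (x - p))) *
        Γ (x + t • (p - x)) (p - x)) t := by
    intro t ht
    have a := (hasDerivAt_trp hU hΓ (segD_scale (segD_symm h) ht)).const_mul (trp Γ (p, x))
    have b := (hasDerivAt_trp hU hΓ (segD_scale h (τ := 1 - t)
      ⟨by linarith [ht.2], by linarith [ht.1]⟩)).scomp t ((hasDerivAt_id t).const_sub 1)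
    refine (a.sub b).congr_deriv ?_
    rw [e t, show p - x = -(x - p) by abel, map_neg]
    simp only [neg_smul, one_smul]
    noncomm_ring
  have g := gronwall_le hK0 le_rfl key (fun t ht => (norm_mul_le _ _).trans
    (by rw [add_zero, mul_comm]; gcongr; exact hK t ht)) 1 ⟨zero_le_one, le_rfl⟩
  simp only [zero_smul, add_zero, sub_zero, one_smul, add_sub_cancel, sub_self,
    trp_self hΓ (segD_right h), trp_self hΓ (segD_left h), mul_one, norm_zero, zero_mul,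
    norm_le_zero_iff, sub_eq_zero] at g
  exact g

end Crest.Agent.N207.H

end
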