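import Crest.Agent.N207.H.St
import Crest.Agent.N207.H.Tr2

/-!
# Row 207, block H, FRAME 1: isometry of the transport, geometry of the shell, the step estimate
-/

set_option autoImplicit false
set_option linter.unusedSectionVars false

open scoped ContDiff Topology RealInnerProductSpace
open Set Filter Metric
open Crest.GeometryTopology.CoordMetric
open Crest.Agent.R202.Tens Crest.Agent.R247.Bo84 Crest.Agent.N207.Sk

noncomputable section

namespace Crest.Agent.N207.H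

/-- `φ` is an isometry from `G x` to `G m` -/
def IsoF (G : MetricField 4) (m x : E4) (φ : E4 →L[ℝ] E4) : Prop :=
  ∀ u v, bil (G m) (φ u) (φ v) = bil (G x) u v

variable {G : MetricField 4} {U : Set E4}

theorem IsoF.mul {m p x : E4} {φ T : E4 →L[ℝ] E4} (h : IsoF G m p φ) (h' : IsoF G p x T) :
    IsoF G m x (φ * T) := fun u v => (h _ _).trans (h' u v)

theorem cdGam (hg : IsRiemannianOn G U) : ContDiffOn ℝ ∞ (Gam G) U :=
  fun _ hx => (contDiffAt_Gam hg hx).contDiffWithinAt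

theorem isoF_trp (hg : IsRiemannianOn G U) {p x : E4} (h : (p, x) ∈ segD U) :
    IsoF G p x (trp (Gam G) (p, x)) := by
  intro u v
  have hU := hg.isOpen
  have hΓ := cdGam hg
  set H : ℝ → E4 := fun t => x + t • (p - x) with hH
  set S : ℝ → E4 →L[ℝ] E4 := fun t => trp (Gam G) (H t, x) with hS
  have hs := segD_symm h
  have key : ∀ t ∈ Icc (0 : ℝ) 1,
      HasDerivAt (fun s => bil (G (H s)) (S s u) (S s v)) 0 t := by
    intro t ht
    have d0 : (x, H t) ∈ segD U := segD_scale hs ht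
    have hHU : H t ∈ U := segD_right d0
    have dH : HasDerivAt H (p - x) t := by
      have := ((hasDerivAt_id t).smul_const (p - x)).const_add x
      rwa [one_smul] at this
    have dS : HasDerivAt S (deriv S t) t :=
      (DifferentiableAt.comp (g := trp (Gam G)) (f := fun s => (H s, x)) t
        ((contDiffAt_trp hU hΓ (segD_symm d0)).differentiableAt (by simp))
        (dH.differentiableAt.prodMk (differentiableAt_const _))).hasDerivAt
    have dΘ := hasDerivAt_trp hU hΓ (p := x) (v := p - x) d0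
    have e1 : (fun s => trp (Gam G) (x, H s) * S s) =ᶠ[𝓝 t] fun _ => 1 := by
      have c : ContinuousAt (fun s => (x, H s)) t := continuousAt_const.prodMk dH.continuousAt
      filter_upwards [c.eventually ((isOpen_segD hU).mem_nhds d0)] with s hs
      exact trp_mul_symm hU hΓ hs
    have e2 := (dΘ.mul dS).unique ((hasDerivAt_const t (1 : E4 →L[ℝ] E4)).congr_of_eventuallyEq e1)
    have e3 : S t * trp (Gam G) (x, H t) = 1 := trp_mul_symm hU hΓ (segD_symm d0)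
    have e4 : deriv S t = -(Gam G (H t) (p - x) * S t) := by
      have := congrArg (fun A => S t * A) e2
      simp only [mul_add, mul_zero, ← mul_assoc] at this
      rw [e3, one_mul, one_mul] at this
      exact eq_neg_of_add_eq_zero_right this
    have dG := HasFDerivAt.comp_hasDerivAt (l := Gf G) (f := H) t
      (differentiableAt_Gf hg hHU).hasFDerivAt dH
    have a := (dG.clm_apply (dS.clm_apply (hasDerivAt_const t u))).clm_apply
      (dS.clm_apply (hasDerivAt_const t v))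
    refine HasDerivAt.congr_deriv a ?_
    simp only [e4, Function.comp_apply, add_apply, map_zero, add_zero, neg_apply, map_neg,
      mul_apply_eq_comp, metric_compat hg hHU, Gf]
    ring
  have g := gronwall_le (f := fun s => bil (G (H s)) (S s u) (S s v) - bil (G x) u v)
    (f' := fun _ => 0) (K := 0) (ρ := 0) le_rfl le_rfl
    (fun t ht => (key t ht).sub_const _) (fun t _ => by simp) 1 ⟨zero_le_one, le_rfl⟩
  simp only [hH, hS, zero_smul, add_zero, trp_self hΓ (segD_right h), one_smul, add_sub_cancel,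
    one_apply_eq_self, sub_self, norm_zero, zero_mul, norm_le_zero_iff,
    sub_eq_zero] at g
  exact g

/-! ### the shell -/

theorem seg_lower {p x : E4} {r : ℝ} (hr : 0 ≤ r) (hp : r ≤ ‖p‖) (hx : r ≤ ‖x‖)
    (h : -(‖p‖ * ‖x‖) / 2 ≤ ⟪p, x⟫) {t : ℝ} (ht : t ∈ Icc (0 : ℝ) 1) :
    r / 2 ≤ ‖p + t • (x - p)‖ := by
  have e : p + t • (x - p) = (1 - t) • p + t • x := by module
  have h1 : 0 ≤ 1 - t := by linarith [ht.2]
  have h0 := ht.1
  refine (pow_le_pow_iff_left₀ (by positivity) (norm_nonneg _) two_ne_zero).1 ?_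
  rw [e, norm_add_sq_real, norm_smul, norm_smul, inner_smul_left, inner_smul_right,
    Real.norm_of_nonneg h1, Real.norm_of_nonneg h0]
  simp only [conj_trivial]
  have a1 : (1 - t) * r ≤ (1 - t) * ‖p‖ := by gcongr
  have a2 : t * r ≤ t * ‖x‖ := by gcongr
  have a3 : (1 - t) * t * (-(‖p‖ * ‖x‖) / 2) ≤ (1 - t) * t * ⟪p, x⟫ := by gcongr
  have a4 : r ^ 2 ≤ ((1 - t) * ‖p‖ + t * ‖x‖) ^ 2 := by gcongr; linarith
  nlinarith [sq_nonneg ((1 - t) * ‖p‖ - t * ‖x‖)]

theorem seg_upper {p x : E4} {r : ℝ} (hp : ‖p‖ ≤ r) (hx : ‖x‖ ≤ r) {t : ℝ}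
    (ht : t ∈ Icc (0 : ℝ) 1) : ‖p + t • (x - p)‖ ≤ r := by
  have e : p + t • (x - p) = (1 - t) • p + t • x := by module
  have h1 : 0 ≤ 1 - t := by linarith [ht.2]
  rw [e]
  refine (norm_add_le _ _).trans ?_
  rw [norm_smul, norm_smul, Real.norm_of_nonneg h1, Real.norm_of_nonneg ht.1]
  nlinarith [mul_le_mul_of_nonneg_left hp h1, mul_le_mul_of_nonneg_left hx ht.1]

theorem wt_nonneg (a b : ℝ) (x : E4) : 0 ≤ wt a b x := by unfold wt; positivity

theorem wt_le_two {a b : ℝ} {x : E4} (ha : 0 < a) (hx : x ∈ shell a b) : wt a b x ≤ 2 := by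
  have h0 : 0 < ‖x‖ := ha.trans hx.1
  have h1 : √(a / ‖x‖) ≤ 1 := Real.sqrt_le_one.2 ((div_le_one h0).2 hx.1.le)
  have h2 : √(‖x‖ / b) ≤ 1 := Real.sqrt_le_one.2 ((div_le_one (h0.trans hx.2)).2 hx.2.le)
  unfold wt; linarith

theorem wt_cmp {a b : ℝ} {x y : E4} (ha : 0 ≤ a) (hb : 0 ≤ b) (hx : 0 < ‖x‖)
    (h1 : ‖x‖ / 4 ≤ ‖y‖) (h2 : ‖y‖ ≤ 4 * ‖x‖) : wt a b y ≤ 2 * wt a b x := by
  have hy : 0 < ‖y‖ := by linarith
  have k : ∀ s t : ℝ, 0 ≤ t → s ≤ 4 * t → √s ≤ 2 * √t := fun s t ht h => by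
    rw [show (2 : ℝ) = √4 by rw [show (4 : ℝ) = 2 ^ 2 by norm_num, Real.sqrt_sq (by norm_num)],
      ← Real.sqrt_mul (by norm_num)]
    exact Real.sqrt_le_sqrt h
  have a1 := k (a / ‖y‖) (a / ‖x‖) (by positivity) (by
    rw [← mul_div_assoc, div_le_div_iff₀ hy hx]; nlinarith)
  have a2 := k (‖y‖ / b) (‖x‖ / b) (by positivity) (by
    rw [← mul_div_assoc]; exact div_le_div_of_nonneg_right h2 hb)
  unfold wt; linarith

theorem wt_mono {a b a' b' : ℝ} (x : E4) (h1 : a ≤ a') (hb : 0 < b') (h2 : b' ≤ b) :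
    wt a b x ≤ wt a' b' x := by
  unfold wt
  gcongr

theorem exists_perp3 (u v w : E4) {r : ℝ} (hr : 0 ≤ r) :
    ∃ z : E4, ‖z‖ = r ∧ ⟪u, z⟫ = 0 ∧ ⟪v, z⟫ = 0 ∧ ⟪w, z⟫ = 0 := by
  let f : E4 →ₗ[ℝ] ℝ × ℝ × ℝ := (innerₛₗ ℝ u).prod ((innerₛₗ ℝ v).prod (innerₛₗ ℝ w))
  have h : LinearMap.ker f ≠ ⊥ := LinearMap.ker_ne_bot_of_finrank_lt (by simp)
  obtain ⟨z, hz, hz0⟩ := Submodule.exists_mem_ne_zero_of_ne_bot h
  have hn : 0 < ‖z‖ := norm_pos_iff.2 hz0
  have e : (⟪u, z⟫, ⟪v, z⟫, ⟪w, z⟫) = (0, 0, 0) := hz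
  simp only [Prod.mk.injEq] at e
  refine ⟨(r / ‖z‖) • z, ?_, ?_, ?_, ?_⟩
  · rw [norm_smul, Real.norm_of_nonneg (by positivity), div_mul_cancel₀ _ hn.ne']
  all_goals simp [inner_smul_right, e.1, e.2.1, e.2.2]

theorem seg_mvt {F : Type*} [NormedAddCommGroup F] [NormedSpace ℝ F] {f : E4 → F} {p x : E4}
    {K : ℝ} (h : ∀ t ∈ Icc (0 : ℝ) 1, DifferentiableAt ℝ f (p + t • (x - p)) ∧
      ‖fderiv ℝ f (p + t • (x - p))‖ ≤ K) : ‖f x - f p‖ ≤ K * ‖x - p‖ := by
  have e : ∀ y ∈ segment ℝ p x, ∃ t ∈ Icc (0 : ℝ) 1, y = p + t • (x - p) := fun y hy => by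
    rw [segment_eq_image'] at hy
    obtain ⟨t, ht, rfl⟩ := hy
    exact ⟨t, ht, rfl⟩
  refine (convex_segment p x).norm_image_sub_le_of_norm_fderiv_le (𝕜 := ℝ) (fun y hy => ?_)
    (fun y hy => ?_) (left_mem_segment _ _ _) (right_mem_segment _ _ _)
  · obtain ⟨t, ht, rfl⟩ := e y hy; exact (h t ht).1
  · obtain ⟨t, ht, rfl⟩ := e y hy; exact (h t ht).2

/-- oscillation on a sphere, through a point orthogonal to `x, x', w` -/
theorem osc {F : Type*} [NormedAddCommGroup F] [NormedSpace ℝ F] {f : E4 → F} {x x' : E4} (w : E4)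
    {r K c : ℝ} (hr : 0 ≤ r) (hK : 0 ≤ K) (hc : 0 ≤ c) (hx : ‖x‖ = r) (hx' : ‖x'‖ = r)
    (h1 : |⟪w, x⟫| ≤ c * r) (h2 : |⟪w, x'⟫| ≤ c * r)
    (h : ∀ y, r / 2 ≤ ‖y‖ → ‖y‖ ≤ r → |⟪w, y⟫| ≤ c * ‖y‖ →
      DifferentiableAt ℝ f y ∧ ‖fderiv ℝ f y‖ ≤ K) : ‖f x - f x'‖ ≤ 4 * K * r := by
  obtain ⟨z, hz, z1, z2, z3⟩ := exists_perp3 x x' w hr
  have key : ∀ p : E4, ‖p‖ = r → ⟪p, z⟫ = 0 → |⟪w, p⟫| ≤ c * r → ‖f z - f p‖ ≤ 2 * K * r := by
    intro p hp pz pw
    have := seg_mvt (f := f) (p := p) (x := z) (K := K) fun t ht => by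
      refine h _ (seg_lower hr hp.ge hz.ge (by rw [pz, hp, hz]; nlinarith) ht)
        (seg_upper hp.le hz.le ht) ?_
      have e : p + t • (z - p) = (1 - t) • p + t • z := by module
      have h1 : 0 ≤ 1 - t := by linarith [ht.2]
      have n1 : (1 - t) * r ≤ ‖p + t • (z - p)‖ := by
        refine (pow_le_pow_iff_left₀ (by positivity) (norm_nonneg _) two_ne_zero).1 ?_
        rw [e, norm_add_sq_real, inner_smul_left, inner_smul_right, pz, norm_smul,
          Real.norm_of_nonneg h1, hp]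
        nlinarith [sq_nonneg ‖t • z‖]
      rw [show ⟪w, p + t • (z - p)⟫ = (1 - t) * ⟪w, p⟫ by
        rw [e, inner_add_right, inner_smul_right, inner_smul_right, z3]; ring,
        abs_mul, abs_of_nonneg h1]
      nlinarith [mul_le_mul_of_nonneg_left pw h1, mul_le_mul_of_nonneg_left n1 hc]
    refine this.trans ?_
    have : ‖z - p‖ ≤ 2 * r := (norm_sub_le _ _).trans (by linarith)
    nlinarith
  have := norm_sub_le (f z - f x') (f z - f x)
  rw [show f z - f x' - (f z - f x) = f x - f x' by abel] at this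
  linarith [key x hx z1 h1, key x' hx' z2 h2]

end Crest.Agent.N207.H

end
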