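import Crest.Agent.N207.H.Fr1

/-!
# Row 207, block H, FRAME 2: the two cap frames
-/

set_option autoImplicit false
set_option linter.unusedSectionVars false

open scoped ContDiff Topology RealInnerProductSpace
open Set Filter Metric
open Crest.GeometryTopology.CoordMetric
open Crest.Agent.R202.Tens Crest.Agent.R247.Bo84 Crest.Agent.N207.Sk

noncomputable section

namespace Crest.Agent.N207.H

/-- the hypotheses of `FRAME` -/
structure HY (G : MetricField 4) (Γ : Subgroup (E4 ≃ₗᵢ[ℝ] E4)) (a b η : ℝ) : Prop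
    extends RM G Γ a b η where
  pos : 0 < η
  le : η ≤ 1 / 100
  crv : ∀ x ∈ shell a b, ∀ u v w,
    ‖curv (Gam G) x u v w‖ * ‖x‖ ^ 2 ≤ η * wt a b x * ‖u‖ * ‖v‖ * ‖w‖

variable {G : MetricField 4} {Γ : Subgroup (E4 ≃ₗᵢ[ℝ] E4)} {a b η : ℝ}

theorem RM.sq (h : RM G Γ a b η) (hη : η ≤ 1 / 100) {x : E4} (hx : x ∈ shell a b) (u : E4) :
    99 / 100 * ‖u‖ ^ 2 ≤ bil (G x) u u ∧ bil (G x) u u ≤ 101 / 100 * ‖u‖ ^ 2 := by
  have := abs_le.1 (h.near x hx u u)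
  rw [real_inner_self_eq_norm_sq] at this
  have h2 : η * ‖u‖ * ‖u‖ ≤ 1 / 100 * ‖u‖ ^ 2 := by nlinarith [sq_nonneg ‖u‖]
  constructor <;> linarith [this.1, this.2]

theorem IsoF.bd (h : RM G Γ a b η) (hη : η ≤ 1 / 100) {m x : E4} (hm : m ∈ shell a b)
    (hx : x ∈ shell a b) {φ : E4 →L[ℝ] E4} (hφ : IsoF G m x φ) (u : E4) :
    9 / 10 * ‖u‖ ≤ ‖φ u‖ ∧ ‖φ u‖ ≤ 11 / 10 * ‖u‖ := by
  have h1 := h.sq hη hm (φ u)
  have h2 := h.sq hη hx u
  rw [hφ u u] at h1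
  constructor
  · refine (pow_le_pow_iff_left₀ (by positivity) (norm_nonneg _) two_ne_zero).1 ?_
    nlinarith [sq_nonneg ‖u‖]
  · refine (pow_le_pow_iff_left₀ (by positivity) (by positivity) two_ne_zero).1 ?_
    nlinarith [sq_nonneg ‖u‖]

theorem IsoF.norm_le (h : RM G Γ a b η) (hη : η ≤ 1 / 100) {m x : E4} (hm : m ∈ shell a b)
    (hx : x ∈ shell a b) {φ : E4 →L[ℝ] E4} (hφ : IsoF G m x φ) : ‖φ‖ ≤ 11 / 10 :=
  φ.opNorm_le_bound (by norm_num) fun u => (hφ.bd h hη hm hx u).2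

theorem RM.gam_le (h : RM G Γ a b η) {y : E4} (hy : y ∈ shell a b) : ‖Gam G y‖ ≤ η / ‖y‖ :=
  (le_div_iff₀ (h.a_pos.trans hy.1)).2 (h.gam y hy)

theorem HY.crv_le (h : HY G Γ a b η) {y : E4} (hy : y ∈ shell a b) (u v : E4) :
    ‖H.crv (Gam G) y u v‖ ≤ η * wt a b y / ‖y‖ ^ 2 * ‖u‖ * ‖v‖ := by
  have h0 : 0 < ‖y‖ := h.a_pos.trans hy.1
  have := h.pos
  have := wt_nonneg a b y
  refine ContinuousLinearMap.opNorm_le_bound _ (by positivity) fun w => ?_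
  have e : H.crv (Gam G) y u v w = curv (Gam G) y u v w := rfl
  rw [e, ← mul_le_mul_iff_left₀ (pow_pos h0 2)]
  refine (h.crv y hy u v w).trans (le_of_eq ?_)
  field_simp

theorem segD_shell (ha : 0 < a) {p x : E4} {r : ℝ} (h1 : 2 * a < r) (h2 : r < b) (hp : ‖p‖ = r)
    (hx : ‖x‖ = r) (h : -(r * r) / 2 ≤ ⟪p, x⟫) : (p, x) ∈ segD (shell a b) := fun t ht =>
  ⟨lt_of_lt_of_le (by linarith) (seg_lower (by linarith) hp.ge hx.ge (by rwa [hp, hx]) ht),
    (seg_upper hp.le hx.le ht).trans_lt h2⟩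

/-- a smooth isometric coframe along `q` with small defect -/
structure FrA (G : MetricField 4) (m : E4) (q : E4 → E4) (φ : E4 → E4 →L[ℝ] E4) (z : E4)
    (d : ℝ) : Prop where
  sm : ContDiffAt ℝ ∞ φ z
  iso : IsoF G m (q z) (φ z)
  dfc : ∀ v, ‖dfc (Gam G) q φ z v‖ ≤ d * ‖v‖

theorem HY.step (h : HY G Γ a b η) {m : E4} (hm : m ∈ shell a b) {p q : E4 → E4}
    {φ : E4 → E4 →L[ℝ] E4} {z : E4} {d : ℝ} (h1 : 2 * a < ‖z‖) (h2 : ‖z‖ < b)
    (hp : ContDiffAt ℝ ∞ p z) (hq : ContDiffAt ℝ ∞ q z) (np : ‖p z‖ = ‖z‖) (nq : ‖q z‖ = ‖z‖)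
    (hpq : -(‖z‖ * ‖z‖) / 2 ≤ ⟪p z, q z⟫) (dp : ∀ v, ‖fderiv ℝ p z v‖ ≤ ‖v‖)
    (dq : ∀ v, ‖fderiv ℝ q z v‖ ≤ ‖v‖) (hφ : FrA G m p φ z d) :
    FrA G m q (fun z => φ z * trp (Gam G) (p z, q z)) z
      (2 * (d + 32 * (η * wt a b z / ‖z‖))) := by
  have ha := h.a_pos
  have hU := h.riem.isOpen
  have hΓ := cdGam h.riem
  have hr : 0 < ‖z‖ := by linarith
  have hs := segD_shell ha h1 h2 np nq hpq
  have hη := h.pos
  have hw := wt_nonneg a b z
  refine ⟨hφ.sm.mul (ContDiffAt.comp (g := trp (Gam G)) z (contDiffAt_trp hU hΓ hs)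
    (hp.prodMk hq)), hφ.iso.mul (isoF_trp h.riem hs), fun v => ?_⟩
  have lo : ∀ t ∈ Icc (0 : ℝ) 1, ‖z‖ / 2 ≤ ‖p z + t • (q z - p z)‖ := fun t ht =>
    seg_lower hr.le np.ge nq.ge (by rwa [np, nq]) ht
  have up : ∀ t ∈ Icc (0 : ℝ) 1, ‖p z + t • (q z - p z)‖ ≤ ‖z‖ := fun t ht =>
    seg_upper np.le nq.le ht
  have nd : ‖q z - p z‖ ≤ 2 * ‖z‖ := (norm_sub_le _ _).trans (by linarith)
  have := dfc_step hU hΓ hp hq hφ.sm hs v (K := 1 / 25) (ρ := 32 * (η * wt a b z / ‖z‖) * ‖v‖)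
    (by norm_num) (by positivity) (fun t ht => by
      refine ((Gam G _).le_opNorm _).trans ?_
      calc _ ≤ η / (‖z‖ / 2) * (2 * ‖z‖) := by
            gcongr
            exact (h.gam_le (hs t ht)).trans (by gcongr; exact lo t ht)
        _ = 4 * η := by field_simp; norm_num
        _ ≤ 1 / 25 := by linarith [h.le])
    (fun t ht => by
      have i1 := (hφ.iso.mul (isoF_trp h.riem (segD_scale hs ht))).norm_le h.toRM h.le hm (hs t ht)
      have i2 := h.crv_le (hs t ht) (fderiv ℝ p z v + t • (fderiv ℝ q z v - fderiv ℝ p z v))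
        (q z - p z)
      have i3 := seg_upper (dp v) (dq v) ht
      have i4 := wt_cmp (x := z) (y := p z + t • (q z - p z)) ha.le (by linarith : 0 ≤ b) hr
        (by linarith [lo t ht]) (by linarith [up t ht])
      refine (norm_mul_le _ _).trans ?_
      calc _ ≤ 2 * (η * (2 * wt a b z) / (‖z‖ / 2) ^ 2 * ‖v‖ * (2 * ‖z‖)) := by
            refine mul_le_mul (by linarith) (i2.trans ?_) (norm_nonneg _) (by norm_num)
            gcongr
            exact lo t ht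
        _ = _ := by field_simp; ring)
  refine this.trans ?_
  have e2 : Real.exp (1 / 25) ≤ 2 := by
    have := Real.exp_bound_div_one_sub_of_interval' (x := 1 / 25) (by norm_num) (by norm_num)
    linarith [show (1 : ℝ) / (1 - 1 / 25) ≤ 2 by norm_num]
  have := hφ.dfc v
  calc _ ≤ (d * ‖v‖ + 32 * (η * wt a b z / ‖z‖) * ‖v‖) * 2 :=
        mul_le_mul (by linarith) e2 (Real.exp_pos _).le
          (add_nonneg ((norm_nonneg _).trans this) (by positivity))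
    _ = _ := by ring

/-- `z ↦ |z| q` -/
def ray (q z : E4) : E4 := ‖z‖ • q

theorem norm_ray {q : E4} (hq : ‖q‖ = 1) (z : E4) : ‖ray q z‖ = ‖z‖ := by
  simp [ray, norm_smul, hq]

theorem contDiffAt_ray (q : E4) {z : E4} (hz : z ≠ 0) : ContDiffAt ℝ ∞ (ray q) z :=
  (contDiffAt_norm ℝ hz).smul contDiffAt_const

theorem abs_fderiv_norm (z v : E4) : |fderiv ℝ (fun y : E4 => ‖y‖) z v| ≤ ‖v‖ := by
  have h := norm_fderiv_le_of_lipschitz ℝ (x₀ := z) (lipschitzWith_one_norm (E := E4))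
  have := (fderiv ℝ (fun y : E4 => ‖y‖) z).le_opNorm v
  rw [Real.norm_eq_abs] at this
  refine this.trans (mul_le_of_le_one_left (norm_nonneg _) (by simpa using h))

theorem fderiv_ray (q : E4) {z : E4} (hz : z ≠ 0) (v : E4) :
    fderiv ℝ (ray q) z v = fderiv ℝ (fun y : E4 => ‖y‖) z v • q := by
  have h : DifferentiableAt ℝ (fun y : E4 => ‖y‖) z :=
    (contDiffAt_norm (n := 1) ℝ hz).differentiableAt one_ne_zero
  exact congrArg (fun L => L v) (h.hasFDerivAt.smul_const q).fderiv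

theorem norm_fderiv_ray {q : E4} (hq : ‖q‖ = 1) {z : E4} (hz : z ≠ 0) (v : E4) :
    ‖fderiv ℝ (ray q) z v‖ ≤ ‖v‖ := by
  rw [fderiv_ray q hz, norm_smul, hq, mul_one]; exact abs_fderiv_norm z v

/-- first basis vector -/
def e0 : E4 := EuclideanSpace.single 0 1

/-- second basis vector -/
def e1 : E4 := EuclideanSpace.single 1 1

theorem norm_e0 : ‖e0‖ = 1 := by simp [e0]
theorem norm_e1 : ‖e1‖ = 1 := by simp [e1]
theorem inner_e0_e1 : ⟪e0, e1⟫ = 0 := by simp [e0, e1, EuclideanSpace.inner_single_left]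

theorem norm_re0 {r : ℝ} (hr : 0 ≤ r) : ‖r • e0‖ = r := by
  simp [norm_smul, norm_e0, abs_of_nonneg hr]

theorem re0_mem (ha : 0 < a) {r : ℝ} (h : r ∈ Ioo a b) : r • e0 ∈ shell a b := by
  constructor <;> rw [norm_re0 (ha.trans h.1).le]
  exacts [h.1, h.2]

/-- parallel coframe along the ray `e0` -/
def fr0 (G : MetricField 4) (ρ : ℝ) (z : E4) : E4 →L[ℝ] E4 := trp (Gam G) (ρ • e0, ray e0 z)

/-- coframe along the ray `q` -/
def fr1 (G : MetricField 4) (ρ : ℝ) (q z : E4) : E4 →L[ℝ] E4 :=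
  fr0 G ρ z * trp (Gam G) (ray e0 z, ray q z)

/-- coframe on the cap around `q` -/
def fr2 (G : MetricField 4) (ρ : ℝ) (q z : E4) : E4 →L[ℝ] E4 :=
  fr1 G ρ q z * trp (Gam G) (ray q z, z)

variable {ρ : ℝ}

theorem HY.fra0 (h : HY G Γ a b η) (hρ : ρ ∈ Ioo a b) {z : E4} (hz : z ∈ shell a b) :
    FrA G (ρ • e0) (ray e0) (fr0 G ρ) z 0 := by
  have hU := h.riem.isOpen
  have hΓ := cdGam h.riem
  have hz0 : z ≠ 0 := norm_pos_iff.1 (h.a_pos.trans hz.1)
  have e : ray e0 z - ρ • e0 = (‖z‖ - ρ) • e0 := by simp [ray, sub_smul]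
  have hs : (ρ • e0, ray e0 z) ∈ segD (shell a b) := fun t ht => by
    have e2 : ρ • e0 + t • (ray e0 z - ρ • e0) = ((1 - t) * ρ + t * ‖z‖) • e0 := by
      rw [e]; module
    have h1 : 0 ≤ 1 - t := by linarith [ht.2]
    have h0 := ht.1
    change ρ • e0 + t • (ray e0 z - ρ • e0) ∈ shell a b
    rw [e2]
    refine re0_mem h.a_pos ?_
    rcases h0.eq_or_lt with rfl | h0
    · simpa using hρ
    · constructor <;> nlinarith [hz.1, hz.2, mul_le_mul_of_nonneg_left hρ.1.le h1,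
        mul_le_mul_of_nonneg_left hρ.2.le h1]
  refine ⟨ContDiffAt.comp (g := trp (Gam G)) z (contDiffAt_trp hU hΓ hs)
    (contDiffAt_const.prodMk (contDiffAt_ray e0 hz0)), isoF_trp h.riem hs, fun v => ?_⟩
  have hc : ContinuousOn (fun t : ℝ => Gam G (ρ • e0 + t • (ray e0 z - ρ • e0))
      (ray e0 z - ρ • e0)) (Icc 0 1) :=
    (hΓ.continuousOn.comp (by fun_prop) fun t ht => hs t ht).clm_apply continuousOn_const
  obtain ⟨K, hK⟩ := isCompact_Icc.exists_bound_of_continuousOn hc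
  have := dfc_step hU hΓ (p := fun _ => ρ • e0) (φ := fun _ => 1) contDiffAt_const
    (contDiffAt_ray e0 hz0) contDiffAt_const hs v
    ((norm_nonneg _).trans (hK 0 ⟨le_rfl, zero_le_one⟩)) le_rfl hK (fun t ht => by
      rw [fderiv_ray e0 hz0, e]
      simp only [fderiv_fun_const, Pi.zero_apply, zero_apply, sub_zero, zero_add, smul_smul,
        crv_smul_smul, mul_zero, norm_zero, le_refl])
  simp only [one_mul] at this
  refine this.trans (le_of_eq ?_)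
  simp [H.dfc]

theorem HY.fra2 (h : HY G Γ a b η) (hρ : ρ ∈ Ioo a b) {q z : E4} (hq : ‖q‖ = 1)
    (h0 : ⟪e0, q⟫ = 0) (h1 : 2 * a < ‖z‖) (h2 : ‖z‖ < b) (hz : -‖z‖ / 2 ≤ ⟪q, z⟫) :
    FrA G (ρ • e0) id (fr2 G ρ q) z (192 * (η * wt a b z / ‖z‖)) := by
  have ha := h.a_pos
  have hm := re0_mem ha hρ
  have hz0 : z ≠ 0 := norm_pos_iff.1 (by linarith)
  have s1 := h.step hm h1 h2 (contDiffAt_ray e0 hz0) (contDiffAt_ray q hz0)
    (norm_ray norm_e0 z) (norm_ray hq z) (by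
      simp only [ray, inner_smul_left, inner_smul_right, h0]
      nlinarith [norm_nonneg z]) (norm_fderiv_ray norm_e0 hz0) (norm_fderiv_ray hq hz0)
    (h.fra0 hρ ⟨by linarith, h2⟩)
  have s2 := h.step hm h1 h2 (contDiffAt_ray q hz0) contDiffAt_id (norm_ray hq z) rfl (by
      simp only [ray, inner_smul_left, id, conj_trivial]
      nlinarith [norm_nonneg z]) (norm_fderiv_ray hq hz0) (fun v => by simp) s1
  rw [show ∀ e : ℝ, 2 * (2 * (0 + 32 * e) + 32 * e) = 192 * e from fun e => by ring] at s2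
  exact s2

theorem HY.fr2_ray (h : HY G Γ a b η) {q : E4} (hq : ‖q‖ = 1) (h0 : ⟪e0, q⟫ = 0) {r : ℝ}
    (h1 : 2 * a < r) (h2 : r < b) : fr2 G ρ q (r • e0) = fr0 G ρ (r • e0) := by
  have ha := h.a_pos
  have hn : ‖r • e0‖ = r := norm_re0 (by linarith)
  have e : ray e0 (r • e0) = r • e0 := by rw [ray, hn]
  have hs : (r • e0, ray q (r • e0)) ∈ segD (shell a b) :=
    segD_shell ha h1 h2 hn (by rw [norm_ray hq, hn]) (by
      simp only [ray, inner_smul_left, inner_smul_right, h0]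
      nlinarith)
  rw [fr2, fr1, e, mul_assoc, trp_mul_symm h.riem.isOpen (cdGam h.riem) hs, mul_one]

theorem HY.fr0_mid (h : HY G Γ a b η) (hρ : ρ ∈ Ioo a b) : fr0 G ρ (ρ • e0) = 1 := by
  have e : ray e0 (ρ • e0) = ρ • e0 := by rw [ray, norm_re0 (h.a_pos.trans hρ.1).le]
  rw [fr0, e, trp_self (cdGam h.riem) (re0_mem h.a_pos hρ)]

end Crest.Agent.N207.H

end
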