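import Crest.Agent.N207.H.Fr1

/-!
# Row 207, block H (helper39): `FRAME` in three steps
-/

set_option autoImplicit false
set_option linter.unusedSectionVars false

open scoped ContDiff Topology
open Set Filter Metric
open Crest.GeometryTopology.CoordMetric
open Crest.Agent.R202.Tens Crest.Agent.N207.Sk

noncomputable section

namespace Crest.Agent.N207.H

/-- a smooth almost parallel coframe, normalised at a point of the middle sphere -/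
structure CF (G : MetricField 4) (Γ : Subgroup (E4 ≃ₗᵢ[ℝ] E4)) (a b η : ℝ)
    (θ : E4 → E4 →L[ℝ] E4) : Prop extends RM G Γ a b η where
  sm : ContDiffOn ℝ ∞ θ (shell a b)
  par : ∀ x ∈ shell a b, ∀ u v,
    ‖fderiv ℝ θ x u v - θ x (Gam G x u v)‖ * ‖x‖ ≤ η * wt a b x * ‖u‖ * ‖v‖
  bd : ∀ x ∈ shell a b, ∀ u, ‖u‖ ≤ 2 * ‖θ x u‖ ∧ ‖θ x u‖ ≤ 2 * ‖u‖
  one : ∃ m : E4, ‖m‖ = √(a * b) ∧ θ m = 1

/-- a smooth almost parallel, almost isometric, equivariant coframe -/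
structure CE (G : MetricField 4) (Γ : Subgroup (E4 ≃ₗᵢ[ℝ] E4)) (a b η : ℝ)
    (θ : E4 → E4 →L[ℝ] E4) : Prop extends RM G Γ a b η where
  sm : ContDiffOn ℝ ∞ θ (shell a b)
  eθ : ∀ γ ∈ Γ, ∀ x ∈ shell a b, ∀ v, θ (γ x) (γ v) = γ (θ x v)
  par : ∀ x ∈ shell a b, ∀ u v,
    ‖fderiv ℝ θ x u v - θ x (Gam G x u v)‖ * ‖x‖ ≤ η * wt a b x * ‖u‖ * ‖v‖
  iso : ∀ x ∈ shell a b, ∀ u v,
    |inner ℝ (θ x u) (θ x v) - bil (G x) u v| ≤ η * wt a b x * ‖u‖ * ‖v‖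

/-- (FRA, 39) the coframe -/
def FRA : Prop := ∀ η : ℝ, 0 < η → ∃ η0 : ℝ, 0 < η0 ∧
  ∀ (G : MetricField 4) (Γ : Subgroup (E4 ≃ₗᵢ[ℝ] E4)) (a b : ℝ), RM G Γ a b η0 → 400 * a ≤ b →
    (∀ x ∈ shell a b, ∀ u v w,
      ‖curv (Gam G) x u v w‖ * ‖x‖ ^ 2 ≤ η0 * wt a b x * ‖u‖ * ‖v‖ * ‖w‖) →
    ∃ θ, CF G Γ (4 * a) b η θ

/-- (FRB) averaging and normalisation -/
def FRB : Prop := ∀ η : ℝ, 0 < η → ∃ η0 : ℝ, 0 < η0 ∧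
  ∀ (G : MetricField 4) (Γ : Subgroup (E4 ≃ₗᵢ[ℝ] E4)) (a b : ℝ) (θ : E4 → E4 →L[ℝ] E4),
    100 * a ≤ b → CF G Γ a b η0 θ → ∃ θ', CE G Γ a b η θ'

/-- (FRC) the radial primitive -/
def FRC : Prop := ∀ η : ℝ, 0 < η → ∃ η0 : ℝ, 0 < η0 ∧
  ∀ (G : MetricField 4) (Γ : Subgroup (E4 ≃ₗᵢ[ℝ] E4)) (a b : ℝ) (θ : E4 → E4 →L[ℝ] E4),
    100 * a ≤ b → CE G Γ a b η0 θ → ∃ Y, FD G Γ (2 * a) b η θ Y

/-- `FRAME` with more room -/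
def FRAME' : Prop := ∀ η : ℝ, 0 < η → ∃ η0 : ℝ, 0 < η0 ∧
  ∀ (G : MetricField 4) (Γ : Subgroup (E4 ≃ₗᵢ[ℝ] E4)) (a b : ℝ), RM G Γ a b η0 → 400 * a ≤ b →
    (∀ x ∈ shell a b, ∀ u v w,
      ‖curv (Gam G) x u v w‖ * ‖x‖ ^ 2 ≤ η0 * wt a b x * ‖u‖ * ‖v‖ * ‖w‖) →
    ∃ θ Y, FD G Γ (8 * a) b η θ Y

theorem frame_of (hA : FRA) (hB : FRB) (hC : FRC) : FRAME' := by
  intro η hη
  obtain ⟨η1, h1, H1⟩ := hC η hη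
  obtain ⟨η2, h2, H2⟩ := hB η1 h1
  obtain ⟨η3, h3, H3⟩ := hA η2 h2
  refine ⟨η3, h3, fun G Γ a b h hab hc => ?_⟩
  obtain ⟨θ, hθ⟩ := H3 G Γ a b h hab hc
  obtain ⟨θ', hθ'⟩ := H2 G Γ (4 * a) b θ (by linarith) hθ
  obtain ⟨Y, hY⟩ := H1 G Γ (4 * a) b θ' (by linarith) hθ'
  exact ⟨θ', Y, by rwa [show 2 * (4 * a) = 8 * a by ring] at hY⟩

end Crest.Agent.N207.H

end
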