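import Crest.Agent.N207.H.Fr2
import Crest.Agent.N207.H.St2

/-!
# Row 207, block H, FRAME 3: gluing the two cap frames
-/

set_option autoImplicit false
set_option linter.unusedSectionVars false

open scoped ContDiff Topology RealInnerProductSpace
open Set Filter Metric
open Crest.GeometryTopology.CoordMetric
open Crest.Agent.R202.Tens Crest.Agent.R247.Bo84 Crest.Agent.N207.Sk

noncomputable section

namespace Crest.Agent.N207.H

variable {G : MetricField 4} {Γ : Subgroup (E4 ≃ₗᵢ[ℝ] E4)} {a b η ρ : ℝ}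

theorem belt_seg {p z w : E4} {r c : ℝ} (hr : 0 ≤ r) (hc : 0 ≤ c) (hp : ‖p‖ = r) (hz : ‖z‖ = r)
    (pz : ⟪p, z⟫ = 0) (wz : ⟪w, z⟫ = 0) (pw : |⟪w, p⟫| ≤ c * r) {t : ℝ} (ht : t ∈ Icc (0 : ℝ) 1) :
    r / 2 ≤ ‖p + t • (z - p)‖ ∧ ‖p + t • (z - p)‖ ≤ r ∧
      |⟪w, p + t • (z - p)⟫| ≤ c * ‖p + t • (z - p)‖ := by
  refine ⟨seg_lower hr hp.ge hz.ge (by rw [pz, hp, hz]; nlinarith) ht, seg_upper hp.le hz.le ht, ?_⟩
  have e : p + t • (z - p) = (1 - t) • p + t • z := by module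
  have h1 : 0 ≤ 1 - t := by linarith [ht.2]
  have n1 : (1 - t) * r ≤ ‖p + t • (z - p)‖ := by
    refine (pow_le_pow_iff_left₀ (by positivity) (norm_nonneg _) two_ne_zero).1 ?_
    rw [e, norm_add_sq_real, inner_smul_left, inner_smul_right, pz, norm_smul,
      Real.norm_of_nonneg h1, hp]
    nlinarith [sq_nonneg ‖t • z‖]
  rw [show ⟪w, p + t • (z - p)⟫ = (1 - t) * ⟪w, p⟫ by
    rw [e, inner_add_right, inner_smul_right, inner_smul_right, wz]; ring,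
    abs_mul, abs_of_nonneg h1]
  nlinarith [mul_le_mul_of_nonneg_left pw h1, mul_le_mul_of_nonneg_left n1 hc]

theorem diff_seg {F : Type*} [NormedAddCommGroup F] [NormedSpace ℝ F] {D : E4 → F} {p x : E4}
    {c : ℝ} (hc : 0 ≤ c) (h : ∀ t ∈ Icc (0 : ℝ) 1, DifferentiableAt ℝ D (p + t • (x - p)) ∧
      ‖fderiv ℝ D (p + t • (x - p)) (x - p)‖ ≤ 1 / 25 * ‖D (p + t • (x - p))‖ + c) :
    ‖D x‖ ≤ (‖D p‖ + c) * 2 := by
  have g := gronwall_le (f := fun t : ℝ => D (p + t • (x - p)))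
    (f' := fun t => fderiv ℝ D (p + t • (x - p)) (x - p)) (K := 1 / 25) (ρ := c) (by norm_num) hc
    (fun t ht => by
      have dH : HasDerivAt (fun t : ℝ => p + t • (x - p)) (x - p) t := by
        have := ((hasDerivAt_id t).smul_const (x - p)).const_add p
        rwa [one_smul] at this
      exact HasFDerivAt.comp_hasDerivAt (l := D) t (h t ht).1.hasFDerivAt dH)
    (fun t ht => (h t ht).2) 1 ⟨zero_le_one, le_rfl⟩
  have e2 : Real.exp (1 / 25) ≤ 2 := by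
    have := Real.exp_bound_div_one_sub_of_interval' (x := 1 / 25) (by norm_num) (by norm_num)
    linarith [show (1 : ℝ) / (1 - 1 / 25) ≤ 2 by norm_num]
  simp only [one_smul, add_sub_cancel, zero_smul, add_zero] at g
  exact g.trans (by gcongr)

theorem FrA.par {m z : E4} {φ : E4 → E4 →L[ℝ] E4} {d : ℝ} (h : FrA G m id φ z d) (v : E4) :
    ‖fderiv ℝ φ z v - φ z * Gam G z v‖ ≤ d * ‖v‖ := by
  simpa [H.dfc] using h.dfc v

theorem HY.frp (h : HY G Γ a b η) (hρ : ρ ∈ Ioo a b) {z : E4} (h1 : 2 * a < ‖z‖) (h2 : ‖z‖ < b)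
    (hz : -‖z‖ / 2 ≤ ⟪e1, z⟫) :
    FrA G (ρ • e0) id (fr2 G ρ e1) z (192 * (η * wt a b z / ‖z‖)) :=
  h.fra2 hρ norm_e1 inner_e0_e1 h1 h2 hz

theorem HY.frm (h : HY G Γ a b η) (hρ : ρ ∈ Ioo a b) {z : E4} (h1 : 2 * a < ‖z‖) (h2 : ‖z‖ < b)
    (hz : ⟪e1, z⟫ ≤ ‖z‖ / 2) :
    FrA G (ρ • e0) id (fr2 G ρ (-e1)) z (192 * (η * wt a b z / ‖z‖)) :=
  h.fra2 hρ (by rw [norm_neg, norm_e1]) (by rw [inner_neg_right, inner_e0_e1, neg_zero]) h1 h2
    (by rw [inner_neg_left]; linarith)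

/-- the two frames are close on the belt -/
theorem HY.belt (h : HY G Γ a b η) (hρ : ρ ∈ Ioo a b) {x : E4} (hx : x ∈ shell (4 * a) b)
    (hb : |⟪e1, x⟫| ≤ 1 / 4 * ‖x‖) :
    ‖fr2 G ρ e1 x - fr2 G ρ (-e1) x‖ ≤ 18432 * (η * wt a b x) := by
  have ha := h.a_pos
  have hη := h.pos
  have hw := wt_nonneg a b x
  have hr : 0 < ‖x‖ := by linarith [hx.1]
  set D : E4 → E4 →L[ℝ] E4 := fun y => fr2 G ρ e1 y - fr2 G ρ (-e1) y with hD
  have key : ∀ y v : E4, ‖x‖ / 2 ≤ ‖y‖ ∧ ‖y‖ ≤ ‖x‖ ∧ |⟪e1, y⟫| ≤ 1 / 4 * ‖y‖ → ‖v‖ ≤ 2 * ‖x‖ →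
      DifferentiableAt ℝ D y ∧
        ‖fderiv ℝ D y v‖ ≤ 1 / 25 * ‖D y‖ + 3072 * (η * wt a b x) := by
    rintro y v ⟨y1, y2, y3⟩ hv
    have y4 := abs_le.1 y3
    have y5 : 2 * a < ‖y‖ := by linarith [hx.1]
    have y6 : ‖y‖ < b := y2.trans_lt hx.2
    have f1 := h.frp hρ y5 y6 (by linarith [y4.1])
    have f2 := h.frm hρ y5 y6 (by linarith [y4.2])
    have d1 := f1.sm.differentiableAt (by simp)
    have d2 := f2.sm.differentiableAt (by simp)
    refine ⟨d1.sub d2, ?_⟩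
    have e : fderiv ℝ D y v = D y * Gam G y v + ((fderiv ℝ (fr2 G ρ e1) y v -
        fr2 G ρ e1 y * Gam G y v) - (fderiv ℝ (fr2 G ρ (-e1)) y v -
          fr2 G ρ (-e1) y * Gam G y v)) := by
      rw [hD, fderiv_fun_sub d1 d2, sub_apply, sub_mul]; abel
    have g1 : ‖Gam G y v‖ ≤ 1 / 25 := by
      refine ((Gam G _).le_opNorm _).trans ?_
      calc _ ≤ η / (‖x‖ / 2) * (2 * ‖x‖) := by
            gcongr
            exact (h.gam_le ⟨by linarith, y6⟩).trans (by gcongr)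
        _ = 4 * η := by field_simp; norm_num
        _ ≤ 1 / 25 := by linarith [h.le]
    have g2 : 192 * (η * wt a b y / ‖y‖) * ‖v‖ ≤ 1536 * (η * wt a b x) :=
      calc _ ≤ 192 * (η * (2 * wt a b x) / (‖x‖ / 2)) * (2 * ‖x‖) := by
            gcongr
            exact wt_cmp ha.le (by linarith [hρ.1, hρ.2]) hr (by linarith) (by linarith)
        _ = _ := by field_simp; ring
    rw [e]
    have g3 := norm_mul_le (D y) (Gam G y v)
    have g4 := mul_le_mul_of_nonneg_left g1 (norm_nonneg (D y))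
    refine (norm_add_le _ _).trans (add_le_add (by linarith) ((norm_sub_le _ _).trans ?_))
    linarith [f1.par v, f2.par v]
  obtain ⟨z, hz, z1, z2, z3⟩ := exists_perp3 (‖x‖ • e0) x e1 hr.le
  have n0 := norm_re0 hr.le
  have s1 := diff_seg (D := D) (p := ‖x‖ • e0) (x := z) (by positivity) fun t ht =>
    key _ _ (belt_seg hr.le (by norm_num) n0 hz z1 z3 (by
      rw [inner_smul_right, real_inner_comm, inner_e0_e1]; simp) ht)
      ((norm_sub_le _ _).trans (by linarith))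
  have s2 := diff_seg (D := D) (p := z) (x := x) (by positivity) fun t ht =>
    key _ _ (by
      rw [show z + t • (x - z) = x + (1 - t) • (z - x) by module]
      exact belt_seg hr.le (by norm_num) rfl hz z2 z3 hb ⟨by linarith [ht.2], by linarith [ht.1]⟩)
      ((norm_sub_le _ _).trans (by linarith))
  have e0 : D (‖x‖ • e0) = 0 := by
    simp only [hD]
    rw [h.fr2_ray norm_e1 inner_e0_e1 (by linarith [hx.1]) hx.2, h.fr2_ray (q := -e1)
      (by rw [norm_neg, norm_e1]) (by rw [inner_neg_right, inner_e0_e1, neg_zero])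
      (by linarith [hx.1]) hx.2, sub_self]
  rw [e0, norm_zero] at s1
  change ‖D x‖ ≤ _
  linarith

/-- the cutoff -/
def chi (x : E4) : ℝ := Real.smoothTransition (2 * (⟪e1, x⟫ * ‖x‖⁻¹) + 1 / 2)

theorem contDiffAt_chi {x : E4} (hx : x ≠ 0) : ContDiffAt ℝ ∞ chi x :=
  Real.smoothTransition.contDiffAt.comp x ((contDiffAt_const.mul
    ((contDiffAt_const.inner ℝ contDiffAt_id).mul
      ((contDiffAt_norm ℝ hx).inv (norm_ne_zero_iff.2 hx)))).add contDiffAt_const)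

theorem chi_one {x : E4} (hx : x ≠ 0) (h : 1 / 4 * ‖x‖ ≤ ⟪e1, x⟫) : chi x = 1 := by
  refine Real.smoothTransition.one_of_one_le ?_
  have := (le_div_iff₀ (norm_pos_iff.2 hx)).2 h
  rw [div_eq_mul_inv ⟪e1, x⟫] at this
  linarith

theorem chi_zero {x : E4} (hx : x ≠ 0) (h : ⟪e1, x⟫ ≤ -(1 / 4) * ‖x‖) : chi x = 0 := by
  refine Real.smoothTransition.zero_of_nonpos ?_
  have := (div_le_iff₀ (norm_pos_iff.2 hx)).2 h
  rw [div_eq_mul_inv ⟪e1, x⟫] at this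
  linarith

theorem exists_dchi : ∃ C : ℝ, 0 ≤ C ∧ ∀ x : E4, x ≠ 0 → |⟪e1, x⟫| ≤ 1 / 4 * ‖x‖ → ∀ v,
    |fderiv ℝ chi x v| ≤ C / ‖x‖ * ‖v‖ := by
  have sm : ContDiff ℝ 1 Real.smoothTransition := Real.smoothTransition.contDiff
  obtain ⟨C, hC⟩ := (isCompact_Icc (a := (0 : ℝ)) (b := 1)).exists_bound_of_continuousOn
    (sm.continuous_deriv le_rfl).continuousOn
  have C0 : 0 ≤ C := (norm_nonneg _).trans (hC 0 ⟨le_rfl, zero_le_one⟩)
  refine ⟨C * 4, by positivity, fun x hx hb v => ?_⟩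
  have h0 := norm_pos_iff.2 hx
  have hn : HasFDerivAt (fun y : E4 => ‖y‖) (fderiv ℝ (fun y : E4 => ‖y‖) x) x :=
    ((contDiffAt_norm (n := 1) ℝ hx).differentiableAt one_ne_zero).hasFDerivAt
  have hi : HasFDerivAt (fun y : E4 => ⟪e1, y⟫) (innerSL ℝ e1) x := (innerSL ℝ e1).hasFDerivAt
  have hs := ((hi.mul ((hasDerivAt_inv h0.ne').comp_hasFDerivAt x hn)).const_mul 2).add_const (1 / 2)
  have hc := (HasDerivAt.comp_hasFDerivAt (h₂ := Real.smoothTransition) x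
    (sm.differentiable one_ne_zero _).hasDerivAt hs).fderiv
  have e : fderiv ℝ chi x v = deriv Real.smoothTransition (2 * (⟪e1, x⟫ * ‖x‖⁻¹) + 1 / 2) *
      (2 * (⟪e1, x⟫ * (-(‖x‖ ^ 2)⁻¹ * fderiv ℝ (fun y : E4 => ‖y‖) x v) + ‖x‖⁻¹ * ⟪e1, v⟫)) :=
    congrArg (fun L : E4 →L[ℝ] ℝ => L v) hc
  have b1 : |⟪e1, x⟫ * ‖x‖⁻¹| ≤ 1 / 4 := by
    rw [abs_mul, abs_inv, abs_norm, ← div_eq_mul_inv, div_le_iff₀ h0]; exact hb
  have b2 := hC (2 * (⟪e1, x⟫ * ‖x‖⁻¹) + 1 / 2)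
    ⟨by linarith [(abs_le.1 b1).1], by linarith [(abs_le.1 b1).2]⟩
  have b3 : |⟪e1, v⟫| ≤ ‖v‖ := by simpa [norm_e1] using abs_real_inner_le_norm e1 v
  have b4 := abs_fderiv_norm x v
  rw [e, abs_mul, abs_mul, abs_two]
  calc _ ≤ C * (2 * (‖x‖ * ((‖x‖ ^ 2)⁻¹ * ‖v‖) + ‖x‖⁻¹ * ‖v‖)) := by
        gcongr
        · exact b2
        · refine (abs_add_le _ _).trans ?_
          rw [abs_mul, abs_mul, abs_mul, abs_neg, abs_inv, abs_inv, abs_pow, abs_norm]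
          gcongr
          linarith
    _ = _ := by field_simp; ring

/-- the glued frame -/
def fr3 (G : MetricField 4) (ρ : ℝ) (x : E4) : E4 →L[ℝ] E4 :=
  chi x • fr2 G ρ e1 x + (1 - chi x) • fr2 G ρ (-e1) x

theorem HY.fr3 (h : HY G Γ a b η) (hρ : ρ ∈ Ioo a b) (hη : 368640 * η ≤ 1) {C : ℝ} (C0 : 0 ≤ C)
    (hC : ∀ x : E4, x ≠ 0 → |⟪e1, x⟫| ≤ 1 / 4 * ‖x‖ → ∀ v, |fderiv ℝ chi x v| ≤ C / ‖x‖ * ‖v‖)
    {x : E4} (hx : x ∈ shell (4 * a) b) :
    ContDiffAt ℝ ∞ (fr3 G ρ) x ∧ (∀ v, ‖fderiv ℝ (fr3 G ρ) x v - fr3 G ρ x * Gam G x v‖ ≤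
      (192 + C * 18432) * (η * wt a b x / ‖x‖) * ‖v‖) ∧
      ∀ u, ‖u‖ ≤ 2 * ‖fr3 G ρ x u‖ ∧ ‖fr3 G ρ x u‖ ≤ 2 * ‖u‖ := by
  have ha := h.a_pos
  have h0 := h.pos
  have hw := wt_nonneg a b x
  have hr : 0 < ‖x‖ := by linarith [hx.1]
  have x0 : x ≠ 0 := norm_pos_iff.1 hr
  have x1 : 2 * a < ‖x‖ := by linarith [hx.1]
  have x2 : x ∈ shell a b := ⟨by linarith, hx.2⟩
  have hm := re0_mem ha hρ
  have loc : ∀ φ, H.fr3 G ρ =ᶠ[𝓝 x] φ → FrA G (ρ • e0) id φ x (192 * (η * wt a b x / ‖x‖)) →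
      ContDiffAt ℝ ∞ (H.fr3 G ρ) x ∧ (∀ v, ‖fderiv ℝ (H.fr3 G ρ) x v - H.fr3 G ρ x * Gam G x v‖ ≤
      (192 + C * 18432) * (η * wt a b x / ‖x‖) * ‖v‖) ∧
      ∀ u, ‖u‖ ≤ 2 * ‖H.fr3 G ρ x u‖ ∧ ‖H.fr3 G ρ x u‖ ≤ 2 * ‖u‖ := fun φ e f => by
    refine ⟨f.sm.congr_of_eventuallyEq e, fun v => ?_, fun u => ?_⟩
    · rw [e.fderiv_eq, e.eq_of_nhds]
      refine (f.par v).trans ?_
      gcongr
      nlinarith
    · rw [e.eq_of_nhds]
      have := f.iso.bd h.toRM h.le hm x2 u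
      constructor <;> linarith [this.1, this.2, norm_nonneg u]
  have ci : Continuous fun y : E4 => ⟪e1, y⟫ := by fun_prop
  rcases lt_or_ge (1 / 4 * ‖x‖) ⟪e1, x⟫ with c1 | c1
  · refine loc _ ?_ (h.frp hρ x1 hx.2 (by linarith))
    filter_upwards [(isOpen_lt (f := fun y : E4 => 1 / 4 * ‖y‖) (by fun_prop) ci).mem_nhds c1,
      isOpen_ne.mem_nhds x0] with y y1 y2
    ext1 u
    simp [H.fr3, chi_one y2 (le_of_lt y1)]
  rcases lt_or_ge ⟪e1, x⟫ (-(1 / 4) * ‖x‖) with c2 | c2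
  · refine loc _ ?_ (h.frm hρ x1 hx.2 (by linarith))
    filter_upwards [(isOpen_lt (g := fun y : E4 => -(1 / 4) * ‖y‖) ci (by fun_prop)).mem_nhds c2,
      isOpen_ne.mem_nhds x0] with y y1 y2
    ext1 u
    simp [H.fr3, chi_zero y2 (le_of_lt y1)]
  have hb : |⟪e1, x⟫| ≤ 1 / 4 * ‖x‖ := abs_le.2 ⟨by linarith, c1⟩
  have f1 := h.frp hρ x1 hx.2 (by linarith)
  have f2 := h.frm hρ x1 hx.2 (by linarith)
  have bl := h.belt hρ hx hb
  have sc := contDiffAt_chi x0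
  have k0 : 0 ≤ chi x := Real.smoothTransition.nonneg _
  have k1 : 0 ≤ 1 - chi x := sub_nonneg.2 (Real.smoothTransition.le_one _)
  refine ⟨(sc.smul f1.sm).add ((contDiffAt_const.sub sc).smul f2.sm), fun v => ?_, fun u => ?_⟩
  · have d0 := (sc.differentiableAt (by simp)).hasFDerivAt
    have d1 := (f1.sm.differentiableAt (by simp)).hasFDerivAt
    have d2 := (f2.sm.differentiableAt (by simp)).hasFDerivAt
    have d := ((d0.smul d1).add ((d0.const_sub 1).smul d2)).fderiv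
    have e : fderiv ℝ (H.fr3 G ρ) x v = (chi x • fderiv ℝ (fr2 G ρ e1) x v +
        fderiv ℝ chi x v • fr2 G ρ e1 x) + ((1 - chi x) • fderiv ℝ (fr2 G ρ (-e1)) x v +
          (-fderiv ℝ chi x v) • fr2 G ρ (-e1) x) :=
      congrArg (fun L : E4 →L[ℝ] E4 →L[ℝ] E4 => L v) d
    have e2 : fderiv ℝ (H.fr3 G ρ) x v - H.fr3 G ρ x * Gam G x v =
        chi x • (fderiv ℝ (fr2 G ρ e1) x v - fr2 G ρ e1 x * Gam G x v) +
        (1 - chi x) • (fderiv ℝ (fr2 G ρ (-e1)) x v - fr2 G ρ (-e1) x * Gam G x v) +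
        fderiv ℝ chi x v • (fr2 G ρ e1 x - fr2 G ρ (-e1) x) := by
      rw [e, H.fr3]
      ext1 u
      simp only [add_apply, sub_apply, smul_apply, mul_apply_eq_comp]
      module
    rw [e2]
    refine norm_add₃_le.trans ?_
    rw [norm_smul, norm_smul, norm_smul, Real.norm_of_nonneg k0, Real.norm_of_nonneg k1,
      Real.norm_eq_abs]
    calc _ ≤ chi x * (192 * (η * wt a b x / ‖x‖) * ‖v‖) +
          (1 - chi x) * (192 * (η * wt a b x / ‖x‖) * ‖v‖) +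
          C / ‖x‖ * ‖v‖ * (18432 * (η * wt a b x)) := by
          gcongr
          exacts [f1.par v, f2.par v, hC x x0 hb v]
      _ = _ := by ring
  · have e : H.fr3 G ρ x u =
        fr2 G ρ (-e1) x u + chi x • (fr2 G ρ e1 x - fr2 G ρ (-e1) x) u := by
      simp only [H.fr3, add_apply, smul_apply, sub_apply]; module
    have n1 : ‖chi x • (fr2 G ρ e1 x - fr2 G ρ (-e1) x) u‖ ≤ 1 / 10 * ‖u‖ := by
      rw [norm_smul, Real.norm_of_nonneg k0]
      calc _ ≤ 1 * (18432 * (η * 2) * ‖u‖) := by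
            gcongr
            · linarith
            · refine (ContinuousLinearMap.le_opNorm _ _).trans ?_
              gcongr
              exact bl.trans (by gcongr; exact wt_le_two ha x2)
        _ ≤ _ := by nlinarith [norm_nonneg u]
    have n2 := f2.iso.bd h.toRM h.le hm x2 u
    have n4 : ‖H.fr3 G ρ x u - fr2 G ρ (-e1) x u‖ ≤ 1 / 10 * ‖u‖ := by
      rwa [e, add_sub_cancel_left]
    have n3 := abs_le.1 ((abs_norm_sub_norm_le _ _).trans n4)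
    constructor <;> linarith [n2.1, n2.2, n3.1, n3.2, norm_nonneg u]

theorem fra : FRA := by
  intro η hη
  obtain ⟨C, C0, hC⟩ := exists_dchi
  obtain ⟨η0, h0, h1, h2⟩ : ∃ η0 : ℝ, 0 < η0 ∧ 368640 * η0 ≤ 1 ∧ (192 + C * 18432) * η0 ≤ η := by
    refine ⟨min (1 / 368640) (η / (192 + C * 18432)), by positivity,
      by linarith [min_le_left (1 / 368640) (η / (192 + C * 18432))], ?_⟩
    rw [mul_comm, ← le_div_iff₀ (by positivity)]; exact min_le_right _ _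
  have h3 : η0 ≤ η := by nlinarith
  refine ⟨η0, h0, fun G Γ a b hR hab hc => ?_⟩
  have h : HY G Γ a b η0 := ⟨hR, h0, by linarith, hc⟩
  have ha := hR.a_pos
  have r1 : 4 * a < √(4 * a * b) := Real.lt_sqrt_of_sq_lt (by nlinarith)
  have r2 : √(4 * a * b) < b := (Real.sqrt_lt' (by linarith)).2 (by nlinarith)
  have hρ : √(4 * a * b) ∈ Ioo a b := ⟨by linarith, r2⟩
  have s : shell (4 * a) b ⊆ shell a b := fun x hx => ⟨by linarith [hx.1], hx.2⟩
  have k := fun x hx => h.fr3 hρ h1 C0 hC (x := x) hx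
  refine ⟨fr3 G √(4 * a * b), ⟨hR.fin, by linarith, ⟨?_, fun i j => (hR.riem.contDiffOn i j).mono s,
    fun x hx => hR.riem.posDef x (s hx)⟩, fun γ hγ x hx => hR.inv γ hγ x (s hx),
    fun x hx u v => (hR.near x (s hx) u v).trans (by gcongr),
    fun x hx => (hR.gam x (s hx)).trans h3⟩, fun x hx => (k x hx).1.contDiffWithinAt,
    fun x hx u v => ?_, fun x hx => (k x hx).2.2, √(4 * a * b) • e0,
    norm_re0 (Real.sqrt_nonneg _), ?_⟩
  · exact (isOpen_lt continuous_const continuous_norm).inter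
      (isOpen_lt continuous_norm continuous_const)
  · have hr : 0 < ‖x‖ := ha.trans (s hx).1
    have hw := wt_nonneg a b x
    have := (fderiv ℝ (fr3 G √(4 * a * b)) x u - fr3 G √(4 * a * b) x * Gam G x u).le_opNorm v
    calc _ ≤ (192 + C * 18432) * (η0 * wt a b x / ‖x‖) * ‖u‖ * ‖v‖ * ‖x‖ := by
          gcongr
          exact this.trans (by gcongr; exact (k x hx).2.1 u)
      _ = (192 + C * 18432) * η0 * wt a b x * ‖u‖ * ‖v‖ := by field_simp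
      _ ≤ _ := by
          gcongr
          exact wt_mono x (by linarith) (by linarith) le_rfl
  · rw [fr3, h.fr2_ray norm_e1 inner_e0_e1 (by linarith) r2, h.fr2_ray (q := -e1)
      (by rw [norm_neg, norm_e1]) (by rw [inner_neg_right, inner_e0_e1, neg_zero])
      (by linarith) r2, h.fr0_mid hρ]
    module

end Crest.Agent.N207.H

end
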