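import Crest.Agent.N207.H.Frb2

/-!
# Row 207, block H, FRB (helper7): averaging and normalisation
-/

set_option autoImplicit false
set_option linter.unusedSectionVars false

open scoped ContDiff Topology RealInnerProductSpace
open Set Filter Metric
open Crest.GeometryTopology.CoordMetric
open Crest.Agent.R202.Tens Crest.Agent.R247.Bo84 Crest.Agent.N207.Sk
open Crest.Agent.N207.I (cl cl_mul cl_one star_cl sqrt_near)

noncomputable section

namespace Crest.Agent.N207.H.Frb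

variable {G : MetricField 4} {Γ : Subgroup (E4 ≃ₗᵢ[ℝ] E4)} {a b η : ℝ}
  {θ θ' : E4 → E4 →L[ℝ] E4} {x : E4}

theorem rm_mono (h : RM G Γ a b η) {η' : ℝ} (hη : η ≤ η') : RM G Γ a b η' :=
  ⟨h.fin, h.a_pos, h.riem, h.inv, fun x hx u v => (h.near x hx u v).trans (by gcongr),
    fun x hx => (h.gam x hx).trans hη⟩

theorem Pa.osc (hp : Pa G a b η θ) (hR : RM G Γ a b η) (hab : 100 * a ≤ b) (hη : 0 ≤ η)
    {p m : E4} (hp' : ‖p‖ = √(a * b)) (hm : ‖m‖ = √(a * b)) (u : E4) :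
    ‖θ p u - θ m u‖ ≤ 8 * (4 * η * ‖u‖) := by
  have ha := hR.a_pos
  refine osc_mid (f := fun y => θ y u) ha hab (by positivity) hp' hm fun y y1 y2 => ?_
  have hy := mid_mem ha hab y1 y2
  have d := (ContinuousLinearMap.apply ℝ E4 u).hasFDerivAt.comp y (hp.diff hy).hasFDerivAt
  refine ⟨d.differentiableAt, op_le ha hy (by positivity) fun w => ?_⟩
  have e : fderiv ℝ (fun y => θ y u) y w =
      (fderiv ℝ θ y w u - θ y (Gam G y w u)) + θ y (Gam G y w u) := by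
    rw [show fderiv ℝ (fun y => θ y u) y = _ from d.fderiv]
    simp
  have b1 := hp.par y hy w u
  have b2 := hp.up y hy (Gam G y w u)
  have b3 : ‖Gam G y w u‖ * ‖y‖ ≤ η * ‖w‖ * ‖u‖ := by
    calc _ ≤ ‖Gam G y‖ * ‖w‖ * ‖u‖ * ‖y‖ := by gcongr; exact (Gam G y).le_opNorm₂ w u
      _ = ‖Gam G y‖ * ‖y‖ * ‖w‖ * ‖u‖ := by ring
      _ ≤ _ := by gcongr; exact hR.gam y hy
  have b4 : η * wt a b y * ‖w‖ * ‖u‖ ≤ η * 2 * ‖w‖ * ‖u‖ := by gcongr; exact wt_le_two ha hy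
  have b5 := mul_le_mul_of_nonneg_right b2 (norm_nonneg y)
  have b6 := mul_le_mul_of_nonneg_right (norm_add_le (fderiv ℝ θ y w u - θ y (Gam G y w u))
    (θ y (Gam G y w u))) (norm_nonneg y)
  rw [e]
  nlinarith

/-- step 1: averaging -/
theorem step1 (h : CF G Γ a b η θ) (hab : 100 * a ≤ b) (hη : 0 ≤ η) (hη1 : η ≤ 1 / 10000) :
    ∃ θ' m, Pa G a b η θ' ∧ Lo a b θ' ∧
      (∀ γ ∈ Γ, ∀ x ∈ shell a b, ∀ v, θ' (γ x) (γ v) = γ (θ' x v)) ∧ ‖m‖ = √(a * b) ∧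
      ∀ u, ‖θ' m u - u‖ ≤ 32 * η * ‖u‖ := by
  have := h.fin
  have := Fintype.ofFinite Γ
  have ha := h.a_pos
  have hp : Pa G a b η θ := ⟨h.sm, h.par, fun x hx u => (h.bd x hx u).2⟩
  have hl : Lo a b θ := fun x hx u => by
    linarith [(h.bd x hx u).1, norm_nonneg (θ x u)]
  obtain ⟨m, hm, h1⟩ := h.one
  have hms := mid_mem ha hab (y := m) (by linarith [norm_nonneg m]) hm.le
  have hp' : Pa G a b η fun y => av fun γ : Γ => tg θ γ y :=
    Pa.av ha fun γ : Γ => hp.tg h.toRM γ.2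
  have c1 : ∀ u, ‖(av fun γ : Γ => tg θ γ m) u - u‖ ≤ 32 * η * ‖u‖ := fun u => by
    rw [av_apply]
    refine norm_av_sub_le fun γ => ?_
    have := hp.osc h.toRM hab hη (p := γ.1 m) (by rw [γ.1.norm_map, hm]) hm (γ.1 u)
    rw [h1, γ.1.norm_map, ← γ.1.symm.norm_map, map_sub] at this
    rw [tg_apply]
    simp only [one_apply_eq_self, LinearIsometryEquiv.symm_apply_apply] at this
    linarith
  refine ⟨_, m, hp', fun x hx u => ?_, fun γ hγ x hx v => ?_, hm, c1⟩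
  · have q := quot ha hab hl hp hp' hη hx hm (θ x u)
    have e : iv θ m (θ x u) = θ x u := by rw [iv, h1, Ring.inverse_one]; rfl
    rw [hl.iv_mul hx, e] at q
    have q2 := c1 (θ x u)
    have q3 := (h.bd x hx u).1
    have q4 : 34 * (36 * η * ‖θ x u‖) * wt a b x ≤ 34 * (36 * (1 / 10000) * ‖θ x u‖) * 2 := by
      have := wt_nonneg a b x
      gcongr; exact wt_le_two ha hx
    have q5 : 32 * η * ‖θ x u‖ ≤ 32 * (1 / 10000) * ‖θ x u‖ := by gcongr
    have q6 := norm_sub_norm_le (θ x u) ((av fun γ : Γ => tg θ γ m) (θ x u))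
    have q7 := norm_sub_norm_le ((av fun γ : Γ => tg θ γ m) (θ x u))
      ((av fun γ : Γ => tg θ γ x) u)
    rw [norm_sub_rev] at q6 q7
    have := norm_nonneg (θ x u)
    linarith
  · rw [av_apply, av_apply]
    refine Eq.trans ?_ (av_map (cl γ) _).symm
    rw [← av_equiv (Equiv.mulRight (⟨γ, hγ⟩ : Γ)) fun i : Γ => cl γ (tg θ i x v)]
    congr 1
    funext δ
    simp [tg_apply, LinearIsometryEquiv.mul_def]

/-- step 2: normalisation -/
theorem step2 (hR : RM G Γ a b η) (hab : 100 * a ≤ b) (hη : 0 ≤ η) (hη1 : η ≤ 1 / 10000)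
    (hp : Pa G a b η θ) (hl : Lo a b θ)
    (he : ∀ γ ∈ Γ, ∀ x ∈ shell a b, ∀ v, θ (γ x) (γ v) = γ (θ x v)) {m : E4}
    (hm : ‖m‖ = √(a * b)) (h1 : ∀ u, ‖θ m u - u‖ ≤ 32 * η * ‖u‖) :
    ∃ L : E4 →L[ℝ] E4, (∀ u, ‖L u‖ ≤ 2 * ‖u‖) ∧ (∀ γ ∈ Γ, ∀ u, L (γ u) = γ (L u)) ∧
      ∀ x ∈ shell a b, ∀ u v, |⟪L (θ x u), L (θ x v)⟫ - bil (G x) u v| ≤
        40000 * η * wt a b x * ‖u‖ * ‖v‖ := by
  have := hR.fin
  have := Fintype.ofFinite Γ
  have ha := hR.a_pos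
  have hms := mid_mem ha hab (y := m) (by linarith [norm_nonneg m]) hm.le
  set H : E4 → E4 →L[ℝ] E4 →L[ℝ] ℝ := fun y => (bil (G y)).bilinearComp (iv θ y) (iv θ y) with hH
  have Ha : ∀ y u v, H y u v = bil (G y) (iv θ y u) (iv θ y v) := fun _ _ _ => rfl
  have ei : ∀ γ ∈ Γ, ∀ x ∈ shell a b, ∀ u, iv θ (γ x) (γ u) = γ (iv θ x u) := by
    intro γ hγ x hx u
    conv_lhs => rw [← hl.mul_iv hx u, ← he γ hγ x hx, hl.iv_mul (mem_iso γ hx)]
  have eH : ∀ γ ∈ Γ, ∀ x ∈ shell a b, ∀ u v, H (γ x) (γ u) (γ v) = H x u v := by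
    intro γ hγ x hx u v
    rw [Ha, Ha, ei γ hγ x hx, ei γ hγ x hx, hR.inv γ hγ x hx]
  set B : E4 →L[ℝ] E4 →L[ℝ] ℝ := av fun γ : Γ => H (γ.1 m) with hB
  have Ba : ∀ u v, B u v = av fun γ : Γ => H (γ.1 m) u v := fun u v => by
    rw [hB, av_apply, av_apply]
  have Bs : ∀ u v, B u v = B v u := fun u v => by
    rw [Ba, Ba]
    congr 1
    funext γ
    rw [Ha, Ha, bil_symm hR.riem (mem_iso γ.1 hms)]
  have Bi : ∀ γ ∈ Γ, ∀ u v, B (γ u) (γ v) = B u v := fun γ hγ u v => by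
    rw [Ba, Ba, ← av_equiv (Equiv.mulLeft (⟨γ, hγ⟩ : Γ)) fun i : Γ => H (i.1 m) (γ u) (γ v)]
    congr 1
    funext δ
    exact eH γ hγ _ (mem_iso δ.1 hms) u v
  have n0 : ∀ u v, |H m u v - ⟪u, v⟫| ≤ 1 / 4 * ‖u‖ * ‖v‖ := fun u v => by
    have k : ∀ u, ‖iv θ m u - u‖ ≤ 1 / 50 * ‖u‖ := fun u => by
      have b1 := h1 (iv θ m u)
      have b2 := hl.norm_iv hms u
      rw [hl.mul_iv hms, norm_sub_rev] at b1
      have : 32 * η * ‖iv θ m u‖ ≤ 32 * (1 / 10000) * (4 * ‖u‖) := by gcongr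
      linarith [norm_nonneg u]
    have b1 := hR.near m hms (iv θ m u) (iv θ m v)
    have b2 := hl.norm_iv hms u
    have b3 := hl.norm_iv hms v
    have b4 : η * ‖iv θ m u‖ * ‖iv θ m v‖ ≤ 1 / 10000 * (4 * ‖u‖) * (4 * ‖v‖) := by gcongr
    have b5 : |⟪iv θ m u - u, iv θ m v⟫| ≤ 1 / 50 * ‖u‖ * (4 * ‖v‖) :=
      (abs_real_inner_le_norm _ _).trans (by gcongr; exact k u)
    have b6 : |⟪u, iv θ m v - v⟫| ≤ ‖u‖ * (1 / 50 * ‖v‖) :=
      (abs_real_inner_le_norm _ _).trans (by gcongr; exact k v)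
    rw [inner_sub_left] at b5
    rw [inner_sub_right] at b6
    have := mul_nonneg (norm_nonneg u) (norm_nonneg v)
    rw [Ha, abs_le] at *
    constructor <;> nlinarith
  have n1 : ∀ u v, |B u v - ⟪u, v⟫| ≤ 1 / 4 * ‖u‖ * ‖v‖ := fun u v => by
    rw [Ba, ← Real.norm_eq_abs]
    refine norm_av_sub_le fun γ => ?_
    have := n0 (γ.1.symm u) (γ.1.symm v)
    rw [← eH γ.1 γ.2 m hms] at this
    simpa using this
  set X : E4 →L[ℝ] E4 := InnerProductSpace.continuousLinearMapOfBilin (𝕜 := ℝ) B - 1 with hX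
  have Xa : ∀ u v, ⟪X u, v⟫ = B u v - ⟪u, v⟫ := fun u v => by
    rw [hX, sub_apply, inner_sub_left, InnerProductSpace.continuousLinearMapOfBilin_apply]
    rfl
  have Xn : ‖X‖ ≤ 1 / 4 := ContinuousLinearMap.opNorm_le_bound _ (by norm_num) fun u => by
    have b1 := n1 u (X u)
    rw [← Xa, real_inner_self_eq_norm_sq] at b1
    have b2 := le_abs_self (‖X u‖ ^ 2)
    by_contra hc
    push Not at hc
    nlinarith [norm_nonneg u]
  have Xs : ∀ u v, ⟪X u, v⟫ = ⟪u, X v⟫ := fun u v => by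
    rw [real_inner_comm (X v), Xa, Xa, Bs, real_inner_comm]
  have Xc : ∀ γ ∈ Γ, ∀ u, X (γ u) = γ (X u) := fun γ hγ u => by
    refine ext_inner_right ℝ fun v => ?_
    obtain ⟨v, rfl⟩ := γ.surjective v
    rw [Xa, Bi γ hγ, γ.inner_map_map, γ.inner_map_map, Xa]
  obtain ⟨Y, ⟨hYs, hYc⟩, hYn, hY⟩ := sqrt_near X Xn
    {Y | (∀ u v, ⟪Y u, v⟫ = ⟪u, Y v⟫) ∧ ∀ γ ∈ Γ, ∀ u, Y (γ u) = γ (Y u)}
    (by
      simp only [ofPred_and, ofPred_forall]
      exact (isClosed_iInter fun u => isClosed_iInter fun v =>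
        isClosed_eq (by fun_prop) (by fun_prop)).inter (isClosed_iInter fun γ =>
          isClosed_iInter fun _ => isClosed_iInter fun u =>
            isClosed_eq (by fun_prop) (by fun_prop)))
    (by simp)
    (by
      rintro Y ⟨h1, h2⟩
      refine ⟨fun u v => ?_, fun γ hγ u => ?_⟩
      · simp only [smul_apply, sub_apply, mul_apply_eq_comp, inner_smul_left, inner_smul_right,
          inner_sub_left, inner_sub_right, Xs, h1, conj_trivial]
      · simp only [smul_apply, sub_apply, mul_apply_eq_comp, map_smul, map_sub, Xc γ hγ,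
          h2 γ hγ])
  have LL : ∀ u v, ⟪(1 + Y) u, (1 + Y) v⟫ = B u v := fun u v => by
    have e := congrArg (fun L : E4 →L[ℝ] E4 => ⟪L u, v⟫) hY
    simp only [mul_apply_eq_comp, add_apply, one_apply_eq_self, inner_add_left, Xa, map_add,
      hYs] at e
    simp only [add_apply, one_apply_eq_self, inner_add_left, inner_add_right, hYs]
    linarith
  refine ⟨1 + Y, fun u => ?_, fun γ hγ u => ?_, fun x hx u v => ?_⟩
  · have b1 := Y.le_opNorm u
    have b2 := norm_add_le u (Y u)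
    have b3 : ‖Y‖ * ‖u‖ ≤ 1 / 4 * ‖u‖ := by gcongr; linarith
    simp only [add_apply, one_apply_eq_self]
    linarith [norm_nonneg u]
  · simp only [add_apply, one_apply_eq_self, map_add, hYc γ hγ]
  · rw [LL, Ba, ← Real.norm_eq_abs]
    refine norm_av_sub_le fun γ => ?_
    have b1 := met hR hab hl hp hη (by linarith) hx (m := γ.1 m) (by rw [γ.1.norm_map, hm])
      (θ x u) (θ x v)
    rw [hl.iv_mul hx, hl.iv_mul hx, abs_sub_comm] at b1
    refine b1.trans ?_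
    have := wt_nonneg a b x
    calc _ ≤ 34 * (256 * η * (2 * ‖u‖) * (2 * ‖v‖)) * wt a b x := by
          gcongr; exacts [hp.up x hx u, hp.up x hx v]
      _ = 34816 * (η * wt a b x * ‖u‖ * ‖v‖) := by ring
      _ ≤ 40000 * (η * wt a b x * ‖u‖ * ‖v‖) := by gcongr; norm_num
      _ = _ := by ring

end Crest.Agent.N207.H.Frb

namespace Crest.Agent.N207.H

open Frb

theorem frb : FRB := by
  intro η hη
  refine ⟨min (η / 40000) (1 / 10000), by positivity, fun G Γ a b θ hab h => ?_⟩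
  set η0 := min (η / 40000) (1 / 10000) with h0
  have p0 : 0 < η0 := by positivity
  have p1 : η0 ≤ η / 40000 := min_le_left _ _
  have p2 : η0 ≤ 1 / 10000 := min_le_right _ _
  obtain ⟨θ', m, hp, hl, he, hm, h1⟩ := step1 h hab p0.le p2
  obtain ⟨L, L1, L2, L3⟩ := step2 h.toRM hab p0.le p2 hp hl he hm h1
  refine ⟨fun y => cj L 1 (θ' y), rm_mono h.toRM (by linarith),
    (cj L 1).contDiff.comp_contDiffOn hp.sm, fun γ hγ x hx v => ?_, fun x hx u v => ?_,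
    fun x hx u v => ?_⟩
  · change L (θ' (γ x) (γ v)) = γ (L (θ' x v))
    rw [he γ hγ x hx, L2 γ hγ]
  · have d := (cj L 1).hasFDerivAt.comp x (hp.diff hx).hasFDerivAt
    have e : fderiv ℝ (fun y => cj L 1 (θ' y)) x u v - cj L 1 (θ' x) (Gam G x u v) =
        L (fderiv ℝ θ' x u v - θ' x (Gam G x u v)) := by
      rw [show fderiv ℝ (fun y => cj L 1 (θ' y)) x = _ from d.fderiv, map_sub]
      rfl
    have := wt_nonneg a b x
    rw [e]
    calc _ ≤ 2 * (‖fderiv ℝ θ' x u v - θ' x (Gam G x u v)‖ * ‖x‖) := by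
          rw [← mul_assoc]; gcongr; exact L1 _
      _ ≤ 2 * (η0 * wt a b x * ‖u‖ * ‖v‖) := 
          mul_le_mul_of_nonneg_left (hp.par x hx u v) (by norm_num)
      _ = 2 * η0 * wt a b x * ‖u‖ * ‖v‖ := by ring
      _ ≤ _ := by gcongr; linarith
  · have := wt_nonneg a b x
    exact (L3 x hx u v).trans (by gcongr; linarith)

end Crest.Agent.N207.H

end
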