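import Crest.Agent.N207.H.St2

/-!
# Row 207, block H, FRB 1 (helper7): the drift lemma, averages
-/

set_option autoImplicit false
set_option linter.unusedSectionVars false

open scoped ContDiff Topology RealInnerProductSpace
open Set Filter Metric
open Crest.GeometryTopology.CoordMetric
open Crest.Agent.R202.Tens Crest.Agent.R247.Bo84 Crest.Agent.N207.Sk

noncomputable section

namespace Crest.Agent.N207.H.Frb

variable {a b : ℝ}

theorem open_shell (a b : ℝ) : IsOpen (shell a b) :=
  (isOpen_lt continuous_const continuous_norm).inter (isOpen_lt continuous_norm continuous_const)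

theorem mid_sq (ha : 0 < a) (hab : 100 * a ≤ b) : √(a * b) * √(a * b) = a * b :=
  Real.mul_self_sqrt (by nlinarith)

theorem mid_lo (ha : 0 < a) (hab : 100 * a ≤ b) : 10 * a ≤ √(a * b) :=
  Real.le_sqrt_of_sq_le (by nlinarith)

theorem mid_hi (ha : 0 < a) (hab : 100 * a ≤ b) : 10 * √(a * b) ≤ b := by
  have h1 := mid_sq ha hab
  have h2 := mid_lo ha hab
  nlinarith

theorem mid_div (ha : 0 < a) (hab : 100 * a ≤ b) : a / √(a * b) = √(a * b) / b := by
  have h1 := mid_sq ha hab
  have h2 := mid_lo ha hab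
  rw [div_eq_div_iff (by linarith) (by linarith), h1]

theorem mid_mem (ha : 0 < a) (hab : 100 * a ≤ b) {y : E4} (h1 : √(a * b) / 2 ≤ ‖y‖)
    (h2 : ‖y‖ ≤ √(a * b)) : y ∈ shell a b := by
  have := mid_lo ha hab
  have := mid_hi ha hab
  exact ⟨by linarith, by linarith⟩

theorem wt_mid (ha : 0 < a) (hab : 100 * a ≤ b) {p x : E4} (hp : ‖p‖ = √(a * b))
    (hx : x ∈ shell a b) : wt a b p ≤ 2 * wt a b x := by
  have h2 := mid_lo ha hab
  have h3 := mid_div ha hab
  have hx0 : 0 < ‖x‖ := ha.trans hx.1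
  have n1 := Real.sqrt_nonneg (a / ‖x‖)
  have n2 := Real.sqrt_nonneg (‖x‖ / b)
  unfold wt
  rw [hp]
  rcases le_total ‖x‖ √(a * b) with h | h
  · have : √(a / √(a * b)) ≤ √(a / ‖x‖) := by gcongr
    rw [← h3]; linarith
  · have : √(√(a * b) / b) ≤ √(‖x‖ / b) := by
      have : 0 < b := by linarith
      gcongr
    rw [h3]; linarith

theorem wt_exp (ha : 0 < a) (hab : 100 * a ≤ b) {p : E4} (hp : ‖p‖ = √(a * b)) (t : ℝ) :
    wt a b (Real.exp t • p) =
      √(√(a * b) / b) * (Real.exp (|t| / 2) + Real.exp (-(|t| / 2))) := by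
  have h2 := mid_lo ha hab
  have h3 := mid_div ha hab
  have hb : 0 < b := by linarith
  have hr : 0 < √(a * b) := by linarith
  have e1 : a / (Real.exp t * √(a * b)) = √(a * b) / b * Real.exp (-t) := by
    rw [← h3, Real.exp_neg]; field_simp
  have e2 : Real.exp t * √(a * b) / b = √(a * b) / b * Real.exp t := by ring
  unfold wt
  rw [norm_smul, Real.norm_of_nonneg (Real.exp_pos t).le, hp, e1, e2,
    Real.sqrt_mul (x := √(a * b) / b) (by positivity),
    Real.sqrt_mul (x := √(a * b) / b) (by positivity), ← Real.exp_half, ← Real.exp_half]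
  rcases abs_cases t with h | h <;> rw [h.1] <;> ring_nf

variable {F : Type*} [NormedAddCommGroup F] [NormedSpace ℝ F]

/-- oscillation on the middle sphere -/
theorem osc_mid (ha : 0 < a) (hab : 100 * a ≤ b) {f : E4 → F} {K : ℝ} (hK : 0 ≤ K) {p m : E4}
    (hp : ‖p‖ = √(a * b)) (hm : ‖m‖ = √(a * b))
    (h : ∀ y, √(a * b) / 2 ≤ ‖y‖ → ‖y‖ ≤ √(a * b) →
      DifferentiableAt ℝ f y ∧ ‖fderiv ℝ f y‖ * ‖y‖ ≤ K) : ‖f p - f m‖ ≤ 8 * K := by
  have h2 := mid_lo ha hab
  have hr : 0 < √(a * b) := by linarith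
  have := osc (f := f) (0 : E4) (r := √(a * b)) (K := 2 * K / √(a * b)) (c := 0) hr.le
    (by positivity) le_rfl hp hm (by simp) (by simp) fun y h1 h2 _ => ⟨(h y h1 h2).1, by
      rw [le_div_iff₀ hr]
      nlinarith [(h y h1 h2).2, norm_nonneg (fderiv ℝ f y)]⟩
  refine this.trans (le_of_eq ?_)
  field_simp; ring

/-- the drift lemma -/
theorem drift (ha : 0 < a) (hab : 100 * a ≤ b) {f : E4 → F} {K : ℝ} (hK : 0 ≤ K)
    (h : ∀ y ∈ shell a b, DifferentiableAt ℝ f y ∧ ‖fderiv ℝ f y‖ * ‖y‖ ≤ K * wt a b y)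
    {x m : E4} (hx : x ∈ shell a b) (hm : ‖m‖ = √(a * b)) :
    ‖f x - f m‖ ≤ 34 * K * wt a b x := by
  have h2 := mid_lo ha hab
  have h3 := mid_hi ha hab
  have hr : 0 < √(a * b) := by linarith
  have hx0 : 0 < ‖x‖ := ha.trans hx.1
  set r := √(a * b) with hrd
  set p : E4 := (r / ‖x‖) • x with hpd
  have hp : ‖p‖ = r := by
    rw [hpd, norm_smul, Real.norm_of_nonneg (by positivity), div_mul_cancel₀ _ hx0.ne']
  set t0 := Real.log (‖x‖ / r) with ht0
  have et : Real.exp t0 = ‖x‖ / r := Real.exp_log (by positivity)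
  have ex : Real.exp t0 • p = x := by
    rw [et, hpd, smul_smul, show ‖x‖ / r * (r / ‖x‖) = 1 by field_simp, one_smul]
  have w1 := wt_mid ha hab hp hx
  have o1 : ‖f p - f m‖ ≤ 8 * (K * (4 * wt a b x)) := by
    refine osc_mid ha hab (by have := wt_nonneg a b x; positivity) hp hm fun y y1 y2 => ?_
    have hy := mid_mem ha hab y1 y2
    refine ⟨(h y hy).1, (h y hy).2.trans ?_⟩
    have := wt_cmp (a := a) (b := b) (x := p) (y := y) ha.le (by linarith) (by linarith)
      (by linarith) (by linarith)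
    gcongr; linarith
  set c := √(r / b) with hc
  have hc0 : 0 ≤ c := Real.sqrt_nonneg _
  have mem : ∀ s ∈ Icc (0 : ℝ) 1, Real.exp (s * t0) • p ∈ shell a b := by
    intro s hs
    have en : ‖Real.exp (s * t0) • p‖ = Real.exp (s * t0) * r := by
      rw [norm_smul, Real.norm_of_nonneg (Real.exp_pos _).le, hp]
    have e0 : Real.exp t0 * r = ‖x‖ := by rw [et]; field_simp
    have hx1 := hx.1
    have hx2 := hx.2
    change a < _ ∧ _ < b
    rw [en]
    rcases le_total 0 t0 with h0 | h0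
    · have a1 : 1 ≤ Real.exp (s * t0) := Real.one_le_exp (by nlinarith [hs.1])
      have a2 : Real.exp (s * t0) ≤ Real.exp t0 := Real.exp_le_exp.2 (by nlinarith [hs.2])
      constructor <;> nlinarith
    · have a1 : Real.exp (s * t0) ≤ 1 := Real.exp_le_one_iff.2 (by nlinarith [hs.1])
      have a2 : Real.exp t0 ≤ Real.exp (s * t0) := Real.exp_le_exp.2 (by nlinarith [hs.2])
      constructor <;> nlinarith
  have dc : ∀ s : ℝ, HasDerivAt (fun s => Real.exp (s * t0) • p)
      (t0 • (Real.exp (s * t0) • p)) s := fun s => by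
    have := (((hasDerivAt_id s).mul_const t0).exp).smul_const p
    simpa [smul_smul, mul_comm] using this
  have dg : ∀ s ∈ Icc (0 : ℝ) 1, HasDerivAt (fun s => f (Real.exp (s * t0) • p) - f p)
      (fderiv ℝ f (Real.exp (s * t0) • p) (t0 • (Real.exp (s * t0) • p))) s := fun s hs =>
    (HasFDerivAt.comp_hasDerivAt (l := f) (f := fun s => Real.exp (s * t0) • p) s
      (h _ (mem s hs)).1.hasFDerivAt (dc s)).sub_const _
  have dB : ∀ s : ℝ, HasDerivAt
      (fun s => 2 * K * c * (Real.exp (s * |t0| / 2) - Real.exp (-(s * |t0| / 2))))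
      (|t0| * (K * (c * (Real.exp (s * |t0| / 2) + Real.exp (-(s * |t0| / 2)))))) s := fun s => by
    have d1 : HasDerivAt (fun s => s * |t0| / 2) (|t0| / 2) s := by
      simpa using ((hasDerivAt_id s).mul_const |t0|).div_const 2
    refine ((d1.exp.sub d1.neg.exp).const_mul (2 * K * c)).congr_deriv ?_
    simp only [Pi.neg_apply]
    ring
  have main := image_norm_le_of_norm_deriv_right_le_deriv_boundary (a := 0) (b := 1)
    (fun s hs => (dg s hs).continuousAt.continuousWithinAt)
    (fun s hs => (dg s (Ico_subset_Icc_self hs)).hasDerivWithinAt) (by simp) dB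
    (fun s hs => by
      have hs' := Ico_subset_Icc_self hs
      have b1 := (h _ (mem s hs')).2
      rw [wt_exp ha hab hp, abs_mul, abs_of_nonneg hs.1] at b1
      rw [map_smul, norm_smul, Real.norm_eq_abs]
      gcongr
      exact (ContinuousLinearMap.le_opNorm _ _).trans b1) ⟨zero_le_one, le_rfl⟩
  simp only [one_mul, ex] at main
  have w2 := wt_exp ha hab hp t0
  rw [ex] at w2
  have o2 : ‖f x - f p‖ ≤ 2 * K * wt a b x := by
    refine main.trans ?_
    rw [w2, mul_assoc (2 * K)]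
    gcongr
    linarith [Real.exp_pos (-(|t0| / 2))]
  have := norm_add_le (f x - f p) (f p - f m)
  rw [sub_add_sub_cancel] at this
  linarith

/-! ### averages -/

/-- the average over a finite type -/
def av {ι : Type*} [Fintype ι] (f : ι → F) : F := (Fintype.card ι : ℝ)⁻¹ • ∑ i, f i

variable {ι : Type*} [Fintype ι]

theorem av_const [Nonempty ι] (c : F) : av (fun _ : ι => c) = c := by
  have : (Fintype.card ι : ℝ) ≠ 0 := by exact_mod_cast Fintype.card_ne_zero
  rw [av, Finset.sum_const, Finset.card_univ, ← Nat.cast_smul_eq_nsmul ℝ, smul_smul,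
    inv_mul_cancel₀ this, one_smul]

theorem av_sub (f g : ι → F) : av (fun i => f i - g i) = av f - av g := by
  simp only [av, Finset.sum_sub_distrib, smul_sub]

theorem norm_av_le [Nonempty ι] {f : ι → F} {K : ℝ} (h : ∀ i, ‖f i‖ ≤ K) : ‖av f‖ ≤ K := by
  have h0 : (0 : ℝ) < Fintype.card ι := by exact_mod_cast Fintype.card_pos
  have h1 : ‖∑ i, f i‖ ≤ Fintype.card ι * K := by
    refine (norm_sum_le _ _).trans ((Finset.sum_le_sum fun i _ => h i).trans (le_of_eq ?_))
    simp
  rw [av, norm_smul, Real.norm_of_nonneg (by positivity), inv_mul_le_iff₀ h0]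
  exact h1

theorem norm_av_sub_le [Nonempty ι] {f : ι → F} {c : F} {K : ℝ} (h : ∀ i, ‖f i - c‖ ≤ K) :
    ‖av f - c‖ ≤ K := by
  rw [← av_const (ι := ι) c, ← av_sub]
  exact norm_av_le h

theorem av_map {F' : Type*} [NormedAddCommGroup F'] [NormedSpace ℝ F'] (L : F →L[ℝ] F')
    (f : ι → F) : L (av f) = av fun i => L (f i) := by
  simp only [av, map_smul, map_sum]

theorem av_apply {E : Type*} [NormedAddCommGroup E] [NormedSpace ℝ E] (f : ι → E →L[ℝ] F)
    (u : E) : av f u = av fun i => f i u :=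
  av_map (ContinuousLinearMap.apply ℝ F u) f

theorem av_equiv (e : ι ≃ ι) (f : ι → F) : av (fun i => f (e i)) = av f := by
  simp only [av, Equiv.sum_comp e f]

theorem hasFDerivAt_av {E : Type*} [NormedAddCommGroup E] [NormedSpace ℝ E] {f : ι → E → F}
    {f' : ι → E →L[ℝ] F} {x : E} (h : ∀ i, HasFDerivAt (f i) (f' i) x) :
    HasFDerivAt (fun y => av fun i => f i y) (av f') x :=
  (HasFDerivAt.fun_sum fun i _ => h i).const_smul _

theorem contDiffOn_av {E : Type*} [NormedAddCommGroup E] [NormedSpace ℝ E] {f : ι → E → F}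
    {s : Set E} (h : ∀ i, ContDiffOn ℝ ∞ (f i) s) :
    ContDiffOn ℝ ∞ (fun y => av fun i => f i y) s :=
  (ContDiffOn.sum fun i _ => h i).const_smul _

end Crest.Agent.N207.H.Frb

end
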