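import Crest.Agent.N207.H.Frb1
import Crest.Agent.N207.I.Rig

/-!
# Row 207, block H, FRB 2 (helper7): almost parallel coframes, inverse, average
-/

set_option autoImplicit false
set_option linter.unusedSectionVars false

open scoped ContDiff Topology RealInnerProductSpace
open Set Filter Metric
open Crest.GeometryTopology.CoordMetric
open Crest.Agent.R202.Tens Crest.Agent.R247.Bo84 Crest.Agent.N207.Sk
open Crest.Agent.N207.I (cl cl_mul cl_one star_cl sqrt_near)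

noncomputable section

namespace Crest.Agent.N207.H.Frb

variable {G : MetricField 4} {Γ : Subgroup (E4 ≃ₗᵢ[ℝ] E4)} {a b η : ℝ}
  {θ θ' : E4 → E4 →L[ℝ] E4} {x : E4}

/-- almost parallel, bounded above -/
structure Pa (G : MetricField 4) (a b η : ℝ) (θ : E4 → E4 →L[ℝ] E4) : Prop where
  sm : ContDiffOn ℝ ∞ θ (shell a b)
  par : ∀ x ∈ shell a b, ∀ u v,
    ‖fderiv ℝ θ x u v - θ x (Gam G x u v)‖ * ‖x‖ ≤ η * wt a b x * ‖u‖ * ‖v‖
  up : ∀ x ∈ shell a b, ∀ u, ‖θ x u‖ ≤ 2 * ‖u‖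

theorem Pa.diff (h : Pa G a b η θ) (hx : x ∈ shell a b) : DifferentiableAt ℝ θ x :=
  (h.sm.contDiffAt ((open_shell a b).mem_nhds hx)).differentiableAt (by simp)

/-- bounded below -/
def Lo (a b : ℝ) (θ : E4 → E4 →L[ℝ] E4) : Prop := ∀ x ∈ shell a b, ∀ u, ‖u‖ ≤ 4 * ‖θ x u‖

theorem Lo.unit (h : Lo a b θ) (hx : x ∈ shell a b) : IsUnit (θ x) := by
  rw [ContinuousLinearMap.isUnit_iff_bijective]
  have hi : Function.Injective (θ x) := by
    refine (injective_iff_map_eq_zero _).2 fun u hu => ?_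
    have := h x hx u
    rw [hu, norm_zero, mul_zero] at this
    exact norm_le_zero_iff.1 this
  exact ⟨hi, (LinearMap.injective_iff_surjective (f := (θ x : E4 →ₗ[ℝ] E4))).1 hi⟩

/-- the inverse frame -/
def iv (θ : E4 → E4 →L[ℝ] E4) (x : E4) : E4 →L[ℝ] E4 := Ring.inverse (θ x)

theorem Lo.mul_iv (h : Lo a b θ) (hx : x ∈ shell a b) (u : E4) : θ x (iv θ x u) = u :=
  congrArg (fun L : E4 →L[ℝ] E4 => L u) (Ring.mul_inverse_cancel _ (h.unit hx))

theorem Lo.iv_mul (h : Lo a b θ) (hx : x ∈ shell a b) (u : E4) : iv θ x (θ x u) = u :=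
  congrArg (fun L : E4 →L[ℝ] E4 => L u) (Ring.inverse_mul_cancel _ (h.unit hx))

theorem Lo.norm_iv (h : Lo a b θ) (hx : x ∈ shell a b) (u : E4) : ‖iv θ x u‖ ≤ 4 * ‖u‖ := by
  have := h x hx (iv θ x u)
  rwa [h.mul_iv hx] at this

theorem Lo.cov_iv (h : Lo a b θ) (hp : Pa G a b η θ) (hη : 0 ≤ η) (hx : x ∈ shell a b) (u : E4) :
    DifferentiableAt ℝ (fun y => iv θ y u) x ∧
      ∀ w, ‖R247.Bo84.cov G (fun y => iv θ y u) x w‖ * ‖x‖ ≤ 16 * η * wt a b x * ‖w‖ * ‖u‖ := by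
  obtain ⟨U, hU⟩ := h.unit hx
  have hi : iv θ x = ↑U⁻¹ := by rw [iv, ← hU, Ring.inverse_unit]
  have d0 := hasFDerivAt_ringInverse (𝕜 := ℝ) (R := E4 →L[ℝ] E4) U
  rw [hU, ← hi] at d0
  have d1 := d0.comp x (hp.diff hx).hasFDerivAt
  have d2 := (ContinuousLinearMap.apply ℝ E4 u).hasFDerivAt.comp x d1
  refine ⟨d2.differentiableAt, fun w => ?_⟩
  have e : R247.Bo84.cov G (fun y => iv θ y u) x w =
      -iv θ x (fderiv ℝ θ x w (iv θ x u) - θ x (Gam G x w (iv θ x u))) := by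
    rw [R247.Bo84.cov_apply, show fderiv ℝ (fun y => iv θ y u) x = _ from d2.fderiv, map_sub, h.iv_mul hx]
    simp
    abel
  rw [e, norm_neg]
  have b1 := h.norm_iv hx (fderiv ℝ θ x w (iv θ x u) - θ x (Gam G x w (iv θ x u)))
  have b2 := hp.par x hx w (iv θ x u)
  have b3 := h.norm_iv hx u
  have := wt_nonneg a b x
  calc _ ≤ 4 * (‖fderiv ℝ θ x w (iv θ x u) - θ x (Gam G x w (iv θ x u))‖ * ‖x‖) := by
        rw [← mul_assoc]; gcongr
    _ ≤ 4 * (η * wt a b x * ‖w‖ * (4 * ‖u‖)) := by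
        exact mul_le_mul_of_nonneg_left (b2.trans (by gcongr)) (by norm_num)
    _ = _ := by ring

theorem op_le {F : Type*} [NormedAddCommGroup F] [NormedSpace ℝ F] {D : E4 →L[ℝ] F} {K : ℝ}
    (ha : 0 < a) (hx : x ∈ shell a b) (hK : 0 ≤ K) (h : ∀ w, ‖D w‖ * ‖x‖ ≤ K * ‖w‖) :
    ‖D‖ * ‖x‖ ≤ K := by
  have h0 : 0 < ‖x‖ := ha.trans hx.1
  rw [← le_div_iff₀ h0]
  refine ContinuousLinearMap.opNorm_le_bound _ (by positivity) fun w => ?_
  rw [div_mul_eq_mul_div, le_div_iff₀ h0]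
  exact h w

/-- the quotient of two almost parallel coframes is almost constant -/
theorem quot (ha : 0 < a) (hab : 100 * a ≤ b) (h : Lo a b θ) (hp : Pa G a b η θ)
    (hp' : Pa G a b η θ') (hη : 0 ≤ η) (hx : x ∈ shell a b) {m : E4} (hm : ‖m‖ = √(a * b))
    (u : E4) : ‖θ' x (iv θ x u) - θ' m (iv θ m u)‖ ≤ 34 * (36 * η * ‖u‖) * wt a b x := by
  refine drift (f := fun y => θ' y (iv θ y u)) ha hab (by positivity) (fun y hy => ?_) hx hm
  obtain ⟨d, hd⟩ := h.cov_iv hp hη hy u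
  have d1 := (hp'.diff hy).hasFDerivAt.clm_apply d.hasFDerivAt
  have := wt_nonneg a b y
  refine ⟨d1.differentiableAt, op_le ha hy (by positivity) fun w => ?_⟩
  have e : fderiv ℝ (fun y => θ' y (iv θ y u)) y w =
      (fderiv ℝ θ' y w (iv θ y u) - θ' y (Gam G y w (iv θ y u))) +
        θ' y (R247.Bo84.cov G (fun y => iv θ y u) y w) := by
    rw [d1.fderiv, R247.Bo84.cov_apply, map_add]
    simp
    abel
  rw [e]
  have b1 := hp'.par y hy w (iv θ y u)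
  have b2 := hp'.up y hy (R247.Bo84.cov G (fun y => iv θ y u) y w)
  have b3 := h.norm_iv hy u
  have b4 := hd w
  have b5 : η * wt a b y * ‖w‖ * ‖iv θ y u‖ ≤ η * wt a b y * ‖w‖ * (4 * ‖u‖) := by gcongr
  have b6 := mul_le_mul_of_nonneg_right b2 (norm_nonneg y)
  have b7 := mul_le_mul_of_nonneg_right (norm_add_le (fderiv ℝ θ' y w (iv θ y u) -
    θ' y (Gam G y w (iv θ y u))) (θ' y (R247.Bo84.cov G (fun y => iv θ y u) y w))) (norm_nonneg y)
  nlinarith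

theorem bil_le (hR : RM G Γ a b η) (hη : η ≤ 1) (hx : x ∈ shell a b) (u v : E4) :
    |bil (G x) u v| ≤ 2 * ‖u‖ * ‖v‖ := by
  have h1 := hR.near x hx u v
  have h2 := abs_real_inner_le_norm u v
  have h3 := abs_add_le (bil (G x) u v - ⟪u, v⟫) ⟪u, v⟫
  rw [sub_add_cancel] at h3
  nlinarith [mul_nonneg (norm_nonneg u) (norm_nonneg v)]

/-- the metric in an almost parallel frame is almost constant -/
theorem met (hR : RM G Γ a b η) (hab : 100 * a ≤ b) (h : Lo a b θ) (hp : Pa G a b η θ)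
    (hη : 0 ≤ η) (hη1 : η ≤ 1) (hx : x ∈ shell a b) {m : E4} (hm : ‖m‖ = √(a * b)) (u v : E4) :
    |bil (G x) (iv θ x u) (iv θ x v) - bil (G m) (iv θ m u) (iv θ m v)| ≤
      34 * (256 * η * ‖u‖ * ‖v‖) * wt a b x := by
  have ha := hR.a_pos
  refine drift (f := fun y => bil (G y) (iv θ y u) (iv θ y v)) ha hab (by positivity)
    (fun y hy => ?_) hx hm
  obtain ⟨d, hd⟩ := h.cov_iv hp hη hy u
  obtain ⟨d', hd'⟩ := h.cov_iv hp hη hy v
  have := wt_nonneg a b y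
  refine ⟨((differentiableAt_Gf hR.riem hy).clm_apply d).clm_apply d',
    op_le ha hy (by positivity) fun w => ?_⟩
  rw [fderiv_bil hR.riem hy d d', Real.norm_eq_abs]
  have b1 := bil_le hR hη1 hy (R247.Bo84.cov G (fun y => iv θ y u) y w) (iv θ y v)
  have b2 := bil_le hR hη1 hy (iv θ y u) (R247.Bo84.cov G (fun y => iv θ y v) y w)
  have b3 := h.norm_iv hy u
  have b4 := h.norm_iv hy v
  calc _ ≤ (2 * ‖R247.Bo84.cov G (fun y => iv θ y u) y w‖ * (4 * ‖v‖) +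
        2 * (4 * ‖u‖) * ‖R247.Bo84.cov G (fun y => iv θ y v) y w‖) * ‖y‖ := by
        gcongr
        refine (abs_add_le _ _).trans (add_le_add (b1.trans ?_) (b2.trans ?_)) <;> gcongr
    _ = 8 * ‖v‖ * (‖R247.Bo84.cov G (fun y => iv θ y u) y w‖ * ‖y‖) +
        8 * ‖u‖ * (‖R247.Bo84.cov G (fun y => iv θ y v) y w‖ * ‖y‖) := by ring
    _ ≤ 8 * ‖v‖ * (16 * η * wt a b y * ‖w‖ * ‖u‖) +
        8 * ‖u‖ * (16 * η * wt a b y * ‖w‖ * ‖v‖) := 
        add_le_add (mul_le_mul_of_nonneg_left (hd w) (by positivity))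
          (mul_le_mul_of_nonneg_left (hd' w) (by positivity))
    _ = _ := by ring

/-! ### the action of `Γ` -/

theorem mem_iso (γ : E4 ≃ₗᵢ[ℝ] E4) (hx : x ∈ shell a b) : γ x ∈ shell a b := by
  simpa only [shell, mem_ofPred_eq, γ.norm_map] using hx

theorem wt_iso (γ : E4 ≃ₗᵢ[ℝ] E4) (x : E4) : wt a b (γ x) = wt a b x := by
  simp only [wt, γ.norm_map]

theorem gam_iso (hR : RM G Γ a b η) {γ : E4 ≃ₗᵢ[ℝ] E4} (hγ : γ ∈ Γ) (hx : x ∈ shell a b)
    (u v : E4) : Gam G (γ x) (γ u) (γ v) = γ (Gam G x u v) := by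
  have e : fderiv ℝ γ = fun _ => cl γ := funext fun y => (cl γ).fderiv
  have P : Pull G G γ (shell a b) (shell a b) := by
    refine ⟨open_shell a b, hR.riem, fun y hy => mem_iso γ hy, γ.contDiff.contDiffOn,
      fun y hy i j => ?_, fun y _ => by rw [e]; exact γ.injective⟩
    rw [← bil_apply, e]
    have := hR.inv γ hγ y hy (EuclideanSpace.single i 1) (EuclideanSpace.single j 1)
    refine Eq.trans ?_ this.symm
    simp [bil_apply]
  have := P.gam_eq hx u v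
  rw [e] at this
  simpa using this.symm

/-- conjugation -/
def cj (A B : E4 →L[ℝ] E4) : (E4 →L[ℝ] E4) →L[ℝ] E4 →L[ℝ] E4 :=
  (ContinuousLinearMap.compL ℝ E4 E4 E4 A).comp ((ContinuousLinearMap.compL ℝ E4 E4 E4).flip B)

/-- the translated coframe -/
def tg (θ : E4 → E4 →L[ℝ] E4) (γ : E4 ≃ₗᵢ[ℝ] E4) (x : E4) : E4 →L[ℝ] E4 :=
  cj (cl γ⁻¹) (cl γ) (θ (γ x))

theorem tg_apply (γ : E4 ≃ₗᵢ[ℝ] E4) (x u : E4) : tg θ γ x u = γ.symm (θ (γ x) (γ u)) := rfl

theorem Pa.tg (hp : Pa G a b η θ) {η' : ℝ} (hR : RM G Γ a b η') {γ : E4 ≃ₗᵢ[ℝ] E4}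
    (hγ : γ ∈ Γ) : Pa G a b η (tg θ γ) := by
  refine ⟨?_, fun x hx u v => ?_, fun x hx u => ?_⟩
  · exact (cj (cl γ⁻¹) (cl γ)).contDiff.comp_contDiffOn
      (hp.sm.comp γ.contDiff.contDiffOn fun y hy => mem_iso γ hy)
  · have d : HasFDerivAt (Frb.tg θ γ) ((cj (cl γ⁻¹) (cl γ)).comp
        ((fderiv ℝ θ (γ x)).comp (cl γ))) x :=
      (cj (cl γ⁻¹) (cl γ)).hasFDerivAt.comp x
        (HasFDerivAt.comp (g := θ) (f := γ) x (hp.diff (mem_iso γ hx)).hasFDerivAt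
          (cl γ).hasFDerivAt)
    have e : fderiv ℝ (Frb.tg θ γ) x u v - Frb.tg θ γ x (Gam G x u v) =
        γ.symm (fderiv ℝ θ (γ x) (γ u) (γ v) - θ (γ x) (Gam G (γ x) (γ u) (γ v))) := by
      rw [d.fderiv, tg_apply, gam_iso hR hγ hx, map_sub]
      rfl
    have := hp.par _ (mem_iso γ hx) (γ u) (γ v)
    rw [wt_iso, γ.norm_map, γ.norm_map, γ.norm_map] at this
    rwa [e, γ.symm.norm_map]
  · have := hp.up _ (mem_iso γ hx) (γ u)
    rwa [tg_apply, γ.symm.norm_map, ← γ.norm_map u]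

theorem Pa.av {ι : Type*} [Fintype ι] [Nonempty ι] {t : ι → E4 → E4 →L[ℝ] E4} (ha : 0 < a)
    (h : ∀ i, Pa G a b η (t i)) : Pa G a b η fun y => av fun i => t i y := by
  refine ⟨contDiffOn_av fun i => (h i).sm, fun x hx u v => ?_, fun x hx u => ?_⟩
  · have h0 : 0 < ‖x‖ := ha.trans hx.1
    rw [(hasFDerivAt_av fun i => ((h i).diff hx).hasFDerivAt).fderiv, av_apply, av_apply,
      av_apply, ← av_sub, ← le_div_iff₀ h0]
    exact norm_av_le fun i => (le_div_iff₀ h0).2 ((h i).par x hx u v)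
  · rw [av_apply]
    exact norm_av_le fun i => (h i).up x hx u

end Crest.Agent.N207.H.Frb

end
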