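import Crest.Agent.N207.H.St2

/-!
# Row 207, block H (helper26): `FRC`, the radial primitive of an almost closed coframe
-/

set_option autoImplicit false
set_option linter.unusedSectionVars false
set_option maxSynthPendingDepth 3

open scoped ContDiff Topology Interval
open Set Filter Metric MeasureTheory
open Crest.GeometryTopology.CoordMetric
open Crest.Agent.R202.Tens Crest.Agent.N207.Sk

noncomputable section

namespace Crest.Agent.N207.H

/-- differentiation under the integral sign -/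
theorem hasFDerivAt_int01 {F : ℝ → E4 → E4} {F' : ℝ → E4 → E4 →L[ℝ] E4} {U : Set E4}
    (hU : IsOpen U) (hF : ∀ t ∈ Icc (0 : ℝ) 1, ∀ x ∈ U, HasFDerivAt (F t) (F' t x) x)
    (hc : ∀ x ∈ U, ContinuousOn (fun t => F t x) (Icc 0 1))
    (hc' : ContinuousOn (fun q : ℝ × E4 => F' q.1 q.2) (Icc 0 1 ×ˢ U)) {y : E4} (hy : y ∈ U) :
    HasFDerivAt (fun x => ∫ t in (0 : ℝ)..1, F t x) (∫ t in (0 : ℝ)..1, F' t y) y := by
  obtain ⟨ε, hε, hb⟩ := Metric.nhds_basis_closedBall.mem_iff.1 (hU.mem_nhds hy)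
  obtain ⟨C, hC⟩ := (isCompact_Icc.prod (isCompact_closedBall y ε)).exists_bound_of_continuousOn
    (hc'.mono (prod_mono (Subset.refl (Icc (0 : ℝ) 1)) hb))
  have hsub : Ι (0 : ℝ) 1 ⊆ Icc 0 1 := by
    rw [uIoc_of_le zero_le_one]; exact Ioc_subset_Icc_self
  have hs : ContinuousOn (fun t => F' t y) (Icc 0 1) :=
    hc'.comp (f := fun s : ℝ => (s, y)) (by fun_prop) fun _ hs => ⟨hs, hy⟩
  exact intervalIntegral.hasFDerivAt_integral_of_dominated_of_fderiv_le (𝕜 := ℝ)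
    (μ := volume) (a := 0) (b := 1) (F := fun z s => F s z)
    (F' := fun z s => F' s z) (bound := fun _ => C) (Metric.closedBall_mem_nhds y hε)
    (by
      filter_upwards [hU.mem_nhds hy] with z hz
      exact ((hc z hz).mono hsub).aestronglyMeasurable measurableSet_uIoc)
    ((hc y hy).intervalIntegrable_of_Icc zero_le_one)
    ((hs.mono hsub).aestronglyMeasurable measurableSet_uIoc)
    (Eventually.of_forall fun s hs z hz => hC (s, z) ⟨hsub hs, hz⟩)
    intervalIntegrable_const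
    (Eventually.of_forall fun s hs z hz => hF s (hsub hs) z (hb hz))

/-- the primitive along the segments from `p x` to `x` -/
def prim (θ : E4 → E4 →L[ℝ] E4) (p : E4 → E4) (x : E4) : E4 :=
  θ (p x) (p x) + ∫ t in (0 : ℝ)..1, θ (p x + t • (x - p x)) (x - p x)

theorem prim_deriv {θ : E4 → E4 →L[ℝ] E4} {p : E4 → E4} {S U : Set E4} (hS : IsOpen S)
    (hθ : ContDiffOn ℝ ∞ θ S) (hU : IsOpen U) (hp : ContDiffOn ℝ ∞ p U)
    (hm : ∀ t ∈ Icc (0 : ℝ) 1, ∀ x ∈ U, p x + t • (x - p x) ∈ S) {x : E4} (hx : x ∈ U) :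
    DifferentiableAt ℝ (prim θ p) x ∧ ∀ v, fderiv ℝ (prim θ p) x v - θ x v =
      fderiv ℝ θ (p x) (fderiv ℝ p x v) (p x) + ∫ t in (0 : ℝ)..1,
        (fderiv ℝ θ (p x + t • (x - p x)) (fderiv ℝ p x v + t • (v - fderiv ℝ p x v)) (x - p x)
          - fderiv ℝ θ (p x + t • (x - p x)) (x - p x)
            (fderiv ℝ p x v + t • (v - fderiv ℝ p x v))) := by
  have dθ : ∀ y ∈ S, HasFDerivAt θ (fderiv ℝ θ y) y := fun y hy =>
    ((hθ.contDiffAt (hS.mem_nhds hy)).differentiableAt (by simp)).hasFDerivAt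
  have dp : ∀ y ∈ U, HasFDerivAt p (fderiv ℝ p y) y := fun y hy =>
    ((hp.contDiffAt (hU.mem_nhds hy)).differentiableAt (by simp)).hasFDerivAt
  have cθ := hθ.continuousOn
  have cθ' : ContinuousOn (fderiv ℝ θ) S := hθ.continuousOn_fderiv_of_isOpen hS (by simp)
  have cp := hp.continuousOn
  have cp' : ContinuousOn (fderiv ℝ p) U := hp.continuousOn_fderiv_of_isOpen hU (by simp)
  set I : E4 →L[ℝ] E4 := ContinuousLinearMap.id ℝ E4 with hI
  set F' : ℝ → E4 → E4 →L[ℝ] E4 := fun t z =>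
    (θ (p z + t • (z - p z))).comp (I - fderiv ℝ p z) +
      (ContinuousLinearMap.apply ℝ E4 (z - p z)).comp
        ((fderiv ℝ θ (p z + t • (z - p z))).comp (fderiv ℝ p z + t • (I - fderiv ℝ p z))) with hF'
  have h1 : ∀ t ∈ Icc (0 : ℝ) 1, ∀ z ∈ U,
      HasFDerivAt (fun z => θ (p z + t • (z - p z)) (z - p z)) (F' t z) z := by
    intro t ht z hz
    have a1 : HasFDerivAt (fun z => z - p z) (I - fderiv ℝ p z) z :=
      (hasFDerivAt_id z).sub (dp z hz)
    have a2 : HasFDerivAt (fun z => p z + t • (z - p z))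
        (fderiv ℝ p z + t • (I - fderiv ℝ p z)) z := (dp z hz).add (a1.const_smul t)
    have a3 := (HasFDerivAt.comp (f := fun z => p z + t • (z - p z)) z (dθ _ (hm t ht z hz))
      a2).clm_apply a1
    exact a3.congr_fderiv (by ext v; rfl)
  have q1 : ContinuousOn (fun q : ℝ × E4 => p q.2) (Icc 0 1 ×ˢ U) :=
    cp.comp continuousOn_snd fun q hq => hq.2
  have q2 : ContinuousOn (fun q : ℝ × E4 => fderiv ℝ p q.2) (Icc 0 1 ×ˢ U) :=
    cp'.comp continuousOn_snd fun q hq => hq.2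
  have q3 : ContinuousOn (fun q : ℝ × E4 => p q.2 + q.1 • (q.2 - p q.2)) (Icc 0 1 ×ˢ U) :=
    q1.add (continuousOn_fst.smul (continuousOn_snd.sub q1))
  have q4 : ContinuousOn (fun q : ℝ × E4 => θ (p q.2 + q.1 • (q.2 - p q.2))) (Icc 0 1 ×ˢ U) :=
    cθ.comp q3 fun q hq => hm _ hq.1 _ hq.2
  have q5 : ContinuousOn (fun q : ℝ × E4 => fderiv ℝ θ (p q.2 + q.1 • (q.2 - p q.2)))
      (Icc 0 1 ×ˢ U) := cθ'.comp q3 fun q hq => hm _ hq.1 _ hq.2
  have q6 : ContinuousOn (fun q : ℝ × E4 => F' q.1 q.2) (Icc 0 1 ×ˢ U) :=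
    (q4.clm_comp (continuousOn_const.sub q2)).add
      (((ContinuousLinearMap.apply ℝ E4).continuous.comp_continuousOn
        (continuousOn_snd.sub q1)).clm_comp
        (q5.clm_comp (q2.add (continuousOn_fst.smul (continuousOn_const.sub q2)))))
  have sl : ∀ {Z : Type} [TopologicalSpace Z] {f : ℝ × E4 → Z}, ContinuousOn f (Icc 0 1 ×ˢ U) →
      ∀ z ∈ U, ContinuousOn (fun t : ℝ => f (t, z)) (Icc 0 1) := fun hf z hz =>
    hf.comp (f := fun s : ℝ => (s, z)) (by fun_prop) fun _ hs => ⟨hs, hz⟩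
  have h2 := hasFDerivAt_int01 hU h1
    (fun z hz => (sl q4 z hz).clm_apply continuousOn_const) q6 hx
  have hpS : p x ∈ S := by simpa using hm 0 ⟨le_rfl, zero_le_one⟩ x hx
  have h3 := ((HasFDerivAt.comp x (dθ _ hpS) (dp x hx)).clm_apply (dp x hx)).add h2
  have h4 : HasFDerivAt (prim θ p) _ x := h3
  refine ⟨h4.differentiableAt, fun v => ?_⟩
  rw [h4.fderiv]
  set w := fderiv ℝ p x v with hw
  have i1 : IntervalIntegrable (fun t => F' t x) volume 0 1 :=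
    (sl q6 x hx).intervalIntegrable_of_Icc zero_le_one
  set g' : ℝ → E4 := fun t => fderiv ℝ θ (p x + t • (x - p x)) (x - p x) (w + t • (v - w))
    + θ (p x + t • (x - p x)) (v - w) with hg'
  have c1 : ContinuousOn (fun t : ℝ => w + t • (v - w)) (Icc 0 1) := by fun_prop
  have i2 : IntervalIntegrable g' volume 0 1 :=
    ((((sl q5 x hx).clm_apply continuousOn_const).clm_apply c1).add
      ((sl q4 x hx).clm_apply continuousOn_const)).intervalIntegrable_of_Icc zero_le_one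
  have i3 : IntervalIntegrable (fun t => F' t x v) volume 0 1 :=
    ((sl q6 x hx).clm_apply continuousOn_const).intervalIntegrable_of_Icc zero_le_one
  have h5 : ∫ t in (0 : ℝ)..1, g' t = θ x v - θ (p x) w := by
    have a1 := intervalIntegral.integral_eq_sub_of_hasDerivAt
      (f := fun t : ℝ => θ (p x + t • (x - p x)) (w + t • (v - w))) (f' := g') (a := 0) (b := 1)
      (fun t ht => by
        rw [uIcc_of_le zero_le_one] at ht
        have b1 : HasDerivAt (fun t : ℝ => p x + t • (x - p x)) (x - p x) t := by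
          simpa using ((hasDerivAt_id t).smul_const (x - p x)).const_add (p x)
        have b2 : HasDerivAt (fun t : ℝ => w + t • (v - w)) (v - w) t := by
          simpa using ((hasDerivAt_id t).smul_const (v - w)).const_add w
        have b3 : HasDerivAt (fun t : ℝ => θ (p x + t • (x - p x)))
            (fderiv ℝ θ (p x + t • (x - p x)) (x - p x)) t :=
          (dθ _ (hm t ht x hx)).comp_hasDerivAt t b1
        exact b3.clm_apply b2) i2
    rw [a1]
    simp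
  have h6 : (∫ t in (0 : ℝ)..1, (fderiv ℝ θ (p x + t • (x - p x)) (w + t • (v - w)) (x - p x)
      - fderiv ℝ θ (p x + t • (x - p x)) (x - p x) (w + t • (v - w))))
      = (∫ t in (0 : ℝ)..1, F' t x v) - ∫ t in (0 : ℝ)..1, g' t := by
    rw [← intervalIntegral.integral_sub i3 i2]
    refine intervalIntegral.integral_congr fun t _ => ?_
    have e : F' t x v = θ (p x + t • (x - p x)) (v - w)
        + fderiv ℝ θ (p x + t • (x - p x)) (w + t • (v - w)) (x - p x) := rfl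
    simp only [e, hg']
    abel
  rw [h6, h5, add_apply, ContinuousLinearMap.intervalIntegral_apply i1]
  have e : ((θ ∘ p) x ∘L fderiv ℝ p x + (fderiv ℝ θ (p x) ∘L fderiv ℝ p x).flip (p x)) v
      = θ (p x) w + fderiv ℝ θ (p x) w (p x) := rfl
  rw [e]
  abel

/-- the radial projection to the sphere of radius `ρ` -/
def rp (ρ : ℝ) (x : E4) : E4 := (ρ * ‖x‖⁻¹) • x

theorem contDiffOn_rp (ρ : ℝ) : ContDiffOn ℝ ∞ (rp ρ) {x | x ≠ 0} := fun x hx =>
  ((contDiffAt_const.mul ((contDiffAt_id.norm ℝ hx).inv (norm_ne_zero_iff.2 hx))).smul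
    contDiffAt_id).contDiffWithinAt

theorem norm_rp {ρ : ℝ} (hρ : 0 ≤ ρ) {x : E4} (hx : x ≠ 0) : ‖rp ρ x‖ = ρ := by
  have := norm_pos_iff.2 hx
  rw [rp, norm_smul, Real.norm_of_nonneg (by positivity)]; field_simp

theorem norm_fderiv_rp {ρ : ℝ} (hρ : 0 ≤ ρ) {x : E4} (hx : x ≠ 0) (v : E4) :
    ‖fderiv ℝ (rp ρ) x v‖ ≤ 2 * (ρ / ‖x‖) * ‖v‖ := by
  have h0 := norm_pos_iff.2 hx
  have h1 : DifferentiableAt ℝ (fun y : E4 => ‖y‖) x := differentiableAt_id.norm ℝ hx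
  have h2 : ‖fderiv ℝ (fun y : E4 => ‖y‖) x‖ ≤ 1 := by
    simpa using norm_fderiv_le_of_lipschitz ℝ (x₀ := x) (lipschitzWith_one_norm (E := E4))
  have h3 := (((hasDerivAt_inv h0.ne').comp_hasFDerivAt x h1.hasFDerivAt).const_mul ρ).smul
    (hasFDerivAt_id x)
  have h4 : HasFDerivAt (rp ρ) _ x := h3
  rw [h4.fderiv]
  have h5 : |fderiv ℝ (fun y : E4 => ‖y‖) x v| ≤ ‖v‖ := by
    have := (fderiv ℝ (fun y : E4 => ‖y‖) x).le_opNorm v
    rw [Real.norm_eq_abs] at this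
    nlinarith [norm_nonneg v]
  show ‖(ρ * ‖x‖⁻¹) • v + (ρ * (-(‖x‖ ^ 2)⁻¹ * fderiv ℝ (fun y : E4 => ‖y‖) x v)) • x‖ ≤ _
  refine (norm_add_le _ _).trans ?_
  rw [norm_smul, norm_smul, Real.norm_of_nonneg (by positivity), Real.norm_eq_abs, abs_mul,
    abs_mul, abs_neg, abs_of_nonneg hρ, abs_of_pos (by positivity)]
  have h6 : ρ * ((‖x‖ ^ 2)⁻¹ * |fderiv ℝ (fun y : E4 => ‖y‖) x v|) * ‖x‖
      ≤ ρ * ((‖x‖ ^ 2)⁻¹ * ‖v‖) * ‖x‖ := by gcongr
  refine (add_le_add le_rfl h6).trans (le_of_eq ?_)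
  field_simp; ring

theorem norm_seg_rp {ρ : ℝ} (hρ : 0 ≤ ρ) {x : E4} (hx : x ≠ 0) {t : ℝ} (ht : t ∈ Icc (0 : ℝ) 1) :
    ‖rp ρ x + t • (x - rp ρ x)‖ = (1 - t) * ρ + t * ‖x‖ := by
  have h0 := norm_pos_iff.2 hx
  have h1 : 0 ≤ 1 - t := by linarith [ht.2]
  have h2 := ht.1
  have e : rp ρ x + t • (x - rp ρ x) = ((1 - t) * (ρ * ‖x‖⁻¹) + t) • x := by
    unfold rp; module
  rw [e, norm_smul, Real.norm_of_nonneg (by positivity)]; field_simp

theorem norm_sub_rp {ρ : ℝ} {x : E4} (hx : x ≠ 0) (h : ρ ≤ ‖x‖) :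
    ‖x - rp ρ x‖ = ‖x‖ - ρ := by
  have h0 := norm_pos_iff.2 hx
  have e : x - rp ρ x = (1 - ρ * ‖x‖⁻¹) • x := by unfold rp; module
  have h1 : ρ * ‖x‖⁻¹ ≤ 1 := by rw [← div_eq_mul_inv, div_le_one h0]; exact h
  rw [e, norm_smul, Real.norm_of_nonneg (by linarith)]; field_simp

section CE

variable {G : MetricField 4} {Γ : Subgroup (E4 ≃ₗᵢ[ℝ] E4)} {a b η : ℝ} {θ : E4 → E4 →L[ℝ] E4}

theorem CE.norm_le (h : CE G Γ a b η θ) (h0 : 0 ≤ η) (h1 : η ≤ 1) {x : E4} (hx : x ∈ shell a b)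
    (u : E4) : ‖θ x u‖ ≤ 2 * ‖u‖ := by
  have a1 := (abs_le.1 (h.iso x hx u u)).2
  have a2 := (abs_le.1 (h.near x hx u u)).2
  rw [real_inner_self_eq_norm_sq] at a1 a2
  have a3 := wt_le_two h.a_pos hx
  have a4 : η * wt a b x * ‖u‖ * ‖u‖ ≤ 1 * 2 * ‖u‖ * ‖u‖ := by
    have := wt_nonneg a b x
    gcongr
  have a5 : η * ‖u‖ * ‖u‖ ≤ 1 * ‖u‖ * ‖u‖ := by gcongr
  exact (pow_le_pow_iff_left₀ (norm_nonneg _) (by positivity) two_ne_zero).1 (by nlinarith)

theorem CE.dle (h : CE G Γ a b η θ) (h0 : 0 ≤ η) (h1 : η ≤ 1) {x : E4} (hx : x ∈ shell a b)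
    (u v : E4) : ‖fderiv ℝ θ x u v‖ * ‖x‖ ≤ 4 * η * ‖u‖ * ‖v‖ := by
  have a1 := h.par x hx u v
  have a2 := h.norm_le h0 h1 hx (Gam G x u v)
  have a3 : ‖Gam G x u v‖ ≤ ‖Gam G x‖ * ‖u‖ * ‖v‖ := (Gam G x).le_opNorm₂ u v
  have a4 := h.gam x hx
  have a5 : η * wt a b x * ‖u‖ * ‖v‖ ≤ η * 2 * ‖u‖ * ‖v‖ := by
    gcongr; exact wt_le_two h.a_pos hx
  have a6 : ‖fderiv ℝ θ x u v‖ ≤ ‖fderiv ℝ θ x u v - θ x (Gam G x u v)‖
      + 2 * (‖Gam G x‖ * ‖u‖ * ‖v‖) := by
    have := norm_add_le (fderiv ℝ θ x u v - θ x (Gam G x u v)) (θ x (Gam G x u v))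
    rw [sub_add_cancel] at this
    linarith
  have a7 : ‖Gam G x‖ * ‖x‖ * (‖u‖ * ‖v‖) ≤ η * (‖u‖ * ‖v‖) := by gcongr
  have a8 := mul_le_mul_of_nonneg_right a6 (norm_nonneg x)
  nlinarith

theorem CE.curl (h : CE G Γ a b η θ) {x : E4} (hx : x ∈ shell a b) (u v : E4) :
    ‖fderiv ℝ θ x u v - fderiv ℝ θ x v u‖ * ‖x‖ ≤ 2 * (η * wt a b x * ‖u‖ * ‖v‖) := by
  have a1 := h.par x hx u v
  have a2 := h.par x hx v u
  rw [R247.Bo84.Gam_symm h.riem hx v u] at a2
  have a3 := norm_sub_le (fderiv ℝ θ x u v - θ x (Gam G x u v))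
    (fderiv ℝ θ x v u - θ x (Gam G x u v))
  rw [sub_sub_sub_cancel_right] at a3
  have a4 := mul_le_mul_of_nonneg_right a3 (norm_nonneg x)
  nlinarith

theorem isOpen_shell' (a b : ℝ) : IsOpen (shell a b) :=
  (isOpen_lt continuous_const continuous_norm).inter (isOpen_lt continuous_norm continuous_const)

theorem CE.der (h : CE G Γ a b η θ) (hab : 100 * a ≤ b) (h0 : 0 ≤ η) (h1 : η ≤ 1) {x : E4}
    (hx : x ∈ shell a b) (hρ : 3 / 2 * a ≤ ‖x‖) :
    DifferentiableAt ℝ (prim θ (rp (3 / 2 * a))) x ∧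
      ‖fderiv ℝ (prim θ (rp (3 / 2 * a))) x - θ x‖ ≤ 20 * η * wt a b x := by
  have ha := h.a_pos
  set ρ := 3 / 2 * a with hρd
  have hρ0 : 0 < ρ := by positivity
  have hne : ∀ y ∈ shell a b, y ≠ 0 := fun y hy => norm_pos_iff.1 (ha.trans hy.1)
  have hm : ∀ t ∈ Icc (0 : ℝ) 1, ∀ y ∈ shell a b, rp ρ y + t • (y - rp ρ y) ∈ shell a b := by
    intro t ht y hy
    have e := norm_seg_rp hρ0.le (hne y hy) ht
    have b1 := hy.1
    have b2 := hy.2
    have b3 : min ρ ‖y‖ ≤ (1 - t) * ρ + t * ‖y‖ := by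
      nlinarith [min_le_left ρ ‖y‖, min_le_right ρ ‖y‖, ht.1, ht.2]
    have b4 : (1 - t) * ρ + t * ‖y‖ ≤ max ρ ‖y‖ := by
      nlinarith [le_max_left ρ ‖y‖, le_max_right ρ ‖y‖, ht.1, ht.2]
    exact ⟨by rw [e]; exact lt_of_lt_of_le (lt_min (by linarith) b1) b3,
      by rw [e]; exact lt_of_le_of_lt b4 (max_lt (by linarith) b2)⟩
  obtain ⟨d1, d2⟩ := prim_deriv (isOpen_shell' a b) h.sm (isOpen_shell' a b)
    ((contDiffOn_rp ρ).mono hne) hm hx
  have hw0 := wt_nonneg a b x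
  refine ⟨d1, ContinuousLinearMap.opNorm_le_bound _ (by positivity) fun v => ?_⟩
  rw [sub_apply, d2 v]
  have hx0 := hne x hx
  have hn : 0 < ‖x‖ := norm_pos_iff.2 hx0
  set w := fderiv ℝ (rp ρ) x v with hw
  have hwle : ‖w‖ ≤ 2 * (ρ / ‖x‖) * ‖v‖ := norm_fderiv_rp hρ0.le hx0 v
  have hpS : rp ρ x ∈ shell a b := by simpa using hm 0 ⟨le_rfl, zero_le_one⟩ x hx
  have t1 : ‖fderiv ℝ θ (rp ρ x) w (rp ρ x)‖ ≤ 12 * η * wt a b x * ‖v‖ := by
    have b1 := h.dle h0 h1 hpS w (rp ρ x)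
    rw [norm_rp hρ0.le hx0] at b1
    have b2 : ‖fderiv ℝ θ (rp ρ x) w (rp ρ x)‖ ≤ 4 * η * ‖w‖ := le_of_mul_le_mul_right b1 hρ0
    have b3 : a / ‖x‖ ≤ wt a b x := by
      have c1 : a / ‖x‖ ≤ 1 := (div_le_one hn).2 hx.1.le
      have c2 : a / ‖x‖ ≤ √(a / ‖x‖) := Real.le_sqrt_of_sq_le (by
        have : 0 ≤ a / ‖x‖ := by positivity
        nlinarith)
      unfold wt
      linarith [Real.sqrt_nonneg (‖x‖ / b)]
    have b4 : ‖w‖ ≤ 3 * wt a b x * ‖v‖ := by
      refine hwle.trans ?_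
      have : 2 * (ρ / ‖x‖) = 3 * (a / ‖x‖) := by rw [hρd]; ring
      rw [this]; gcongr
    calc _ ≤ 4 * η * ‖w‖ := b2
      _ ≤ 4 * η * (3 * wt a b x * ‖v‖) := by gcongr
      _ = _ := by ring
  have t2 := intervalIntegral.norm_integral_le_of_norm_le (μ := volume) (a := 0) (b := 1)
    (f := fun t : ℝ => fderiv ℝ θ (rp ρ x + t • (x - rp ρ x)) (w + t • (v - w)) (x - rp ρ x)
      - fderiv ℝ θ (rp ρ x + t • (x - rp ρ x)) (x - rp ρ x) (w + t • (v - w)))
    (g := fun t : ℝ => 4 * η * wt a b x * ‖v‖ * t ^ (-(1 / 2) : ℝ)) zero_le_one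
    (Eventually.of_forall fun t ht => by
      have ht' : t ∈ Icc (0 : ℝ) 1 := Ioc_subset_Icc_self ht
      have ht0 := ht.1
      have ht1 : 0 ≤ 1 - t := by linarith [ht.2]
      set c := rp ρ x + t • (x - rp ρ x) with hc
      have hcS : c ∈ shell a b := hm t ht' x hx
      have hcn : ‖c‖ = (1 - t) * ρ + t * ‖x‖ := norm_seg_rp hρ0.le hx0 ht'
      have hc0 : 0 < ‖c‖ := ha.trans hcS.1
      have b1 := h.curl hcS (w + t • (v - w)) (x - rp ρ x)
      have b2 : ‖w + t • (v - w)‖ ≤ 2 * (‖c‖ / ‖x‖) * ‖v‖ := by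
        have e : w + t • (v - w) = (1 - t) • w + t • v := by module
        rw [e]
        refine (norm_add_le _ _).trans ?_
        rw [norm_smul, norm_smul, Real.norm_of_nonneg ht1, Real.norm_of_nonneg ht0.le, hcn]
        have c1 : (1 - t) * ‖w‖ ≤ (1 - t) * (2 * (ρ / ‖x‖) * ‖v‖) := by gcongr
        have c2 : 2 * (((1 - t) * ρ + t * ‖x‖) / ‖x‖) * ‖v‖
            = (1 - t) * (2 * (ρ / ‖x‖) * ‖v‖) + 2 * (t * ‖v‖) := by field_simp
        have c3 : 0 ≤ t * ‖v‖ := by positivity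
        linarith
      have b3 : ‖x - rp ρ x‖ ≤ ‖x‖ := by rw [norm_sub_rp hx0 hρ]; linarith
      have hs : 0 < √t := Real.sqrt_pos.2 ht0
      have b4 : wt a b c ≤ wt a b x * (√t)⁻¹ := by
        have c1 : √(a / ‖c‖) ≤ √(a / ‖x‖) * (√t)⁻¹ := by
          rw [← Real.sqrt_inv, ← Real.sqrt_mul (by positivity)]
          refine Real.sqrt_le_sqrt ?_
          have : t * ‖x‖ ≤ ‖c‖ := by rw [hcn]; nlinarith
          calc a / ‖c‖ ≤ a / (t * ‖x‖) := by gcongr
            _ = _ := by field_simp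
        have c2 : √(‖c‖ / b) ≤ √(‖x‖ / b) := by
          have : ‖c‖ ≤ ‖x‖ := by rw [hcn]; nlinarith
          have hb : 0 < b := by linarith
          gcongr
        have c3 : 1 ≤ (√t)⁻¹ := (one_le_inv₀ hs).2 (Real.sqrt_le_one.2 ht.2)
        have c4 := le_mul_of_one_le_right (Real.sqrt_nonneg (‖x‖ / b)) c3
        unfold wt
        linarith [add_mul (√(a / ‖x‖)) (√(‖x‖ / b)) (√t)⁻¹]
      have b5 : t ^ (-(1 / 2) : ℝ) = (√t)⁻¹ := by
        rw [Real.rpow_neg ht0.le, Real.sqrt_eq_rpow]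
      have hwc := wt_nonneg a b c
      have b6 : η * wt a b c * ‖w + t • (v - w)‖ * ‖x - rp ρ x‖
          ≤ η * (wt a b x * (√t)⁻¹) * (2 * (‖c‖ / ‖x‖) * ‖v‖) * ‖x‖ := by gcongr
      refine le_of_mul_le_mul_right (b1.trans ?_) hc0
      rw [b5]
      refine (mul_le_mul_of_nonneg_left b6 zero_le_two).trans (le_of_eq ?_)
      field_simp; ring)
    ((intervalIntegral.intervalIntegrable_rpow' (by norm_num)).const_mul _)
  rw [intervalIntegral.integral_const_mul, integral_rpow (Or.inl (by norm_num))] at t2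
  have e : ((1 : ℝ) ^ (-(1 / 2) + 1 : ℝ) - (0 : ℝ) ^ (-(1 / 2) + 1 : ℝ)) / (-(1 / 2) + 1) = 2 := by
    norm_num
  rw [e] at t2
  refine (norm_add_le _ _).trans ?_
  linarith

end CE

theorem rp_iso (γ : E4 ≃ₗᵢ[ℝ] E4) (ρ : ℝ) (x : E4) : rp ρ (γ x) = γ (rp ρ x) := by
  rw [rp, rp, γ.norm_map, map_smul]

theorem frc : FRC := by
  intro η hη
  refine ⟨min 1 (η / 44), lt_min one_pos (by positivity), fun G Γ a b θ hab h => ?_⟩
  set η0 := min 1 (η / 44) with hη0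
  have h0 : 0 ≤ η0 := (lt_min one_pos (by positivity)).le
  have h1 : η0 ≤ 1 := min_le_left _ _
  have h2 : η0 ≤ η / 44 := min_le_right _ _
  have h3 : η0 ≤ η := by linarith
  have ha := h.a_pos
  have hb : 0 < b := by linarith
  have hsub : shell (2 * a) b ⊆ shell a b := fun x hx => ⟨by linarith [hx.1], hx.2⟩
  have hwt : ∀ x, η0 * wt a b x ≤ η * wt (2 * a) b x := fun x =>
    mul_le_mul h3 (wt_mono x (by linarith) hb le_rfl) (wt_nonneg _ _ _) hη.le
  have dθ : ∀ y ∈ shell a b, DifferentiableAt ℝ θ y := fun y hy =>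
    (h.sm.contDiffAt ((isOpen_shell' a b).mem_nhds hy)).differentiableAt (by simp)
  set ρ := 3 / 2 * a with hρ
  have hρ0 : 0 < ρ := by positivity
  have hseg : ∀ x ∈ shell (2 * a) b, ∀ t ∈ Icc (0 : ℝ) 1,
      rp ρ x + t • (x - rp ρ x) ∈ shell a b ∧ ρ ≤ ‖rp ρ x + t • (x - rp ρ x)‖ := by
    intro x hx t ht
    have e := norm_seg_rp hρ0.le (norm_pos_iff.1 (ha.trans (hsub hx).1)) ht
    have b1 := hx.1
    have b2 := hx.2
    have b3 : ρ ≤ (1 - t) * ρ + t * ‖x‖ := by nlinarith [ht.1]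
    have b4 : (1 - t) * ρ + t * ‖x‖ ≤ ‖x‖ := by nlinarith [ht.2]
    exact ⟨⟨by rw [e]; linarith, by rw [e]; linarith⟩, by rw [e]; exact b3⟩
  refine ⟨prim θ (rp ρ), ⟨h.fin, by positivity, ⟨isOpen_shell' _ _,
      fun i j => (h.riem.contDiffOn i j).mono hsub, fun x hx => h.riem.posDef x (hsub hx)⟩,
      fun γ hγ x hx => h.inv γ hγ x (hsub hx),
      fun x hx u v => (h.near x (hsub hx) u v).trans (by gcongr),
      fun x hx => (h.gam x (hsub hx)).trans h3⟩,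
    fun x hx => dθ x (hsub hx),
    fun x hx => (h.der hab h0 h1 (hsub hx) (by linarith [hx.1])).1,
    fun γ hγ x hx => h.eθ γ hγ x (hsub hx), fun γ hγ x hx => ?_,
    fun x hx u v => (h.par x (hsub hx) u v).trans (by have := hwt x; gcongr),
    fun x hx u v => (h.iso x (hsub hx) u v).trans (by have := hwt x; gcongr),
    fun x hx => (h.der hab h0 h1 (hsub hx) (by linarith [hx.1])).2.trans ?_, fun x hx => ?_⟩
  · have hp : rp ρ x ∈ shell a b := by simpa using (hseg x hx 0 ⟨le_rfl, zero_le_one⟩).1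
    have e1 := (γ.toContinuousLinearEquiv : E4 →L[ℝ] E4).intervalIntegral_comp_comm
      (f := fun t : ℝ => θ (rp ρ x + t • (x - rp ρ x)) (x - rp ρ x)) (μ := volume) (a := 0) (b := 1)
      (ContinuousOn.intervalIntegrable_of_Icc zero_le_one
        ((h.sm.continuousOn.comp (f := fun t : ℝ => rp ρ x + t • (x - rp ρ x)) (by fun_prop)
          fun t ht => (hseg x hx t ht).1).clm_apply continuousOn_const))
    unfold prim
    rw [map_add, rp_iso, h.eθ γ hγ _ hp]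
    congr 1
    refine Eq.trans (intervalIntegral.integral_congr fun t ht => ?_) e1
    rw [uIcc_of_le zero_le_one] at ht
    have e2 := h.eθ γ hγ _ (hseg x hx t ht).1 (x - rp ρ x)
    rw [map_add, map_smul, map_sub] at e2
    exact e2
  · have b1 := wt_mono x (show a ≤ 2 * a by linarith) hb le_rfl
    have b2 := wt_nonneg a b x
    calc 20 * η0 * wt a b x ≤ η * wt a b x := by gcongr; linarith
      _ ≤ _ := by gcongr
  · have hx0 : x ≠ 0 := norm_pos_iff.1 (ha.trans (hsub hx).1)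
    have b1 := seg_mvt (f := fun y => prim θ (rp ρ) y - θ y y) (p := rp ρ x) (x := x)
      (K := 44 * η0) fun t ht => by
        obtain ⟨c1, c2⟩ := hseg x hx t ht
        set y := rp ρ x + t • (x - rp ρ x) with hy
        obtain ⟨c3, c4⟩ := h.der hab h0 h1 c1 c2
        have c5 := c3.hasFDerivAt.sub ((dθ y c1).hasFDerivAt.clm_apply (hasFDerivAt_id y))
        refine ⟨c5.differentiableAt, ?_⟩
        have c6 : HasFDerivAt (fun y => prim θ (rp ρ) y - θ y y) _ y := c5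
        rw [c6.fderiv]
        refine ContinuousLinearMap.opNorm_le_bound _ (by positivity) fun v => ?_
        have c7 := (fderiv ℝ (prim θ (rp ρ)) y - θ y).le_opNorm v
        have c8 : ‖fderiv ℝ θ y v y‖ ≤ 4 * η0 * ‖v‖ :=
          le_of_mul_le_mul_right (h.dle h0 h1 c1 v y) (ha.trans c1.1)
        have c9 : ‖fderiv ℝ (prim θ (rp ρ)) y - θ y‖ * ‖v‖ ≤ 20 * η0 * 2 * ‖v‖ := by
          gcongr
          exact c4.trans (by gcongr; exact wt_le_two ha c1)
        have e : (fderiv ℝ (prim θ (rp ρ)) y - ((θ y).comp (ContinuousLinearMap.id ℝ E4)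
            + (fderiv ℝ θ y).flip y)) v
            = (fderiv ℝ (prim θ (rp ρ)) y - θ y) v - fderiv ℝ θ y v y := by
          simp only [sub_apply, add_apply,
            ContinuousLinearMap.comp_apply, ContinuousLinearMap.id_apply,
            ContinuousLinearMap.flip_apply]
          abel
        refine le_trans (le_of_eq (congrArg norm e)) ((norm_sub_le _ _).trans ?_)
        linarith
    have b2 : rp ρ (rp ρ x) = rp ρ x := by
      have e : ‖rp ρ x‖ = ρ := norm_rp hρ0.le hx0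
      show (ρ * ‖rp ρ x‖⁻¹) • rp ρ x = _
      rw [e, mul_inv_cancel₀ hρ0.ne', one_smul]
    have b3 : prim θ (rp ρ) (rp ρ x) - θ (rp ρ x) (rp ρ x) = 0 := by
      unfold prim
      rw [b2]
      simp
    simp only [b3, sub_zero] at b1
    rw [norm_sub_rp hx0 (by linarith [hx.1])] at b1
    have b4 : 44 * η0 * (‖x‖ - ρ) ≤ η * ‖x‖ :=
      mul_le_mul (by linarith) (by linarith) (by linarith [hx.1]) hη.le
    linarith

end Crest.Agent.N207.H

end
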