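import Crest.Agent.N207.H.St
import Crest.Agent.N207.I.Met
import Crest.Agent.N207.G.Jb

/-!
# Row 207, block H (helper21): `JETS`
-/

set_option autoImplicit false

open scoped ContDiff Topology
open Set Filter Metric
open Crest.GeometryTopology.CoordMetric
open Crest.Agent.R202.Tens Crest.Agent.N207.Sk Crest.Agent.N207.Jt

noncomputable section

namespace Crest.Agent.N207.H

/-- normalised data -/
structure JD where
  w : ℝ
  q : E4
  L : E4 →L[ℝ] E4
  R : E4 → E4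
  T : E4 → E4
  G' : MetricField 4
  G'' : MetricField 4

/-- the hypotheses on normalised data -/
structure JD.Ok (C : ℕ → ℝ) (d : JD) : Prop where
  pos : 0 < d.w
  le : d.w * (|C 0| + |C 1| + 1) ≤ 1 / 4
  smR : ContDiffAt ℝ ∞ d.R 0
  jR : ∀ k, ‖iteratedFDeriv ℝ k d.R 0‖ ≤ C k * d.w
  orth : ∀ u v, |inner ℝ (d.L u) (d.L v) - inner ℝ u v| ≤ C 0 * d.w * ‖u‖ * ‖v‖
  smG : ∀ a b, ContDiffAt ℝ ∞ (dv d.G' a b) 0
  jG : ∀ k a b, ‖iteratedFDeriv ℝ k (dv d.G' a b) 0‖ ≤ C k * d.w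
  smT : ContDiffAt ℝ ∞ d.T 0
  T0 : d.T 0 = 0
  inv : ∀ᶠ y in 𝓝 (0 : E4), d.q + d.L (d.T y) + d.R (d.T y) = y
  met : ∀ᶠ y in 𝓝 (0 : E4), ∀ u v,
    bil (d.G'' y) u v = bil (d.G' (d.T y)) (fderiv ℝ d.T y u) (fderiv ℝ d.T y v)

theorem gb_div {ι Y : Type} [NormedAddCommGroup Y] [NormedSpace ℝ Y] {f : ι → E4 → Y} {w : ι → ℝ}
    {C : ℕ → ℝ} (hw : ∀ j, 0 < w j) (hs : ∀ j, ContDiffAt ℝ ∞ (f j) 0)
    (h : ∀ j k, ‖iteratedFDeriv ℝ k (f j) 0‖ ≤ C k * w j) :
    GB ⊤ (fun j x => (w j)⁻¹ • f j x) fun _ => 0 := by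
  refine ⟨Eventually.of_forall fun j => (hs j).const_smul _, fun k => ⟨C k,
    Eventually.of_forall fun j => ?_⟩⟩
  rw [iteratedFDeriv_const_smul_apply' ((hs j).of_le (kle k)), norm_smul, norm_inv,
    Real.norm_of_nonneg (hw j).le, inv_mul_le_iff₀ (hw j), mul_comm]
  exact h j k

variable {C : ℕ → ℝ} {d : JD}

theorem JD.Ok.sq (h : d.Ok C) (u : E4) : |‖d.L u‖ ^ 2 - ‖u‖ ^ 2| ≤ 1 / 4 * ‖u‖ ^ 2 := by
  have h1 := h.orth u u
  rw [real_inner_self_eq_norm_sq, real_inner_self_eq_norm_sq, mul_assoc, ← pow_two] at h1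
  refine h1.trans (mul_le_mul_of_nonneg_right ?_ (sq_nonneg _))
  nlinarith [h.le, h.pos, le_abs_self (C 0), abs_nonneg (C 1)]

theorem JD.Ok.nL (h : d.Ok C) : ‖d.L‖ ≤ 2 := by
  refine d.L.opNorm_le_bound (by norm_num) fun u => ?_
  refine abs_le_of_sq_le_sq' ?_ (by positivity) |>.2
  nlinarith [(abs_le.1 (h.sq u)).2, sq_nonneg ‖u‖]

theorem JD.Ok.low (h : d.Ok C) (u : E4) : 1 / 2 * ‖u‖ ≤ ‖(d.L + fderiv ℝ d.R 0) u‖ := by
  have h1 : 3 / 4 * ‖u‖ ≤ ‖d.L u‖ := by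
    refine abs_le_of_sq_le_sq' ?_ (by positivity) |>.2
    nlinarith [(abs_le.1 (h.sq u)).1, sq_nonneg ‖u‖]
  have h2 : ‖fderiv ℝ d.R 0‖ ≤ 1 / 4 := by
    have := h.jR 1
    rw [norm_iteratedFDeriv_one] at this
    nlinarith [h.le, h.pos, le_abs_self (C 1), abs_nonneg (C 0)]
  have h3 := (fderiv ℝ d.R 0).le_of_opNorm_le h2 u
  have h4 := norm_sub_le ((d.L + fderiv ℝ d.R 0) u) (fderiv ℝ d.R 0 u)
  rw [add_apply, add_sub_cancel_right] at h4
  rw [add_apply]
  linarith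

theorem JD.Ok.evR (h : d.Ok C) : ∀ᶠ x in 𝓝 (0 : E4), DifferentiableAt ℝ d.R x :=
  ((h.smR.of_le (kle 1)).eventually (by simp)).mono fun _ hx => hx.differentiableAt (by simp)

theorem JD.Ok.rinv (h : d.Ok C) : ∀ᶠ y in 𝓝 (0 : E4),
    (d.L + fderiv ℝ d.R (d.T y)).comp (fderiv ℝ d.T y) = ContinuousLinearMap.id ℝ E4 := by
  have h1 : Tendsto d.T (𝓝 0) (𝓝 0) := by simpa [ContinuousAt, h.T0] using h.smT.continuousAt
  filter_upwards [h.inv.eventually_nhds, h1.eventually h.evR,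
    (h.smT.of_le (kle 1)).eventually (by simp)] with y a b c
  have c' := (c.differentiableAt (by simp)).hasFDerivAt
  have e1 := ((d.L.hasFDerivAt.comp y c').const_add d.q).add (b.hasFDerivAt.comp y c')
  rw [ContinuousLinearMap.add_comp]
  exact e1.unique ((hasFDerivAt_id y).congr_of_eventuallyEq a)

theorem inverse_of_rinv {A B : E4 →L[ℝ] E4} (h : A.comp B = ContinuousLinearMap.id ℝ E4) :
    A.inverse = B := by
  refine ContinuousLinearMap.inverse_eq h ?_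
  have h1 : (A : E4 →ₗ[ℝ] E4) ∘ₗ (B : E4 →ₗ[ℝ] E4) = LinearMap.id :=
    congrArg (fun X : E4 →L[ℝ] E4 => (X : E4 →ₗ[ℝ] E4)) h
  exact ContinuousLinearMap.coe_injective ((LinearMap.comp_eq_id_comm ..).1 h1)

theorem gb_inner {ι : Type} {l : Filter ι} {f g : ι → E4 → E4} {x : ι → E4} (hf : GB l f x)
    (hg : GB l g x) : GB l (fun j z => inner ℝ (f j z) (g j z)) x :=
  (hf.clm (innerSL ℝ)).app hg

theorem jets_core (C : ℕ → ℝ) : ∃ C' : ℕ → ℝ, ∀ d : JD, d.Ok C → ∀ k a b,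
    ‖iteratedFDeriv ℝ k (dv d.G'' a b) 0‖ ≤ C' k * d.w := by
  let ι := {d : JD // d.Ok C}
  let e : Fin 4 → E4 := fun a => EuclideanSpace.single a 1
  have b0 : ∀ {Y : Type} [NormedAddCommGroup Y], ∃ c : ℝ, ∀ᶠ _j : ι in ⊤, ‖(0 : Y)‖ ≤ c :=
    ⟨0, Eventually.of_forall fun _ => norm_zero.le⟩
  have hρ := gb_div (f := fun j : ι => j.1.R) (fun j => j.2.pos) (fun j => j.2.smR) fun j => j.2.jR
  have hγ := fun a b => gb_div (f := fun j : ι => dv j.1.G' a b) (fun j => j.2.pos)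
    (fun j => j.2.smG a b) fun j k => j.2.jG k a b
  have hw : GB ⊤ (fun (j : ι) (_ : E4) => j.1.w) fun _ => 0 :=
    GB.const ⟨1, Eventually.of_forall fun j => by
      rw [Real.norm_of_nonneg j.2.pos.le]
      nlinarith [j.2.le, j.2.pos, abs_nonneg (C 0), abs_nonneg (C 1)]⟩
  have hL : GB ⊤ (fun (j : ι) (_ : E4) => j.1.L) fun _ => 0 :=
    GB.const ⟨2, Eventually.of_forall fun j => j.2.nL⟩
  have hD : ∀ j : ι, ∀ᶠ x in 𝓝 (0 : E4),
      fderiv ℝ j.1.R x = j.1.w • fderiv ℝ (fun x => j.1.w⁻¹ • j.1.R x) x := fun j =>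
    j.2.evR.mono fun x hx => by rw [fderiv_fun_const_smul hx, smul_inv_smul₀ j.2.pos.ne']
  have hA : GB ⊤ (fun (j : ι) x => j.1.L + fderiv ℝ j.1.R x) fun _ => 0 :=
    (hL.add (hw.smul hρ.fderiv)).congr (Eventually.of_forall fun j =>
      ⟨rfl, (hD j).mono fun x hx => by simp only [hx]⟩)
  have hI := hA.inverse (c := 1 / 2) (by norm_num) (Eventually.of_forall fun j => j.2.low)
  have hT : GB ⊤ (fun j : ι => j.1.T) fun _ => 0 := by
    refine GB.boot (Ψ := fun j p => (j.1.L + fderiv ℝ j.1.R p.2).inverse) b0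
      ⟨0, Eventually.of_forall fun j => by simp [j.2.T0]⟩ (Eventually.of_forall fun j => j.2.smT) ?_
      (Eventually.of_forall fun j => j.2.rinv.mono fun y hy => (inverse_of_rinv hy).symm)
    have h2 : GB ⊤ (fun (_ : ι) (p : E4 × E4) => p.2) fun _ => 0 :=
      (GB.id b0).clm (ContinuousLinearMap.snd ℝ E4 E4)
    exact (GB.comp (g := fun (j : ι) x => (j.1.L + fderiv ℝ j.1.R x).inverse)
      (f := fun (_ : ι) (p : E4 × E4) => p.2) (x := fun _ => 0) hI h2).congr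
      (Eventually.of_forall fun j => ⟨by rw [j.2.T0]; rfl, EventuallyEq.rfl⟩)
  have hB : ∀ c c', GB ⊤ (fun (j : ι) x => j.1.w⁻¹ * (j.1.G' x c c' -
      inner ℝ ((j.1.L + fderiv ℝ j.1.R x) (e c)) ((j.1.L + fderiv ℝ j.1.R x) (e c')))) fun _ => 0 := by
    intro c c'
    have h1 : GB ⊤ (fun (j : ι) (_ : E4) => j.1.w⁻¹ * (inner ℝ (j.1.L (e c)) (j.1.L (e c')) -
        inner ℝ (e c) (e c'))) fun _ => 0 := GB.const ⟨C 0, Eventually.of_forall fun j => by
      have := j.2.orth (e c) (e c')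
      rw [norm_mul, norm_inv, Real.norm_of_nonneg j.2.pos.le, inv_mul_le_iff₀ j.2.pos, mul_comm]
      simpa [e] using this⟩
    have h2 := fun c => hρ.fderiv.app (GB.const' (e c))
    have h3 := fun c => hL.app (GB.const' (e c))
    refine (((((hγ c c').sub h1).sub (gb_inner (h3 c) (h2 c'))).sub (gb_inner (h2 c) (h3 c'))).sub
      (hw.mul (gb_inner (h2 c) (h2 c')))).congr (Eventually.of_forall fun j =>
        ⟨rfl, (hD j).mono fun x hx => ?_⟩)
    have hw0 := j.2.pos.ne'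
    have e1 : inner ℝ (e c) (e c') = (1 : Matrix (Fin 4) (Fin 4) ℝ) c c' := by
      simp [e, EuclideanSpace.inner_single_left, Matrix.one_apply]
    simp only [hx, add_apply, smul_apply, inner_add_left,
      inner_add_right, real_inner_smul_left, real_inner_smul_right, dv, e1, smul_eq_mul]
    field_simp
    ring
  have hH : ∀ a b, GB ⊤ (fun (j : ι) y => j.1.w⁻¹ • dv j.1.G'' a b y) fun _ => 0 := by
    intro a b
    have h1 := fun a c => (hT.fderiv.app (GB.const' (e a))).clm (EuclideanSpace.proj c : E4 →L[ℝ] ℝ)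
    refine (GB.sum Finset.univ fun c _ => GB.sum Finset.univ fun c' _ =>
      ((GB.comp ((hB c c').congr (Eventually.of_forall fun j => ⟨j.2.T0, EventuallyEq.rfl⟩))
        hT).mul (h1 a c)).mul (h1 b c')).congr (Eventually.of_forall fun j => ⟨rfl, ?_⟩)
    filter_upwards [j.2.met, j.2.rinv] with y m r
    have e1 : j.1.G'' y a b = bil (j.1.G'' y) (e a) (e b) := by
      simp [bil_apply, e]
    have e2 : (1 : Matrix (Fin 4) (Fin 4) ℝ) a b = inner ℝ (e a) (e b) := by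
      simp [e, EuclideanSpace.inner_single_left, Matrix.one_apply]
    have e3 : ∀ a, e a = ∑ c, fderiv ℝ j.1.T y (e a) c •
        (j.1.L + fderiv ℝ j.1.R (j.1.T y)) (e c) := fun a => by
      have := congrArg (fun X : E4 →L[ℝ] E4 => X (e a)) r
      simp only [ContinuousLinearMap.comp_apply, ContinuousLinearMap.id_apply] at this
      conv_lhs => rw [← this, eq_sum_single (fderiv ℝ j.1.T y (e a))]
      simp only [map_sum, map_smul, e]
    rw [dv, e1, m, e2, bil_apply]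
    conv_lhs => rw [congrArg₂ (inner ℝ) (e3 a) (e3 b)]
    simp only [sum_inner, inner_sum, real_inner_smul_left, real_inner_smul_right]
    simp only [smul_eq_mul, PiLp.proj_apply, Fin.sum_univ_four]
    ring
  choose c hc using fun k a b => (hH a b).bd k
  refine ⟨fun k => ∑ a, ∑ b, |c k a b|, fun d hd k a b => ?_⟩
  have h1 := eventually_top.1 (hc k a b) ⟨d, hd⟩
  have h2 := eventually_top.1 (hH a b).sm ⟨d, hd⟩
  have e1 : dv d.G'' a b = fun y => d.w • d.w⁻¹ • dv d.G'' a b y :=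
    funext fun y => (smul_inv_smul₀ hd.pos.ne' _).symm
  rw [e1, iteratedFDeriv_const_smul_apply' (h2.of_le (kle k)), norm_smul,
    Real.norm_of_nonneg hd.pos.le, mul_comm]
  refine mul_le_mul_of_nonneg_right (h1.trans ((le_abs_self _).trans ?_)) hd.pos.le
  exact (Finset.single_le_sum (f := fun b => |c k a b|) (fun _ _ => abs_nonneg _)
    (Finset.mem_univ b)).trans (Finset.single_le_sum (f := fun a => ∑ b, |c k a b|)
      (fun _ _ => by positivity) (Finset.mem_univ a))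

theorem norm_aff {Y : Type} [NormedAddCommGroup Y] [NormedSpace ℝ Y] (f : E4 → Y) (x : E4) {s : ℝ}
    (hs : 0 < s) (k : ℕ) :
    ‖iteratedFDeriv ℝ k (fun y => f (x + s • y)) 0‖ = ‖iteratedFDeriv ℝ k f x‖ * s ^ k := by
  refine le_antisymm ?_ ?_
  · have := G.norm_comp_smul (fun y => f (x + y)) hs 0 k
    rwa [iteratedFDeriv_comp_add_left, smul_zero, add_zero] at this
  · have := G.norm_comp_smul (fun y => f (x + s • y)) (inv_pos.2 hs) 0 k
    simp only [smul_inv_smul₀ hs.ne', smul_zero] at this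
    rw [iteratedFDeriv_comp_add_left, add_zero, inv_pow, ← div_eq_mul_inv,
      le_div_iff₀ (by positivity)] at this
    exact this

/-- **JETS** -/
theorem jets : JETS := by
  intro C
  obtain ⟨C', hC'⟩ := jets_core C
  refine ⟨1 / (4 * (|C 0| + |C 1| + 1)), C', by positivity, ?_⟩
  intro G G' G'' Yt Z φ L p q w hp hw hw0 hA hY hZ hZp hYZ hm
  obtain ⟨V, W, h0, hP⟩ := hA.pull
  have hs : 0 < ‖p‖ := norm_pos_iff.2 hp
  set s := ‖p‖ with hsd
  have hφ := hP.contDiffAt h0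
  let f' : E4 ≃L[ℝ] E4 := (LinearEquiv.ofInjectiveEndo (fderiv ℝ φ 0 : E4 →ₗ[ℝ] E4)
    (hP.inj 0 h0)).toContinuousLinearEquiv
  have hf' : HasFDerivAt φ (f' : E4 →L[ℝ] E4) 0 := (hφ.differentiableAt (by simp)).hasFDerivAt
  set ψ := hφ.localInverse hf' (by simp) with hψd
  have hψ : ContDiffAt ℝ ∞ ψ (Z (Yt p)) := by
    rw [hZp, ← hA.ctr]; exact hφ.to_localInverse hf' (by simp)
  have hψ0 : ψ (Z (Yt p)) = 0 := by
    rw [hZp, ← hA.ctr]; exact hφ.localInverse_apply_image hf' (by simp)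
  have hψr : ∀ᶠ y in 𝓝 (Z (Yt p)), φ (ψ y) = y := by
    rw [hZp, ← hA.ctr]
    exact (hφ.hasStrictFDerivAt' hf' (by simp)).eventually_right_inverse
  set T0 : E4 → E4 := fun y => ψ (Z y) with hT0d
  have hT0 : ContDiffAt ℝ ∞ T0 (Yt p) := hψ.comp _ hZ
  have e1 : ∀ᶠ y in 𝓝 (Yt p), φ (T0 y) = Z y := hZ.continuousAt.eventually hψr
  have e2 : ∀ᶠ y in 𝓝 (Yt p), T0 y ∈ V :=
    hT0.continuousAt.eventually (by rw [show T0 (Yt p) = 0 from hψ0]; exact hP.isOpen.mem_nhds h0)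
  have e3 : ∀ᶠ y in 𝓝 (Yt p), DifferentiableAt ℝ T0 y :=
    ((hT0.of_le (kle 1)).eventually (by simp)).mono fun _ hx => hx.differentiableAt (by simp)
  have e4 : ∀ᶠ y in 𝓝 (Yt p), ∀ u v,
      bil (G'' y) u v = bil (G' (T0 y)) (fderiv ℝ T0 y u) (fderiv ℝ T0 y v) := by
    filter_upwards [e1.eventually_nhds, e2, e3, hm] with y a b c d u v
    have a' : (φ ∘ T0) =ᶠ[𝓝 y] Z := a
    rw [d, hP.bil_eq b, a.self_of_nhds, ← a'.fderiv_eq,
      fderiv_comp y ((hP.contDiffAt b).differentiableAt (by simp)) c]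
    rfl
  have hc : ContDiff ℝ ∞ fun y : E4 => Yt p + s • y := by fun_prop
  have ht : Tendsto (fun y : E4 => Yt p + s • y) (𝓝 0) (𝓝 (Yt p)) := by
    simpa [ContinuousAt] using hc.continuous.continuousAt (x := 0)
  have hR : ContDiffAt ℝ ∞ (fun y => Yt (φ y) - (q + L y)) 0 :=
    (ContDiffAt.comp 0 (by rw [hA.ctr]; exact hY) hφ).sub (by fun_prop)
  have hz : ∀ {Y : Type} [NormedAddCommGroup Y] [NormedSpace ℝ Y] {f : E4 → Y} {x : E4},
      ContDiffAt ℝ ∞ f x → ContDiffAt ℝ ∞ (fun y => f (x + s • y)) 0 := fun {_ _ _ f x} h =>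
    ContDiffAt.comp (g := f) 0 (by simpa using h) (by fun_prop)
  have key := hC' ⟨w, s⁻¹ • (q - Yt p), L, fun y => s⁻¹ • (Yt (φ (0 + s • y)) - (q + L (0 + s • y))),
    fun y => s⁻¹ • T0 (Yt p + s • y), fun y => G' (0 + s • y), fun y => G'' (Yt p + s • y)⟩
    ⟨hw, by rw [le_div_iff₀ (by positivity)] at hw0; linarith, (hz hR).const_smul _, fun k => ?_,
      hA.orth, fun a b => hz (f := dv G' a b) ?_, fun k a b => ?_, (hz hT0).const_smul _, ?_, ?_, ?_⟩
  · intro k a b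
    exact (norm_aff (dv G'' a b) (Yt p) hs k).symm.le.trans (key k a b)
  · rw [iteratedFDeriv_const_smul_apply' ((hz hR).of_le (kle k)), norm_smul, norm_inv,
      Real.norm_of_nonneg hs.le, inv_mul_le_iff₀ hs, mul_comm]
    exact (norm_aff (fun y => Yt (φ y) - (q + L y)) 0 hs k).le.trans (hA.aff k)
  · exact ((hP.riem'.contDiffOn a b).contDiffAt (hP.isOpen.mem_nhds h0)).sub contDiffAt_const
  · exact (norm_aff (dv G' a b) 0 hs k).le.trans (hA.jet k a b)
  · simp [hT0d, hψ0]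
  · filter_upwards [ht.eventually e1, ht.eventually hYZ] with y a b
    simp only [zero_add, smul_inv_smul₀ hs.ne', a, b, map_smul, ← smul_add]
    rw [show ∀ z : E4, q - Yt p + z + (Yt p + s • y - (q + z)) = s • y from fun z => by abel,
      inv_smul_smul₀ hs.ne']
  · filter_upwards [ht.eventually e4, ht.eventually e3] with y a b u v
    have : fderiv ℝ (fun y => s⁻¹ • T0 (Yt p + s • y)) y = fderiv ℝ T0 (Yt p + s • y) := by
      have h1 : HasFDerivAt (fun y : E4 => Yt p + s • y) (s • ContinuousLinearMap.id ℝ E4) y :=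
        ((hasFDerivAt_id y).const_smul s).const_add _
      refine ((b.hasFDerivAt.comp y h1).const_smul s⁻¹).fderiv.trans ?_
      ext1 u
      simp [inv_smul_smul₀ hs.ne']
    simp only [this, zero_add, smul_inv_smul₀ hs.ne', a]

end Crest.Agent.N207.H

end
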