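import Mathlib

/-!
# Refined Kato inequality in dimension four (pure algebra)

`R i j k` is a family (index `k : κ`) of 2-forms, `T m i j k` its covariant derivative in an
orthonormal frame: antisymmetric in `i j`, cyclic sum zero (second Bianchi identity),
`D j k = ∑ m, T m m j k` the divergence. Then
`∑ m ⟨R, T m⟩² ≤ |R|² (3/4 |T|² + 4 |D|²)`.
-/

set_option autoImplicit false

open Finset

namespace Crest.Agent.N207.H

/-- The trace free, `d`-free part of `v ⊗ F`. -/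
noncomputable def katoS (v : Fin 4 → ℝ) (F : Fin 4 → Fin 4 → ℝ) (m i j : Fin 4) : ℝ :=
  v m * F i j - (v m * F i j + v i * F j m + v j * F m i) / 3
    - ((if m = i then ∑ a, v a * F a j else 0) - (if m = j then ∑ a, v a * F a i else 0)) / 3

theorem katoS_norm (v : Fin 4 → ℝ) (F : Fin 4 → Fin 4 → ℝ) (hF : ∀ i j, F i j = -F j i) :
    ∑ m, ∑ i, ∑ j, katoS v F m i j ^ 2 = 2 / 3 * (∑ m, v m ^ 2) * ∑ i, ∑ j, F i j ^ 2 := by
  have h0 : ∀ i, F i i = 0 := fun i => by have := hF i i; linarith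
  have h10 := hF 1 0; have h20 := hF 2 0; have h30 := hF 3 0
  have h21 := hF 2 1; have h31 := hF 3 1; have h32 := hF 3 2
  simp only [katoS, Fin.sum_univ_four, h0, h10, h20, h30, h21, h31, h32]
  simp
  ring

theorem katoS_pair (v : Fin 4 → ℝ) (F : Fin 4 → Fin 4 → ℝ) (T : Fin 4 → Fin 4 → Fin 4 → ℝ)
    (hT : ∀ m i j, T m i j = -T m j i) (hc : ∀ m i j, T m i j + T i j m + T j m i = 0) :
    ∑ m, v m * ∑ i, ∑ j, F i j * T m i j =
      ∑ m, ∑ i, ∑ j, katoS v F m i j * T m i j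
        + 2 / 3 * ∑ j, (∑ a, v a * F a j) * ∑ m, T m m j := by
  have e1 : ∑ m, ∑ i, ∑ j, v i * F j m * T m i j = ∑ m, ∑ i, ∑ j, v m * F i j * T j m i := by
    rw [sum_comm]
    refine sum_congr rfl fun i _ => ?_
    rw [sum_comm]
  have e2 : ∑ m, ∑ i, ∑ j, v j * F m i * T m i j = ∑ m, ∑ i, ∑ j, v m * F i j * T i j m := by
    rw [sum_comm]
    have : ∀ i, ∑ m, ∑ j, v j * F m i * T m i j = ∑ j, ∑ m, v j * F m i * T m i j :=
      fun i => sum_comm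
    simp only [this]
    rw [sum_comm]
    refine sum_congr rfl fun j _ => ?_
    rw [sum_comm]
  have e3 : ∑ m, ∑ i, ∑ j, (v m * F i j + v i * F j m + v j * F m i) * T m i j = 0 := by
    simp only [add_mul, sum_add_distrib, e1, e2]
    simp only [← sum_add_distrib]
    refine sum_eq_zero fun m _ => sum_eq_zero fun i _ => sum_eq_zero fun j _ => ?_
    have := hc m i j
    have h2 : T j m i = -(T m i j + T i j m) := by linarith
    rw [h2]; ring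
  have e4 : ∑ m, ∑ i, ∑ j, (if m = i then ∑ a, v a * F a j else 0) * T m i j =
      ∑ j, (∑ a, v a * F a j) * ∑ m, T m m j := by
    simp only [ite_mul, zero_mul]
    have : ∀ m, ∑ i, ∑ j, (if m = i then (∑ a, v a * F a j) * T m i j else 0) =
        ∑ j, (∑ a, v a * F a j) * T m m j := by
      intro m
      rw [sum_comm]
      simp
    simp only [this]
    rw [sum_comm]
    simp only [mul_sum]
  have e5 : ∑ m, ∑ i, ∑ j, (if m = j then ∑ a, v a * F a i else 0) * T m i j =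
      -∑ j, (∑ a, v a * F a j) * ∑ m, T m m j := by
    simp only [ite_mul, zero_mul, sum_ite_eq, mem_univ, if_true]
    rw [sum_comm, ← sum_neg_distrib]
    refine sum_congr rfl fun i _ => ?_
    rw [mul_sum, ← sum_neg_distrib]
    refine sum_congr rfl fun m _ => ?_
    rw [hT m i m]; ring
  have e6 : ∑ m, ∑ i, ∑ j, katoS v F m i j * T m i j =
      ∑ m, ∑ i, ∑ j, v m * F i j * T m i j
        - (∑ m, ∑ i, ∑ j, (v m * F i j + v i * F j m + v j * F m i) * T m i j) / 3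
        - ((∑ m, ∑ i, ∑ j, (if m = i then ∑ a, v a * F a j else 0) * T m i j)
          - ∑ m, ∑ i, ∑ j, (if m = j then ∑ a, v a * F a i else 0) * T m i j) / 3 := by
    simp only [sum_div, ← sum_sub_distrib]
    refine sum_congr rfl fun m _ => sum_congr rfl fun i _ => sum_congr rfl fun j _ => ?_
    simp only [katoS]; ring
  have e7 : ∑ m, v m * ∑ i, ∑ j, F i j * T m i j = ∑ m, ∑ i, ∑ j, v m * F i j * T m i j := by
    simp only [mul_sum, mul_assoc]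
  rw [e6, e3, e4, e5, e7]
  ring

theorem kato_w_le (v : Fin 4 → ℝ) (F : Fin 4 → Fin 4 → ℝ) :
    ∑ j, (∑ a, v a * F a j) ^ 2 ≤ (∑ m, v m ^ 2) * ∑ i, ∑ j, F i j ^ 2 := by
  rw [sum_comm, mul_sum]
  exact sum_le_sum fun j _ => sum_mul_sq_le_sq_mul_sq _ _ _

/-- `x ≤ √a √b` form of Cauchy–Schwarz used below. -/
theorem le_sqrt_mul_of_sq {ι : Type*} (s : Finset ι) (f g : ι → ℝ) :
    ∑ i ∈ s, f i * g i ≤ √(∑ i ∈ s, f i ^ 2) * √(∑ i ∈ s, g i ^ 2) :=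
  Real.sum_mul_le_sqrt_mul_sqrt s f g

/-- **Refined Kato inequality** in dimension four. -/
theorem kato {κ : Type*} [Fintype κ] (R : Fin 4 → Fin 4 → κ → ℝ)
    (T : Fin 4 → Fin 4 → Fin 4 → κ → ℝ) (hR : ∀ i j k, R i j k = -R j i k)
    (hT : ∀ m i j k, T m i j k = -T m j i k)
    (hc : ∀ m i j k, T m i j k + T i j m k + T j m i k = 0) :
    ∑ m, (∑ i, ∑ j, ∑ k, R i j k * T m i j k) ^ 2 ≤
      (∑ i, ∑ j, ∑ k, R i j k ^ 2) *
        (3 / 4 * (∑ m, ∑ i, ∑ j, ∑ k, T m i j k ^ 2) + 4 * ∑ j, ∑ k, (∑ m, T m m j k) ^ 2) := by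
  obtain ⟨v, hv⟩ : ∃ v : Fin 4 → ℝ, ∀ m, v m = ∑ i, ∑ j, ∑ k, R i j k * T m i j k :=
    ⟨_, fun _ => rfl⟩
  simp only [← hv]
  obtain ⟨V, hV⟩ : ∃ V, V = ∑ m, v m ^ 2 := ⟨_, rfl⟩
  obtain ⟨P, hP⟩ : ∃ P, P = ∑ i, ∑ j, ∑ k, R i j k ^ 2 := ⟨_, rfl⟩
  obtain ⟨τ, hτ⟩ : ∃ τ, τ = ∑ m, ∑ i, ∑ j, ∑ k, T m i j k ^ 2 := ⟨_, rfl⟩
  obtain ⟨D, hD⟩ : ∃ D, D = ∑ j, ∑ k, (∑ m, T m m j k) ^ 2 := ⟨_, rfl⟩
  rw [← hV, ← hP, ← hτ, ← hD]
  have hV0 : 0 ≤ V := hV ▸ sum_nonneg fun _ _ => sq_nonneg _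
  have hP0 : 0 ≤ P := hP ▸ sum_nonneg fun _ _ => sum_nonneg fun _ _ =>
    sum_nonneg fun _ _ => sq_nonneg _
  have hτ0 : 0 ≤ τ := hτ ▸ sum_nonneg fun _ _ => sum_nonneg fun _ _ =>
    sum_nonneg fun _ _ => sum_nonneg fun _ _ => sq_nonneg _
  have hD0 : 0 ≤ D := hD ▸ sum_nonneg fun _ _ => sum_nonneg fun _ _ => sq_nonneg _
  have hPk : P = ∑ k, ∑ i, ∑ j, R i j k ^ 2 := by
    rw [hP, sum_comm (s := (univ : Finset κ))]
    exact sum_congr rfl fun i _ => sum_comm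
  have e0 : V = ∑ k, ∑ m, v m * ∑ i, ∑ j, R i j k * T m i j k := by
    rw [hV, sum_comm]
    refine sum_congr rfl fun m _ => ?_
    rw [← mul_sum, sq]
    congr 1
    rw [hv, sum_comm (s := (univ : Finset κ))]
    exact sum_congr rfl fun i _ => sum_comm
  have e1 : V = ∑ p : κ × Fin 4 × Fin 4 × Fin 4,
        katoS v (fun i j => R i j p.1) p.2.1 p.2.2.1 p.2.2.2 * T p.2.1 p.2.2.1 p.2.2.2 p.1
      + 2 / 3 * ∑ p : κ × Fin 4, (∑ a, v a * R a p.2 p.1) * ∑ m, T m m p.2 p.1 := by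
    rw [e0]
    simp only [Fintype.sum_prod_type, mul_sum (a := (2 / 3 : ℝ)), ← sum_add_distrib]
    refine sum_congr rfl fun k _ => ?_
    rw [katoS_pair v (fun i j => R i j k) (fun m i j => T m i j k) (fun m i j => hT m i j k)
      (fun m i j => hc m i j k), mul_sum]
    simp only [sum_add_distrib]
  have b1 : ∑ p : κ × Fin 4 × Fin 4 × Fin 4,
        katoS v (fun i j => R i j p.1) p.2.1 p.2.2.1 p.2.2.2 * T p.2.1 p.2.2.1 p.2.2.2 p.1 ≤
      √(2 / 3 * V * P) * √τ := by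
    refine (le_sqrt_mul_of_sq _ _ _).trans (le_of_eq ?_)
    congr 2
    · simp only [Fintype.sum_prod_type]
      rw [hPk, mul_sum, hV]
      exact sum_congr rfl fun k _ => katoS_norm v (fun i j => R i j k) fun i j => hR i j k
    · simp only [Fintype.sum_prod_type]
      rw [hτ, sum_comm]
      refine sum_congr rfl fun m _ => ?_
      rw [sum_comm]
      exact sum_congr rfl fun i _ => sum_comm
  have b2 : ∑ p : κ × Fin 4, (∑ a, v a * R a p.2 p.1) * ∑ m, T m m p.2 p.1 ≤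
      √(V * P) * √D := by
    refine (le_sqrt_mul_of_sq _ _ _).trans ?_
    have h1 : ∑ p : κ × Fin 4, (∑ a, v a * R a p.2 p.1) ^ 2 ≤ V * P := by
      simp only [Fintype.sum_prod_type]
      rw [hPk, mul_sum, hV]
      exact sum_le_sum fun k _ => kato_w_le v fun i j => R i j k
    have h2 : ∑ p : κ × Fin 4, (∑ m, T m m p.2 p.1) ^ 2 = D := by
      simp only [Fintype.sum_prod_type]
      rw [hD, sum_comm]
    rw [h2]
    gcongr
  -- `V ≤ √V √P (√(2/3 τ) + 2/3 √D)`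
  obtain ⟨a, ha⟩ : ∃ a, a = √V := ⟨_, rfl⟩
  obtain ⟨p, hp⟩ : ∃ p, p = √P := ⟨_, rfl⟩
  obtain ⟨t, ht⟩ : ∃ t, t = √τ := ⟨_, rfl⟩
  obtain ⟨d, hd⟩ : ∃ d, d = √D := ⟨_, rfl⟩
  obtain ⟨c, hc'⟩ : ∃ c, c = √(2 / 3 : ℝ) := ⟨_, rfl⟩
  have ha2 : a ^ 2 = V := ha ▸ Real.sq_sqrt hV0
  have hp2 : p ^ 2 = P := hp ▸ Real.sq_sqrt hP0
  have ht2 : t ^ 2 = τ := ht ▸ Real.sq_sqrt hτ0
  have hd2 : d ^ 2 = D := hd ▸ Real.sq_sqrt hD0
  have hc2 : c ^ 2 = 2 / 3 := hc' ▸ Real.sq_sqrt (by norm_num)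
  have ha0 : 0 ≤ a := ha ▸ Real.sqrt_nonneg _
  have hp0 : 0 ≤ p := hp ▸ Real.sqrt_nonneg _
  have ht0 : 0 ≤ t := ht ▸ Real.sqrt_nonneg _
  have hd0 : 0 ≤ d := hd ▸ Real.sqrt_nonneg _
  have hc0 : 0 ≤ c := hc' ▸ Real.sqrt_nonneg _
  have s1 : √(2 / 3 * V * P) = c * a * p := by
    rw [Real.sqrt_mul (by positivity), Real.sqrt_mul (by norm_num), ha, hp, hc']
  have s2 : √(V * P) = a * p := by rw [ha, hp]; exact Real.sqrt_mul hV0 _
  rw [s1, ← ht] at b1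
  rw [s2, ← hd] at b2
  have key : a * a ≤ a * (p * (c * t + 2 / 3 * d)) := by
    have : a * a = V := by rw [← ha2]; ring
    rw [this, e1]; nlinarith
  have key2 : a ≤ p * (c * t + 2 / 3 * d) := by
    rcases ha0.eq_or_lt with h | h
    · rw [← h]; positivity
    · exact le_of_mul_le_mul_left key h
  have key3 : a ^ 2 ≤ (p * (c * t + 2 / 3 * d)) ^ 2 := by gcongr
  rw [← ha2, ← hp2, ← ht2, ← hd2]
  refine key3.trans ?_
  rw [mul_pow]
  gcongr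
  have : t ^ 2 * (3 / 4) = 9 / 8 * (c * t) ^ 2 := by rw [mul_pow, hc2]; ring
  nlinarith [sq_nonneg (c * t - 16 / 3 * d)]

end Crest.Agent.N207.H
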