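import Crest.Agent.N207.H.St
import Crest.Agent.N207.H.Kato
import Crest.Agent.N207.A.Tg3
import Crest.Agent.N207.A.Co3
import Crest.Agent.N207.A.Arr
import Crest.Agent.N207.AI.Lin

/-!
# Row 207, block H (helper41): the refined Kato inequality for `|Rm|²`
-/

set_option autoImplicit false

open scoped ContDiff Topology
open Set Filter
open Crest.GeometryTopology.CoordMetric
open Crest.Agent.R202.Tens Crest.Agent.R247

noncomputable section

namespace Crest.Agent.N207.H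

theorem sum_v3 (f : (Fin 3 → Fin 4) → ℝ) : ∑ I, f I = ∑ a, ∑ b, ∑ c, f (A.v3 a b c) := by
  simp only [AI.sum_cons, Fintype.sum_unique]
  rfl

theorem sum_v4 (f : (Fin 4 → Fin 4) → ℝ) :
    ∑ I, f I = ∑ a, ∑ b, ∑ k : Fin 4 × Fin 4, f (A.v4 a b k.1 k.2) := by
  simp only [AI.sum_cons, Fintype.sum_unique, Fintype.sum_prod_type]
  rfl

theorem karm_one {G : MetricField 4} {U : Set E4} (hG : IsRiemannianOn G U) {x : E4} (hx : x ∈ U)
    (h1 : G x = 1) : Bo84.gam G (nsq G (rmT G)) (nsq G (rmT G)) x ≤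
      3 * nsq G (rmT G) x * nsq G (covN G (rmT G) 1) x +
        64 * nsq G (rmT G) x * nsq G (covN G (ricT G) 1) x := by
  have hR := (SmT.rmT hG).dAt hG.isOpen hx
  have hi : (G x)⁻¹ = 1 := by rw [h1, inv_one]
  set R := rmT G x with hRd
  set T := cov G (rmT G) x with hT
  set S := cov G (ricT G) x with hS
  have k := kato (κ := Fin 4 × Fin 4) (fun i j k => R (A.v4 i j k.1 k.2))
    (fun m i j k => T (A.v5 m i j k.1 k.2)) (fun i j k => (A.cs_rm hG hx).a12 i j k.1 k.2)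
    (fun m i j k => (A.cs_cov_rm hG hx m).a12 i j k.1 k.2)
    (fun m i j k => A.bianchi2 hG hx m i j k.1 k.2)
  have eP : nsq G (rmT G) x = ∑ i, ∑ j, ∑ k : Fin 4 × Fin 4, R (A.v4 i j k.1 k.2) ^ 2 := by
    rw [nsq, ip, hi, Ar.ipA_one, sum_v4]
    simp only [sq, hRd]
  have eT : nsq G (covN G (rmT G) 1) x =
      ∑ m, ∑ i, ∑ j, ∑ k : Fin 4 × Fin 4, T (A.v5 m i j k.1 k.2) ^ 2 := by
    rw [nsq, ip, hi, Ar.ipA_one, AI.sum_cons]
    simp only [sum_v4, sq, hT]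
    rfl
  have eS : nsq G (covN G (ricT G) 1) x = ∑ a, ∑ b, ∑ c, S (A.v3 a b c) ^ 2 := by
    rw [nsq, ip, hi, Ar.ipA_one, sum_v3]
    simp only [sq, hS]
    rfl
  have eG : Bo84.gam G (nsq G (rmT G)) (nsq G (rmT G)) x =
      4 * ∑ m, (∑ i, ∑ j, ∑ k : Fin 4 × Fin 4, R (A.v4 i j k.1 k.2) * T (A.v5 m i j k.1 k.2)) ^ 2 := by
    rw [← ip_dT, ip, dT_nsq hG hx hR, ipA_smul_left, ipA_smul_right, hi, ← mul_assoc, ipA_one]
    congr 1
    · norm_num
    refine Finset.sum_congr rfl fun m _ => ?_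
    rw [Finset.sum_eq_single m]
    · rw [Matrix.one_apply_eq, one_mul, conT_apply, hi, Ar.ipA_one, sum_v4, sq]
      rfl
    · intro b _ hb
      rw [Matrix.one_apply_ne hb.symm, zero_mul]
    · simp
  have eD : ∀ j b c, ∑ m, T (A.v5 m m j b c) = S (A.v3 b c j) - S (A.v3 c b j) := by
    intro j b c
    rw [← A.div_rm hG hx j b c, divT, trT, hi]
    refine Finset.sum_congr rfl fun m _ => ?_
    rw [Finset.sum_eq_single m]
    · rw [Matrix.one_apply_eq, one_mul]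
    · intro b _ hb
      rw [Matrix.one_apply_ne hb.symm, zero_mul]
    · simp
  have hD : ∑ j, ∑ k : Fin 4 × Fin 4, (∑ m, T (A.v5 m m j k.1 k.2)) ^ 2 ≤
      4 * ∑ a, ∑ b, ∑ c, S (A.v3 a b c) ^ 2 := by
    simp only [eD, Fintype.sum_prod_type]
    have e1 : ∑ j, ∑ b, ∑ c, S (A.v3 b c j) ^ 2 = ∑ a, ∑ b, ∑ c, S (A.v3 a b c) ^ 2 := by
      rw [Finset.sum_comm]
      exact Finset.sum_congr rfl fun _ _ => Finset.sum_comm
    have e2 : ∑ j, ∑ b, ∑ c, S (A.v3 c b j) ^ 2 = ∑ a, ∑ b, ∑ c, S (A.v3 a b c) ^ 2 := by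
      rw [← e1]
      exact Finset.sum_congr rfl fun _ _ => Finset.sum_comm
    calc _ ≤ ∑ j, ∑ b, ∑ c, (2 * S (A.v3 b c j) ^ 2 + 2 * S (A.v3 c b j) ^ 2) :=
          Finset.sum_le_sum fun j _ => Finset.sum_le_sum fun b _ => Finset.sum_le_sum fun c _ => by
            nlinarith [sq_nonneg (S (A.v3 b c j) + S (A.v3 c b j))]
      _ = _ := by
          simp only [Finset.sum_add_distrib, ← Finset.mul_sum]
          rw [e1, e2]; ring
  rw [eG, eP, eT, eS]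
  have hP : 0 ≤ ∑ i, ∑ j, ∑ k : Fin 4 × Fin 4, R (A.v4 i j k.1 k.2) ^ 2 := by positivity
  nlinarith [mul_le_mul_of_nonneg_left hD hP]

theorem karm : KaRm := by
  refine ⟨64, fun G U hG x hx => ?_⟩
  obtain ⟨g', Φ, V, p, h0, hΦ, h1⟩ := AI.exists_norm hG hx
  have h := karm_one p.riem' h0 h1
  have e0 : ∀ z ∈ V, nsq g' (rmT g') z = nsq G (rmT G) (Φ z) := fun z hz =>
    AI.nsq_covN_rm_pull p hz 0
  have hd : DifferentiableAt ℝ (nsq G (rmT G)) (Φ 0) :=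
    dAt ((SmT.rmT hG).nsq hG) hG.isOpen (p.maps 0 h0)
  have ev := ev_of_on p.isOpen h0 e0
  rw [Bo84.gam_congr ev ev, Bo84.gam_pull p h0 hd hd, e0 0 h0, AI.nsq_covN_rm_pull p h0,
    AI.nsq_covN_ric_pull p h0, hΦ] at h
  exact h

end Crest.Agent.N207.H

end
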