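import Crest.Agent.N207.H.St
import Crest.Agent.N207.F.Stat
import Crest.Agent.N207.G.Tr
import Crest.Agent.N207.T.Lo1

/-!
# Row 207, block H (helper11): the leaf `LOC`, normal coordinates lifted to the rough chart
-/

set_option autoImplicit false
set_option linter.unusedSectionVars false

open scoped ContDiff Manifold Topology
open Set Filter Metric Function
open Crest.GeometryTopology.CoordMetric
open Crest.Agent.R202.Tens Crest.Agent.N207.Sk
open Crest.Agent.R244.CF (gB isLC_of_isRiemannianOn)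

noncomputable section

namespace Crest.Agent.N207.H

variable {M : Type*} [TopologicalSpace M] [ChartedSpace E4 M] [IsManifold 𝓘(ℝ, E4) ∞ M]

/-- a lift through an injective parametrisation is smooth -/
theorem lift_smooth {Ψ E : E4 → M} {U W : Set E4} (hE : Par E U) (hΨ : Par Ψ W) (hi : InjOn Ψ W)
    (hm : ∀ y ∈ U, E y ∈ Ψ '' W) : ContDiffOn ℝ ∞ (fun y => invFunOn Ψ W (E y)) U := by
  intro y hy
  obtain ⟨T, V, hV, hyV, hVU, -, hT, hTm⟩ := Gs.exists_trans0 hE hΨ hy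
    (invFunOn_mem (hm y hy)) (invFunOn_eq (hm y hy))
  refine ((hT.contDiffAt (hV.mem_nhds hyV)).congr_of_eventuallyEq ?_).contDiffWithinAt
  filter_upwards [hV.mem_nhds hyV] with z hz
  exact hi (invFunOn_mem (hm z (hVU hz))) (hTm z hz).1
    ((invFunOn_eq (hm z (hVU hz))).trans (hTm z hz).2.symm)

/-- a neck chart is injective on balls of definite size -/
theorem nk_injOn {N : Nk M} (hN : N.Top) {n0 : ℕ} (hn : Nat.card N.Γ ≤ n0) {p : E4} {ρ : ℝ}
    (hs : ball p ρ ⊆ shell N.a N.b) (hρ : 4 * ((n0 : ℝ) + 1) * ρ ≤ ‖p‖) : InjOn N.Ψ (ball p ρ) := by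
  intro x hx y hy e
  obtain ⟨γ, hγ, rfl⟩ := (hN.fib x (hs hx) y (hs hy)).1 e
  by_contra hne
  have := hN.grp.fin
  have h1 := T.move_ge hN.grp.free hγ (fun h => hne (by rw [h]; rfl)) x
  have hx' : ‖x - p‖ < ρ := mem_ball_iff_norm.1 hx
  have hy' : ‖γ x - p‖ < ρ := mem_ball_iff_norm.1 hy
  have h0 : 0 < ρ := (norm_nonneg _).trans_lt hx'
  have h2 : ‖γ x - x‖ ≤ 2 * ρ := by
    have := norm_sub_le_norm_sub_add_norm_sub (γ x) p x
    rw [norm_sub_rev p x] at this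
    linarith
  have h3 : ‖p‖ ≤ ‖x‖ + ρ := by
    have := norm_le_norm_add_norm_sub' p x
    rw [norm_sub_rev p x] at this
    linarith
  have h4 : (Nat.card N.Γ : ℝ) ≤ n0 := by exact_mod_cast hn
  have h5 : (Nat.card N.Γ : ℝ) * ‖γ x - x‖ ≤ n0 * (2 * ρ) := by gcongr
  have h6 : (0 : ℝ) ≤ n0 := Nat.cast_nonneg _
  nlinarith

variable [CompactSpace M] [T3Space M] [ConnectedSpace M]

/-- metric balls are covered by coordinate balls of an almost Euclidean parametrisation -/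
theorem ball_sub_image (g : Met 4 M) {Ψ : E4 → M} {p : E4} {ρ : ℝ} (hP : Par Ψ (ball p ρ))
    (hn : ∀ x ∈ ball p ρ, ∀ i j, |g.pm Ψ x i j - (1 : Matrix (Fin 4) (Fin 4) ℝ) i j| ≤ 1 / 100) :
    g.ball (Ψ p) (ρ / 2) ⊆ Ψ '' ball p ρ := by
  intro q hq
  have hm : ∀ y ∈ ball (0 : E4) ρ, p + y ∈ ball p ρ := fun y hy => by
    rw [mem_ball_iff_norm, add_sub_cancel_left]; exact mem_ball_zero_iff.1 hy
  have hd : ∀ y : E4, fderiv ℝ (fun z => p + z) y = ContinuousLinearMap.id ℝ E4 := fun y => by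
    rw [fderiv_const_add]; exact fderiv_fun_id
  have hP' : Par (fun z => Ψ (p + z)) (ball 0 ρ) :=
    Gs.par_comp hP isOpen_ball (by fun_prop) hm fun y _ => by rw [hd]; exact injective_id
  have hq2 : ∀ x ∈ ball (0 : E4) ρ, ∀ v, |gB (g.pm fun z => Ψ (p + z)) x v v - ‖v‖ ^ 2| ≤
      ((4 : ℕ) : ℝ) ^ 2 * (1 / 100) * ‖v‖ ^ 2 := fun x hx => F.gB_near fun a b => by
    rw [Gs.pm_comp g (T := fun z => p + z) (Gs.par_md hP (hm x hx)) (by fun_prop), hd]
    simpa [PiLp.single_apply] using hn _ (hm x hx) a b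
  have him : F.Imm0 (n := 4) (M := Sl g) (gB (g.pm fun z => Ψ (p + z)))
      (R244.CF.Gam (g.pm fun z => Ψ (p + z))) (fun z => Ψ (p + z)) ρ :=
    ⟨isLC_of_isRiemannianOn (hP'.riem g), fun x hx => F.isoM_par g hP' hx, fun x hx v => by
      have := abs_le.1 (hq2 x hx v)
      push_cast at this
      nlinarith [sq_nonneg ‖v‖], fun x hx v => by
      have := abs_le.1 (hq2 x hx v)
      push_cast at this
      nlinarith [sq_nonneg ‖v‖]⟩
  obtain ⟨G⟩ := F.nonempty_geo g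
  have hd' : dist (α := Sl g) (Ψ (p + 0)) q < ρ / 2 := by
    rw [add_zero]; exact lt_of_eq_of_lt (dist_comm (α := Sl g) (Ψ p) q) hq
  obtain ⟨x, h1, h2⟩ := him.colip G 0 q (by rw [norm_zero]; linarith)
  rw [sub_zero] at h2
  exact ⟨p + x, hm x (mem_ball_zero_iff.2 (by linarith)), h1⟩

variable [MeasurableSpace M] [BorelSpace M]

theorem loc : LOC M := by
  intro n0 Ck
  set A : ℕ → ℝ := fun j => 1 + ∑ k ∈ Finset.range (j + 1), |Ck k| with hA
  have hA1 : ∀ {k j}, k ≤ j → |Ck k| ≤ A j := fun {k j} h => by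
    have := Finset.single_le_sum (f := fun k => |Ck k|) (fun k _ => abs_nonneg _)
      (Finset.mem_range.2 (show k < j + 1 by omega))
    simp only [hA]; linarith
  have hA0 : ∀ j, 0 < A j := fun j => by simp only [hA]; positivity
  obtain ⟨c1, hc0, hc1, hc⟩ := F.par_exp 4 (2 * |Ck 0|)
  choose C hC0 hC using fun j => F.ck_bound 4 j (2 * A j)
  set m : ℝ := 4 * ((n0 : ℝ) + 1) with hm
  have hm4 : 4 ≤ m := by rw [hm]; nlinarith [Nat.cast_nonneg (α := ℝ) n0]
  refine ⟨c1 / (2 * m), fun j => C j * A j, by positivity,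
    fun g N V hN hR hn p hp w hw0 hw2 hK => ?_⟩
  have hp0 : 0 < ‖p‖ := by linarith [hp.1, hN.a_pos]
  set ρ : ℝ := ‖p‖ / m with hρ
  have hρ0 : 0 < ρ := by positivity
  have hρ4 : ρ ≤ ‖p‖ / 4 := by rw [hρ]; gcongr
  have hs4 : ball p (‖p‖ / 4) ⊆ shell N.a N.b := fun x hx => by
    have h1 := abs_le.1 ((abs_norm_sub_norm_le x p).trans (mem_ball_iff_norm.1 hx).le)
    exact ⟨by linarith [hp.1, hN.a_pos], by linarith [hp.2, hN.a_pos]⟩
  have hs : ball p ρ ⊆ shell N.a N.b := (ball_subset_ball hρ4).trans hs4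
  have hinj := nk_injOn hN hn hs (by rw [hρ, ← hm, mul_div_cancel₀ _ (by positivity)])
  have hP := Gs.par_mono hN.par isOpen_ball hs
  have hsub := ball_sub_image g hP fun x hx i j => by
    have := hR.jet x (hs hx) 0 le_rfl i j
    simpa [J1, dv] using this
  obtain ⟨E, hE⟩ := F.exists_isExp g (N.Ψ p)
  have hK' : ∀ k, ∀ q ∈ g.ball (N.Ψ p) (ρ / 2), g.rm k q ≤ (Ck k * w / ‖p‖ ^ (k + 2)) ^ 2 :=
    fun k q hq => by
      obtain ⟨y, hy, rfl⟩ := hsub hq
      exact hK k y (ball_subset_ball hρ4 hy)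
  obtain ⟨hPE, -⟩ := hc hE (half_pos hρ0) fun q hq => by
    refine (hK' 0 q hq).trans ?_
    rw [div_pow, div_pow, mul_pow, ← sq_abs (Ck 0), ← mul_pow, zero_add]
    have a1 : |Ck 0| * w ≤ 2 * |Ck 0| := by nlinarith [abs_nonneg (Ck 0)]
    have a2 : ρ / 2 ≤ ‖p‖ := by linarith
    gcongr
  have e : c1 * (ρ / 2) = c1 / (2 * m) * ‖p‖ := by rw [hρ]; field_simp
  have hle : c1 * (ρ / 2) ≤ ρ / 2 := by nlinarith
  set U := ball (0 : E4) (c1 * (ρ / 2)) with hU
  have h0 : (0 : E4) ∈ U := mem_ball_self (by positivity)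
  have hmem : ∀ y ∈ U, E y ∈ g.ball (N.Ψ p) (ρ / 2) := fun y hy =>
    hE.mem_ball (ball_subset_ball hle hy)
  have hmem' : ∀ y ∈ U, E y ∈ N.Ψ '' ball p ρ := fun y hy => hsub (hmem y hy)
  have hnc := hE.nc hPE ((convex_ball _ _).starConvex h0) h0
    (ball_subset_ball (show c1 * (ρ / 2) ≤ ‖p‖ by linarith))
  refine ⟨fun y => invFunOn N.Ψ (ball p ρ) (E y), g.pm E, ?_, ?_, hE.one, fun y hy k i j => ?_⟩
  · rw [← e]
    exact Gs.pull_of' g hPE (Gs.par_mono hN.par isOpen_ball hs4) isOpen_ball subset_rfl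
      (lift_smooth hPE hP hinj hmem') fun z hz =>
        ⟨ball_subset_ball hρ4 (invFunOn_mem (hmem' z hz)), invFunOn_eq (hmem' z hz)⟩
  · rw [hE.zero]
    exact hinj.leftInvOn_invFunOn (mem_ball_self hρ0)
  · rw [← e] at hy
    have h1 := hC k hnc (δ := A k * w) (mul_pos (hA0 k) hw0) (by nlinarith [hA0 k])
      (fun l hl x hx => by
        refine (hPE.par_rm g l hx).symm.trans_le ((hK' l _ (hmem x hx)).trans ?_)
        rw [div_pow, div_pow, mul_pow, ← sq_abs (Ck l), ← mul_pow]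
        gcongr
        exact hA1 hl) k le_rfl y hy i j
    rw [le_div_iff₀ (by positivity)] at h1
    exact h1.trans_eq (by ring)

end Crest.Agent.N207.H

end
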