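import Crest.Agent.N207.H.Smooth3

/-!
# Row 207, block H (helper45): `SMOOTH`
-/

set_option autoImplicit false
set_option linter.unusedSectionVars false

open scoped ContDiff Topology
open Set Filter Metric
open Crest.GeometryTopology.CoordMetric
open Crest.Agent.R202.Tens Crest.Agent.N207.Sk Crest.Agent.N207.Jt

noncomputable section

namespace Crest.Agent.N207.H.Sm

theorem shell_sub {a b : ℝ} (ha : 0 < a) : shell (4 * a) (b / 4) ⊆ shell (2 * a) (b / 2) :=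
  fun _ hx => ⟨by linarith [hx.1], by linarith [hx.1, hx.2]⟩

/-- **the non equivariant core** -/
theorem core (Cs : ℕ → ℝ) {c e : ℝ} (hec : e ≤ c) (he : 0 < e)
    (heA : (|Cs 1| + 1) * e ≤ 1 / 20000) : ∃ C : ℕ → ℝ, ∀ {G : MetricField 4}
    {Γ : Subgroup (E4 ≃ₗᵢ[ℝ] E4)} {a b : ℝ} {θ : E4 → E4 →L[ℝ] E4} {Y : E4 → E4},
    FD G Γ a b (1 / 100) θ Y →
    (∀ p ∈ shell (2 * a) (b / 2), ∃ φ G', LCh Cs G c (wt a b p) p φ G') →
    ∃ Y0 : E4 → E4, (∀ x ∈ shell (4 * a) (b / 4), ContDiffAt ℝ ∞ Y0 x) ∧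
      ∀ p ∈ shell (4 * a) (b / 4), ∀ φ G', LCh Cs G c (wt a b p) p φ G' →
        JB C (fun y => Y0 (φ y) - (Y p + Th θ φ 0 y)) 0 ‖p‖ (wt a b p * ‖p‖) := by
  classical
  obtain ⟨N, hN⟩ := cover (ε := e / 16) (by positivity)
  obtain ⟨C1, h1⟩ := pair Cs hec he heA
  obtain ⟨C2, h2⟩ := jb_div (fun k => N * |C1 k|) (N * |C1 0|)
  refine ⟨C2, fun {G Γ a b θ Y} h hch => ?_⟩
  have ha := h.a_pos
  obtain ⟨I, i1, i2, i3⟩ := hN a b ha
  choose! φ G' hk using hch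
  choose! ψ ho using fun p hp => one h hp (hk p hp) hec he heA
  have ρ0 : ∀ i ∈ I, 0 < e * ‖i‖ := fun i hi => mul_pos he (lt_trans (by linarith) (i1 i hi).1)
  have sub : ∀ i : E4, ball (0 : E4) (e * ‖i‖) ⊆ ball 0 (c * ‖i‖) := fun i =>
    ball_subset_ball (by gcongr)
  have cφ : ∀ i ∈ I, ContinuousOn (φ i) (ball 0 (e * ‖i‖)) := fun i hi =>
    (hk i (i1 i hi)).pull.smooth.continuousOn.mono (sub i)
  set β : E4 → E4 → ℝ := fun i => bet (e * ‖i‖) (φ i) (ψ i) with hβ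
  have s1 : ∀ x ∈ shell (4 * a) (b / 4), 1 ≤ ∑ i ∈ I, β i x := fun x hx => by
    obtain ⟨i, hi, hx'⟩ := i2 x hx
    rw [← (ho i (i1 i hi)).bet_one (ρ0 i hi) (x := x) (by linarith)]
    exact Finset.single_le_sum (f := fun i => β i x) (fun j _ => bet_nonneg _ _ _ _) hi
  have sβ : ∀ x, ContDiffAt ℝ ∞ (fun x => ∑ i ∈ I, β i x) x := fun x => ContDiffAt.sum fun i hi => by
    simpa using (ho i (i1 i hi)).bet_smul (ρ0 i hi) (cφ i hi) (f := fun _ => (1 : ℝ))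
      contDiff_const x
  refine ⟨fun x => (∑ i ∈ I, β i x)⁻¹ • ∑ i ∈ I, β i x • (Y i + Th θ (φ i) 0 (ψ i x)),
    fun x hx => ((sβ x).inv (by linarith [s1 x hx])).smul (ContDiffAt.sum fun i hi =>
      (ho i (i1 i hi)).bet_smul (ρ0 i hi) (cφ i hi) (f := fun z => Y i + Th θ (φ i) 0 z)
        (contDiff_const.add (ContinuousLinearMap.contDiff _)) x), fun p hp φ0 G0 k => ?_⟩
  have hp' := shell_sub ha hp
  have hs : 0 < ‖p‖ := lt_trans (by linarith) hp.1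
  have hw := wt_pos b ha (norm_pos_iff.1 hs)
  have ct : Tendsto φ0 (𝓝 0) (𝓝 p) := by
    rw [← k.ctr]
    exact (k.pull.contDiffAt (mem_ball_self (mul_pos (he.trans_le hec) hs))).continuousAt
  set J := I.filter fun i => p ∈ φ i '' closedBall 0 (e * ‖i‖ / 2) with hJ
  have JI : J ⊆ I := Finset.filter_subset _ _
  have mJ : ∀ i ∈ J, p ∈ φ i '' ball 0 (e * ‖i‖) := fun i hi =>
    image_mono (closedBall_subset_ball (by linarith [ρ0 i (JI hi)])) (Finset.mem_filter.1 hi).2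
  have cJ : (J.card : ℝ) ≤ N := by
    exact_mod_cast i3 p J JI fun i hi => by
      obtain ⟨z, hz, ez⟩ := mJ i hi
      rw [← ez]; exact (hk i (i1 i (JI hi))).pull.maps z (sub i hz)
  have z0 : ∀ᶠ y in 𝓝 (0 : E4), ∀ i ∈ I, i ∉ J → β i (φ0 y) = 0 :=
    (eventually_all_finset I).2 fun i hi => by
      by_cases hj : i ∈ J
      · simp [hj]
      · exact (ct.eventually ((ho i (i1 i hi)).bet_zero (ρ0 i hi) (cφ i hi)
          fun h' => hj (Finset.mem_filter.2 ⟨hi, h'⟩))).mono fun y hy _ => hy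
  have pr := fun i hi => h1 h hp' (i1 i (JI hi)) k (hk i (i1 i (JI hi))) (ho i (i1 i (JI hi)))
    (mJ i hi)
  have hu : JB (fun k => N * |C1 k|) (fun y => ∑ i ∈ I, β i (φ0 y)) 0 ‖p‖ 1 :=
    ((JB.sum J hs.le fun i hi => (pr i hi).1.abs zero_le_one).mono zero_le_one
      fun k => by gcongr).congr (z0.mono fun y hy => (Finset.sum_subset JI hy).symm)
  have hv : JB (fun k => N * |C1 k|) (fun y => ∑ i ∈ I, β i (φ0 y) •
      (Y i + Th θ (φ i) 0 (ψ i (φ0 y)) - (Y p + Th θ φ0 0 y))) 0 ‖p‖ (wt a b p * ‖p‖) :=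
    ((JB.sum J hs.le fun i hi => (pr i hi).2.abs (mul_pos hw hs).le).mono (mul_pos hw hs).le
      fun k => by gcongr).congr (z0.mono fun y hy => (Finset.sum_subset JI fun i hi hj => by
        rw [hy i hi hj, zero_smul]).symm)
  have u1 : 1 ≤ ∑ i ∈ I, β i (φ0 0) := by rw [k.ctr]; exact s1 p hp
  refine (h2 _ _ _ _ hs (mul_pos hw hs) hu hv ⟨u1, ?_⟩).congr ?_
  · have := hu.2 0
    rw [J1, norm_iteratedFDeriv_zero, pow_zero, mul_one, mul_one] at this
    exact (le_abs_self _).trans this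
  · filter_upwards [hu.1.continuousAt.eventually_ne (y := 0) (by positivity)] with y hy
    simp only [smul_sub, Finset.sum_sub_distrib, ← Finset.sum_smul, smul_smul,
      inv_mul_cancel₀ hy, one_smul]

/-- rotating a chart by a deck transformation -/
theorem lch_rot {Cs : ℕ → ℝ} {G G' : MetricField 4} {Γ : Subgroup (E4 ≃ₗᵢ[ℝ] E4)} {a b c η : ℝ}
    {φ : E4 → E4} {p : E4} (h : RM G Γ a b η) (hp : p ∈ shell (2 * a) (b / 2))
    (k : LCh Cs G c (wt a b p) p φ G') {γ : E4 ≃ₗᵢ[ℝ] E4} (hγ : γ ∈ Γ) :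
    LCh Cs G c (wt a b (γ p)) (γ p) (fun y => γ (φ y)) G' := by
  have e : ∀ y, fderiv ℝ (fun y => γ (φ y)) y = (γ : E4 →L[ℝ] E4).comp (fderiv ℝ φ y) :=
    fun y => γ.comp_fderiv
  have hp' : γ p ∈ shell (2 * a) (b / 2) := by simpa [shell] using hp
  have sb : ball (γ p) (‖γ p‖ / 4) ⊆ shell a b := fun x hx => (ball_sub_shell h.a_pos hp' hx).1
  refine ⟨⟨isOpen_ball, ⟨isOpen_ball, fun i j => (h.riem.contDiffOn i j).mono sb,
    fun x hx => h.riem.posDef x (sb hx)⟩, fun y hy => ?_, ?_, fun y hy i j => ?_, fun y hy => ?_⟩,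
    by rw [k.ctr], k.one, ?_⟩ <;> simp only [γ.norm_map] at *
  · rw [mem_ball, γ.dist_map]; exact k.pull.maps y hy
  · exact γ.contDiff.comp_contDiffOn k.pull.smooth
  · rw [← bil_apply, e, ← Gs.bil_single (G' y), k.pull.bil_eq hy]
    exact (h.inv γ hγ _ (ball_sub_shell h.a_pos hp (k.pull.maps y hy)).1 _ _).symm
  · rw [e]; exact γ.injective.comp (k.pull.inj y hy)
  · simpa only [wt, γ.norm_map] using k.jet

end Crest.Agent.N207.H.Sm

namespace Crest.Agent.N207.H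

open Sm

/-- **(SMOOTH)** -/
theorem smooth : SMOOTH := by
  refine ⟨1 / 100, by norm_num, fun c Cs hc => ?_⟩
  have hA : 0 < |Cs 1| + 1 := by positivity
  have hec : min c (1 / 20000 / (|Cs 1| + 1)) ≤ c := min_le_left _ _
  have he : 0 < min c (1 / 20000 / (|Cs 1| + 1)) := by positivity
  have heA : (|Cs 1| + 1) * min c (1 / 20000 / (|Cs 1| + 1)) ≤ 1 / 20000 := by
    rw [mul_comm, ← le_div_iff₀ hA]; exact min_le_right _ _
  obtain ⟨C, hC⟩ := core Cs hec he heA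
  refine ⟨fun k => |C k| + |Cs k| + 2 * |C 1| + 1, fun G Γ a b θ Y h hch => ?_⟩
  obtain ⟨Y0, s0, j0⟩ := hC h hch
  have ha := h.a_pos
  have := h.fin
  let _ := Fintype.ofFinite Γ
  have hn : (0 : ℝ) < (Finset.univ : Finset Γ).card := by exact_mod_cast Finset.card_pos.2 ⟨1, by simp⟩
  set n : ℝ := ((Finset.univ : Finset Γ).card : ℝ) with hnd
  have rot : ∀ (γ : E4 ≃ₗᵢ[ℝ] E4) {x}, x ∈ shell (4 * a) (b / 4) → γ x ∈ shell (4 * a) (b / 4) :=
    fun γ x hx => by simpa [shell] using hx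
  set Yt : E4 → E4 := fun x => n⁻¹ • ∑ γ : Γ, γ.1.symm (Y0 (γ.1 x)) with hYt
  have sY : ∀ x ∈ shell (4 * a) (b / 4), ContDiffAt ℝ ∞ Yt x := fun x hx =>
    (ContDiffAt.sum fun (γ : Γ) _ => γ.1.symm.contDiff.contDiffAt.comp x
      ((s0 _ (rot γ.1 hx)).comp x γ.1.contDiff.contDiffAt)).const_smul _
  refine ⟨Yt, fun x hx => (sY x hx).contDiffWithinAt, fun δ hδ x _ => ?_, fun p hp => ?_⟩
  · simp only [hYt, map_smul, map_sum]
    congr 1
    refine Fintype.sum_equiv (Equiv.mulRight (⟨δ, hδ⟩ : Γ)) _ _ fun γ => ?_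
    apply γ.1.injective
    have : ∀ v, γ.1 (δ ((γ.1 * δ).symm v)) = v := fun v => (γ.1 * δ).apply_symm_apply v
    simpa using (this _).symm
  have hp' := shell_sub ha hp
  have hp0 : p ∈ shell a b := ⟨by linarith [hp.1], by linarith [hp.1, hp.2]⟩
  have hs : 0 < ‖p‖ := lt_trans (by linarith) hp.1
  have hw := wt_pos b ha (norm_pos_iff.1 hs)
  obtain ⟨φ, G', k⟩ := hch p hp'
  obtain ⟨ψ, o⟩ := one h hp' k hec he heA
  have h0 : (0 : E4) ∈ ball (0 : E4) (c * ‖p‖) := mem_ball_self (mul_pos hc hs)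
  have h0' := mem_ball_self (x := (0 : E4)) (mul_pos he hs)
  have jγ : ∀ γ : Γ, JB C (fun y => γ.1.symm (Y0 (γ.1 (φ y))) - (Y p + Th θ φ 0 y)) 0 ‖p‖
      (wt a b p * ‖p‖) := fun γ => by
    have h1 := j0 _ (rot γ.1 hp) _ _ (lch_rot h.toRM hp' k γ.2)
    have e : (fun y => γ.1.symm (Y0 (γ.1 (φ y))) - (Y p + Th θ φ 0 y)) = γ.1.symm ∘ fun y =>
        Y0 (γ.1 (φ y)) - (Y (γ.1 p) + Th θ (fun y => γ.1 (φ y)) 0 y) := by
      funext y
      have e1 : fderiv ℝ (fun y => γ.1 (φ y)) 0 = (γ.1 : E4 →L[ℝ] E4).comp (fderiv ℝ φ 0) :=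
        γ.1.comp_fderiv
      simp [Th, e1, k.ctr, h.eY _ γ.2 p hp0, h.eθ _ γ.2 p hp0]
    rw [e]
    refine ⟨γ.1.symm.contDiff.contDiffAt.comp _ h1.1, fun m => ?_⟩
    rw [J1, LinearIsometryEquiv.norm_iteratedFDeriv_comp_left]
    simpa only [wt, γ.1.norm_map, J1] using h1.2 m
  have jt : JB C (fun y => Yt (φ y) - (Y p + Th θ φ 0 y)) 0 ‖p‖ (wt a b p * ‖p‖) := by
    have h1 := JB.sum Finset.univ hs.le fun γ _ => jγ γ
    have e : (fun y => Yt (φ y) - (Y p + Th θ φ 0 y)) = fun y => n⁻¹ • ∑ γ : Γ,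
        (γ.1.symm (Y0 (γ.1 (φ y))) - (Y p + Th θ φ 0 y)) := by
      funext y
      rw [Finset.sum_sub_distrib, Finset.sum_const, smul_sub, ← Nat.cast_smul_eq_nsmul ℝ, smul_smul,
        inv_mul_cancel₀ hn.ne', one_smul]
    rw [e]
    refine ⟨h1.1.const_smul _, fun m => ?_⟩
    rw [J1, iteratedFDeriv_const_smul_apply' (h1.1.of_le (kle m)), norm_smul, Real.norm_eq_abs,
      abs_of_pos (inv_pos.2 hn), mul_assoc, inv_mul_le_iff₀ hn, ← mul_assoc]
    exact h1.2 m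
  have c0 := abs_nonneg (C 0)
  have c1 := abs_nonneg (C 1)
  have c2 := abs_nonneg (Cs 0)
  refine ⟨?_, ?_, φ, G', Th θ φ 0, ⟨_, _, h0, k.pull⟩, k.ctr, fun m i j => (k.jet 0 h0 m i j).trans
    (mul_le_mul_of_nonneg_right (by linarith [le_abs_self (Cs m), abs_nonneg (C m)]) hw.le),
    fun u v => ?_, fun m => (jt.2 m).trans ?_⟩
  · have := jt.2 0
    simp only [J1, norm_iteratedFDeriv_zero, pow_zero, mul_one, k.ctr, map_zero, add_zero] at this
    rw [mul_assoc]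
    exact this.trans (mul_le_mul_of_nonneg_right (by linarith [le_abs_self (C 0)])
      (mul_pos hw hs).le)
  · have := jt.2 1
    have d1 : HasFDerivAt Yt (fderiv ℝ Yt p) (φ 0) := by
      rw [k.ctr]; exact ((sY p hp).differentiableAt (by simp)).hasFDerivAt
    have d2 := (d1.comp 0 ((k.pull.contDiffAt h0).differentiableAt (by simp)).hasFDerivAt).sub
      ((Th θ φ 0).hasFDerivAt.const_add (Y p))
    rw [J1, ← norm_iteratedFDeriv_fderiv, norm_iteratedFDeriv_zero, pow_one, ← mul_assoc,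
      mul_le_mul_iff_left₀ hs, show fderiv ℝ (fun y => Yt (φ y) - (Y p + Th θ φ 0 y)) 0 = _ from
        d2.fderiv, Th, k.ctr, ← ContinuousLinearMap.sub_comp] at this
    refine ContinuousLinearMap.opNorm_le_bound _ (by positivity) fun X => ?_
    obtain ⟨X', rfl⟩ := k.pull.surj h0 X
    refine (ContinuousLinearMap.le_of_opNorm_le _ this X').trans ?_
    calc _ ≤ |C 1| * wt a b p * (2 * ‖fderiv ℝ φ 0 X'‖) := by
          gcongr; exacts [le_abs_self _, o.low 0 h0' X']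
      _ = 2 * |C 1| * wt a b p * ‖fderiv ℝ φ 0 X'‖ := by ring
      _ ≤ _ := by gcongr; linarith
  · have h1 := h.iso p hp0 (fderiv ℝ φ 0 u) (fderiv ℝ φ 0 v)
    have h2 := k.pull.bil_eq h0 u v
    have h3 : bil (1 : Matrix (Fin 4) (Fin 4) ℝ) u v = inner ℝ u v := by
      simp [bil_apply, Matrix.one_apply, PiLp.inner_apply, mul_comm]
    rw [k.one, k.ctr, h3] at h2
    rw [← h2] at h1
    simp only [Th, ContinuousLinearMap.comp_apply, k.ctr]
    refine h1.trans ?_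
    have : 0 ≤ wt a b p * ‖u‖ * ‖v‖ := by positivity
    calc _ ≤ 1 / 100 * wt a b p * (2 * ‖u‖) * (2 * ‖v‖) := by
          gcongr <;> exact (fderiv ℝ φ 0).le_of_opNorm_le (o.up 0 h0') _
      _ ≤ 1 * wt a b p * ‖u‖ * ‖v‖ := by linarith
      _ ≤ _ := by gcongr; linarith
  · rw [mul_assoc]
    exact mul_le_mul_of_nonneg_right (by linarith [le_abs_self (C m), abs_nonneg (Cs m)])
      (mul_pos hw hs).le

end Crest.Agent.N207.H

end
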