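import Crest.Agent.N207.H.Main0
import Crest.Agent.N207.H.Frb
import Crest.Agent.N207.H.Smooth4

/-!
# Row 207, block H (helper39): `HDEC`
-/

set_option autoImplicit false

open scoped ContDiff Manifold
open Crest.Agent.N207.Sk

namespace Crest.Agent.N207.H

theorem hdec {M : Type*} [TopologicalSpace M] [ChartedSpace E4 M] [IsManifold 𝓘(ℝ, E4) ∞ M]
    [CompactSpace M] [T3Space M] [ConnectedSpace M] [MeasurableSpace M] [BorelSpace M]
    {F : Flow M} (hB : Base F) : HDEC F :=
  hdec0 frb smooth hB

end Crest.Agent.N207.H
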