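import Crest.Agent.N207.H.Asm
import Crest.Agent.N207.H.Fr3
import Crest.Agent.N207.H.Frc
import Crest.Agent.N207.H.Jets
import Crest.Agent.N207.H.Loc
import Crest.Agent.N207.H.Br
import Crest.Agent.N207.H.Curv
import Crest.Agent.N207.H.KaRm
import Crest.Agent.N207.A.Tg4
import Crest.Agent.N207.GE.Dist

/-!
# Row 207, block H (helper39): `HDEC` modulo `FRB` and `SMOOTH`
-/

set_option autoImplicit false

open scoped ContDiff Manifold
open Crest.Agent.N207.Sk

namespace Crest.Agent.N207.H

theorem hdec0 {M : Type*} [TopologicalSpace M] [ChartedSpace E4 M] [IsManifold 𝓘(ℝ, E4) ∞ M]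
    [CompactSpace M] [T3Space M] [ConnectedSpace M] [MeasurableSpace M] [BorelSpace M]
    {F : Flow M} (h1 : FRB) (h2 : SMOOTH) (hB : Base F) : HDEC F :=
  hdec_of (frame_of fra h1 frc) h2 jets loc (br M) (curv hB (A.bo_rm 4) karm) hB (voln hB)

end Crest.Agent.N207.H
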