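import Crest.Agent.N207.H.St
import Crest.Agent.N207.I.Iso

/-!
# Row 207, block H (helper45): `SMOOTH`, part 1: scaled jets, two charts
-/

set_option autoImplicit false
set_option linter.unusedSectionVars false

open scoped ContDiff Topology
open Set Filter Metric
open Crest.GeometryTopology.CoordMetric
open Crest.Agent.R202.Tens Crest.Agent.N207.Sk Crest.Agent.N207.Jt

noncomputable section

namespace Crest.Agent.N207.H.Sm

variable {ι Y Z : Type} [NormedAddCommGroup Y] [NormedSpace ℝ Y] [NormedAddCommGroup Z]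
  [NormedSpace ℝ Z]

/-- smooth at `x`, all jets at scale `s` at most `C k * c` -/
def JB (C : ℕ → ℝ) (f : E4 → Y) (x : E4) (s c : ℝ) : Prop :=
  ContDiffAt ℝ ∞ f x ∧ ∀ k, J1 k f x s (C k * c)

theorem norm_itd_scale (f : E4 → Y) {s : ℝ} (hs : 0 < s) (k : ℕ) (y : E4) :
    ‖iteratedFDeriv ℝ k (fun z => f (s • z)) y‖ = ‖iteratedFDeriv ℝ k f (s • y)‖ * s ^ k := by
  let g : E4 ≃L[ℝ] E4 := ContinuousLinearEquiv.smulLeft (Units.mk0 s hs.ne')
  have h := g.iteratedFDerivWithin_comp_right f uniqueDiffOn_univ (x := y) (mem_univ _) k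
  simp only [preimage_univ, iteratedFDerivWithin_univ] at h
  have e : iteratedFDeriv ℝ k (fun z => f (s • z)) y = s ^ k • iteratedFDeriv ℝ k f (s • y) := by
    refine h.trans ?_
    ext v
    have := (iteratedFDeriv ℝ k f (s • y)).map_smul_univ (fun _ => s) v
    simpa [g] using this
  rw [e, norm_smul, Real.norm_eq_abs, abs_of_pos (pow_pos hs k), mul_comm]

theorem contDiffAt_scale {f : E4 → Y} {s : ℝ} {y : E4} (h : ContDiffAt ℝ ∞ f (s • y)) :
    ContDiffAt ℝ ∞ (fun z => f (s • z)) y :=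
  h.comp y (f := fun z : E4 => s • z) (by fun_prop)

/-- from explicit constants to `GB` -/
theorem gb_of_jb {C : ℕ → ℝ} {f : ι → E4 → Y} {y : ι → E4} {s c : ι → ℝ}
    (h : ∀ j, 0 < s j ∧ 0 < c j ∧ JB C (f j) (s j • y j) (s j) (c j)) :
    GB ⊤ (fun j z => (c j)⁻¹ • f j (s j • z)) y := by
  refine ⟨Eventually.of_forall fun j => (contDiffAt_scale (h j).2.2.1).const_smul _,
    fun k => ⟨C k, Eventually.of_forall fun j => ?_⟩⟩
  obtain ⟨hs, hc, h1, h2⟩ := h j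
  rw [iteratedFDeriv_const_smul_apply' ((contDiffAt_scale h1).of_le (kle k)), norm_smul,
    norm_itd_scale _ hs, Real.norm_eq_abs, abs_of_pos (inv_pos.2 hc), inv_mul_le_iff₀ hc, mul_comm (c j)]
  exact h2 k

/-- from `GB` to explicit constants -/
theorem jb_of_gb {f : ι → E4 → Y} {y : ι → E4} {s c : ι → ℝ} (h0 : ∀ j, 0 < s j ∧ 0 < c j)
    (h : GB ⊤ (fun j z => (c j)⁻¹ • f j (s j • z)) y) :
    ∃ C : ℕ → ℝ, ∀ j, JB C (f j) (s j • y j) (s j) (c j) := by
  choose C hC using h.bd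
  refine ⟨C, fun j => ?_⟩
  obtain ⟨hs, hc⟩ := h0 j
  have h1 : ContDiffAt ℝ ∞ (fun z => f j (s j • z)) (y j) := by
    have := (eventually_top.1 h.sm j).const_smul (c j)
    simpa [smul_smul, hc.ne'] using this
  refine ⟨?_, fun k => ?_⟩
  · have h2 : ContDiffAt ℝ ∞ (fun z => f j (s j • z)) ((s j)⁻¹ • s j • y j) := by
      simpa [smul_smul, hs.ne'] using h1
    simpa [smul_smul, hs.ne'] using contDiffAt_scale h2
  · have := eventually_top.1 (hC k) j
    rw [iteratedFDeriv_const_smul_apply' (h1.of_le (kle k)), norm_smul,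
      norm_itd_scale _ hs, Real.norm_eq_abs, abs_of_pos (inv_pos.2 hc), inv_mul_le_iff₀ hc,
      mul_comm (c j)] at this
    exact this

theorem gb_of_fderiv {X : Type} [NormedAddCommGroup X] [NormedSpace ℝ X] {l : Filter ι}
    {f : ι → X → Y} {x : ι → X} (hs : ∀ᶠ j in l, ContDiffAt ℝ ∞ (f j) (x j))
    (h0 : ∃ C, ∀ᶠ j in l, ‖f j (x j)‖ ≤ C) (h1 : GB l (fun j => fderiv ℝ (f j)) x) : GB l f x := by
  refine ⟨hs, fun k => ?_⟩
  cases k with
  | zero => simpa using h0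
  | succ k => simpa only [norm_iteratedFDeriv_fderiv] using h1.bd k

theorem JB.congr {C : ℕ → ℝ} {f g : E4 → Y} {x : E4} {s c : ℝ} (h : JB C f x s c)
    (e : g =ᶠ[𝓝 x] f) : JB C g x s c :=
  ⟨h.1.congr_of_eventuallyEq e, fun k => by
    rw [J1, (e.iteratedFDeriv ℝ k).eq_of_nhds]; exact h.2 k⟩

theorem JB.zero (C : ℕ → ℝ) (x : E4) (s : ℝ) {c : ℝ} (hc : 0 ≤ c) :
    JB (fun k => |C k|) (fun _ => (0 : Y)) x s c :=
  ⟨contDiffAt_const, fun k => by
    simp only [J1, iteratedFDeriv_fun_zero, Pi.zero_apply, norm_zero, zero_mul]; positivity⟩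

theorem JB.abs {C : ℕ → ℝ} {f : E4 → Y} {x : E4} {s c : ℝ} (h : JB C f x s c) (hc : 0 ≤ c) :
    JB (fun k => |C k|) f x s c :=
  ⟨h.1, fun k => (h.2 k).trans (mul_le_mul_of_nonneg_right (le_abs_self _) hc)⟩

theorem JB.sum {α : Type} {C : ℕ → ℝ} {f : α → E4 → Y} {x : E4} {s c : ℝ} (I : Finset α)
    (hs : 0 ≤ s) (h : ∀ i ∈ I, JB C (f i) x s c) :
    JB (fun k => I.card * C k) (fun y => ∑ i ∈ I, f i y) x s c := by
  refine ⟨ContDiffAt.sum fun i hi => (h i hi).1, fun k => ?_⟩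
  rw [J1, iteratedFDeriv_fun_sum_apply fun i hi => (h i hi).1.of_le (kle k)]
  calc _ ≤ (∑ i ∈ I, ‖iteratedFDeriv ℝ k (f i) x‖) * s ^ k := by gcongr; exact norm_sum_le _ _
    _ ≤ ∑ _i ∈ I, C k * c := by
        rw [Finset.sum_mul]; exact Finset.sum_le_sum fun i hi => (h i hi).2 k
    _ = _ := by simp [mul_assoc]

theorem JB.mono {C C' : ℕ → ℝ} {f : E4 → Y} {x : E4} {s c : ℝ} (h : JB C f x s c) (hc : 0 ≤ c)
    (hC : ∀ k, C k ≤ C' k) : JB C' f x s c :=
  ⟨h.1, fun k => (h.2 k).trans (mul_le_mul_of_nonneg_right (hC k) hc)⟩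

/-- quotients -/
theorem jb_div (C : ℕ → ℝ) (N : ℝ) : ∃ C' : ℕ → ℝ, ∀ (u : E4 → ℝ) (v : E4 → E4) (s c : ℝ), 0 < s →
    0 < c → JB C u 0 s 1 → JB C v 0 s c → u 0 ∈ Icc 1 N →
    JB C' (fun y => (u y)⁻¹ • v y) 0 s c := by
  let ι := {t : (E4 → ℝ) × (E4 → E4) × ℝ × ℝ // 0 < t.2.2.1 ∧ 0 < t.2.2.2 ∧ JB C t.1 0 t.2.2.1 1 ∧
    JB C t.2.1 0 t.2.2.1 t.2.2.2 ∧ t.1 0 ∈ Icc 1 N}
  have h1 := gb_of_jb (ι := ι) (C := C) (f := fun j => j.1.1) (y := fun _ => 0)
    (s := fun j => j.1.2.2.1) (c := fun _ => 1) fun j => ⟨j.2.1, one_pos, by simpa using j.2.2.2.1⟩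
  have h2 := gb_of_jb (ι := ι) (C := C) (f := fun j => j.1.2.1) (y := fun _ => 0)
    (s := fun j => j.1.2.2.1) (c := fun j => j.1.2.2.2)
    fun j => ⟨j.2.1, j.2.2.1, by simpa using j.2.2.2.2.1⟩
  have h3 := (h1.smoothOn (Φ := fun t : ℝ => t⁻¹) (isCompact_Icc (a := 1) (b := N))
    (fun z hz => contDiffAt_id.inv (by have := hz.1; positivity))
    (Eventually.of_forall fun j => by simpa using j.2.2.2.2.2)).smul h2
  obtain ⟨C', hC'⟩ := jb_of_gb (ι := ι) (f := fun j y => (j.1.1 y)⁻¹ • j.1.2.1 y) (y := fun _ => 0)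
    (s := fun j => j.1.2.2.1) (c := fun j => j.1.2.2.2) (fun j => ⟨j.2.1, j.2.2.1⟩)
    (by simpa only [inv_one, one_smul, smul_comm (_ : ℝ) (_ : ℝ) (_ : E4)] using h3)
  exact ⟨C', fun u v s c a b d e f => by simpa using hC' ⟨(u, v, s, c), a, b, d, e, f⟩⟩

theorem fderiv_scale {T : E4 → E4} {s : ℝ} (hs : s ≠ 0) {y : E4}
    (h : DifferentiableAt ℝ T (s • y)) :
    fderiv ℝ (fun z => s⁻¹ • T (s • z)) y = fderiv ℝ T (s • y) := by
  have h1 : HasFDerivAt (fun z : E4 => s • z) (s • ContinuousLinearMap.id ℝ E4) y :=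
    (hasFDerivAt_id y).const_smul s
  refine ((h.hasFDerivAt.comp y h1).const_smul s⁻¹).fderiv.trans ?_
  ext1 v
  simp [smul_smul, hs]

theorem pull_scale {G1 G2 : MetricField 4} {T : E4 → E4} {V W : Set E4} (h : Pull G1 G2 T V W)
    {s : ℝ} (hs : s ≠ 0) : Pull (fun y => G1 (s • y)) (fun y => G2 (s • y))
      (fun z => s⁻¹ • T (s • z)) {y | s • y ∈ V} {y | s • y ∈ W} := by
  have hc : ContDiff ℝ ∞ fun z : E4 => s • z := by fun_prop
  have e : ∀ y, s • y ∈ V → fderiv ℝ (fun z => s⁻¹ • T (s • z)) y = fderiv ℝ T (s • y) :=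
    fun y hy => fderiv_scale hs ((h.contDiffAt hy).differentiableAt (by simp))
  refine ⟨h.isOpen.preimage hc.continuous, ⟨h.riem.isOpen.preimage hc.continuous,
    fun i j => (h.riem.contDiffOn i j).comp hc.contDiffOn fun _ hy => hy,
    fun y hy => h.riem.posDef _ hy⟩, fun y hy => ?_,
    (h.smooth.comp hc.contDiffOn fun _ hy => hy).const_smul _, fun y hy i j => ?_,
    fun y hy => ?_⟩
  · simpa [smul_smul, hs] using h.maps _ hy
  · rw [e y hy, smul_smul, mul_inv_cancel₀ hs, one_smul]; exact h.pull _ hy i j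
  · rw [e y hy]; exact h.inj _ hy

/-- metrics `δ + O(w)`: the Christoffel symbols are `O(w)` -/
theorem gam_w {l : Filter ι} {g : ι → MetricField 4} {x : ι → E4} {w : ι → ℝ}
    (hw : ∀ j, 0 < w j ∧ w j ≤ 2) (h : ∀ a b, GB l (fun j y => (w j)⁻¹ • dv (g j) a b y) x)
    (hp : ∀ j, Pos (1 / 2) (g j (x j))) :
    MB l g x ∧ GB l (fun j y => (w j)⁻¹ • Gam (g j) y) x := by
  have hwc : GB l (fun j (_ : E4) => w j) x := GB.const ⟨2, Eventually.of_forall fun j => by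
    rw [Real.norm_eq_abs, abs_of_pos (hw j).1]; exact (hw j).2⟩
  have hm : MB l g x := by
    refine ⟨fun a b => ?_, 1 / 2, by norm_num, Eventually.of_forall hp⟩
    have := (hwc.mul (h a b)).add (GB.const' ((1 : Matrix (Fin 4) (Fin 4) ℝ) a b))
    refine this.congr (Eventually.of_forall fun j => ⟨rfl, Eventually.of_forall fun y => ?_⟩)
    simp [dv, (hw j).1.ne']
  refine ⟨hm, ?_⟩
  have hd : ∀ i a b, GB l (fun j y => (w j)⁻¹ * pderiv i (fun z => g j z a b) y) x := fun i a b => by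
    refine ((h a b).ge.pd i).left.congr (Eventually.of_forall fun j =>
      ⟨rfl, Eventually.of_forall fun y => ?_⟩)
    have : fderiv ℝ (dv (g j) a b) y = fderiv ℝ (fun z => g j z a b) y := fderiv_sub_const _
    simp only [pderiv]
    rw [← this, show (fun y => (w j)⁻¹ • dv (g j) a b y) = (w j)⁻¹ • dv (g j) a b from rfl,
      fderiv_const_smul_field]
    simp
  have hc : ∀ c a b, GB l (fun j y => (w j)⁻¹ * christoffel (g j) y c a b) x := fun c a b => by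
    have := (GE.cmul (1 / 2) (GB.sum Finset.univ fun d _ => (hm.me.inv c d).left.mul
      (((hd a b d).add (hd b a d)).sub (hd d a b))).ge).left
    refine this.congr (Eventually.of_forall fun j => ⟨rfl, Eventually.of_forall fun y => ?_⟩)
    simp only [christoffel, inverseField, Finset.mul_sum]
    exact Finset.sum_congr rfl fun d _ => by ring
  have := GB.sum Finset.univ fun a _ => GB.sum Finset.univ fun b _ => GB.sum Finset.univ
    fun c (_ : c ∈ Finset.univ) => (hc c a b).smul (GB.const' (eijk a b c))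
  refine this.congr (Eventually.of_forall fun j => ⟨rfl, Eventually.of_forall fun y => ?_⟩)
  simp only [Gam, eijk, Finset.smul_sum, smul_smul]

/-- the right hand side of the equation for the second derivative -/
def isoS (p : (E4 →L[ℝ] E4 →L[ℝ] E4) × (E4 →L[ℝ] E4 →L[ℝ] E4) × (E4 →L[ℝ] E4)) :
    E4 →L[ℝ] E4 →L[ℝ] E4 := (ContinuousLinearMap.snd ℝ _ _).comp (isoR p)

theorem isoS_smooth : ContDiff ℝ ∞ isoS := contDiff_const.clm_comp isoR_smooth

/-- the data of the two chart lemma -/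
structure Tw (Cs : ℕ → ℝ) (B : ℝ) where
  G1 : MetricField 4
  G2 : MetricField 4
  T : E4 → E4
  V : Set E4
  W : Set E4
  s : ℝ
  w : ℝ
  r : ℝ
  d : E4
  L : E4 →L[ℝ] E4
  L2 : E4 →L[ℝ] E4
  hs : 0 < s
  hw : 0 < w
  hw2 : w ≤ 2
  pull : Pull G1 G2 T V W
  mem : 0 ∈ V
  z : ‖T 0‖ ≤ B * s
  j1 : JAll Cs G1 0 s w
  j2 : JAll Cs G2 (T 0) s w
  p1 : Pos (1 / 2) (G1 0)
  p2 : Pos (1 / 2) (G2 (T 0))
  hr : |r * s| ≤ B
  hL2 : ‖L2‖ ≤ B
  h0 : ‖d + L2 (T 0)‖ ≤ B * (w * s)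
  h1 : ‖L2.comp (fderiv ℝ T 0) - L‖ ≤ B * w

theorem gb_dv {Cs : ℕ → ℝ} {G : ι → MetricField 4} {U : ι → Set E4} {y : ι → E4} {s w : ι → ℝ}
    (h : ∀ j, 0 < s j ∧ 0 < w j ∧ IsRiemannianOn (G j) (U j) ∧ s j • y j ∈ U j ∧
      JAll Cs (G j) (s j • y j) (s j) (w j)) (a b : Fin 4) :
    GB ⊤ (fun j z => (w j)⁻¹ • dv (fun y => G j (s j • y)) a b z) y :=
  gb_of_jb (C := Cs) (f := fun j => dv (G j) a b) fun j => ⟨(h j).1, (h j).2.1,
    (((h j).2.2.1.contDiffOn a b).contDiffAt ((h j).2.2.1.isOpen.mem_nhds (h j).2.2.2.1)).sub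
      contDiffAt_const, fun k => (h j).2.2.2.2 k a b⟩

/-- **two charts** -/
theorem two (Cs : ℕ → ℝ) (B : ℝ) {χ : E4 → ℝ} (hχ : ContDiff ℝ ∞ χ) : ∃ C : ℕ → ℝ, ∀ t : Tw Cs B,
    JB C (fun y => χ (t.r • t.T y)) 0 t.s 1 ∧
      JB C (fun y => χ (t.r • t.T y) • (t.d + t.L2 (t.T y) - t.L y)) 0 t.s (t.w * t.s) := by
  set τ : Tw Cs B → E4 → E4 := fun t z => t.s⁻¹ • t.T (t.s • z) with hτ
  have P := fun t : Tw Cs B => pull_scale t.pull t.hs.ne'
  have m0 : ∀ t : Tw Cs B, (0 : E4) ∈ {y | t.s • y ∈ t.V} := fun t => by simpa using t.mem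
  have e0 : ∀ t : Tw Cs B, t.s • τ t 0 = t.T 0 := fun t => by simp [hτ, smul_smul, t.hs.ne']
  obtain ⟨a1, g1⟩ := gam_w (l := ⊤) (g := fun (t : Tw Cs B) y => t.G1 (t.s • y)) (x := fun _ => 0)
    (w := fun t => t.w) (fun t => ⟨t.hw, t.hw2⟩) (gb_dv (Cs := Cs) (U := fun t => t.V) fun t =>
      ⟨t.hs, t.hw, t.pull.riem', m0 t, by simpa using t.j1⟩) fun t => by simpa using t.p1
  obtain ⟨a2, g2⟩ := gam_w (l := ⊤) (g := fun (t : Tw Cs B) y => t.G2 (t.s • y))
    (x := fun t => τ t 0) (w := fun t => t.w) (fun t => ⟨t.hw, t.hw2⟩)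
    (gb_dv (Cs := Cs) (U := fun t => t.W) fun t => ⟨t.hs, t.hw, t.pull.riem, by
      rw [e0]; exact t.pull.maps _ t.mem, by rw [e0]; exact t.j2⟩) fun t => by
      simp only [e0]; exact t.p2
  have hT : GB ⊤ τ fun _ => 0 := iso_gb (Eventually.of_forall fun t => ⟨_, _, m0 t, P t⟩) a1 a2
    ⟨0, by simp⟩ ⟨B, Eventually.of_forall fun t => by
      have := t.z
      rw [← e0, norm_smul, Real.norm_eq_abs, abs_of_pos t.hs, mul_comm] at this
      exact le_of_mul_le_mul_right this t.hs⟩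
  have g2' := GB.comp (g := fun (t : Tw Cs B) y => t.w⁻¹ • Gam (fun y => t.G2 (t.s • y)) y) g2 hT
  have h2 : GB ⊤ (fun t z => t.w⁻¹ • fderiv ℝ (fderiv ℝ (τ t)) z) fun _ => 0 := by
    refine ((g1.prodMk (g2'.prodMk hT.fderiv)).smooth isoS_smooth).congr
      (Eventually.of_forall fun t => ⟨rfl, ?_⟩)
    filter_upwards [(P t).isOpen.mem_nhds (m0 t)] with z hz
    refine ContinuousLinearMap.ext fun X => ContinuousLinearMap.ext fun Y => ?_
    have := (P t).gam_eq hz X Y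
    simp only [isoS, isoR, hτ]
    simp [this, smul_add]
  have cL : GB ⊤ (fun (t : Tw Cs B) (_ : E4) => t.L2) fun _ => 0 :=
    GB.const ⟨B, Eventually.of_forall fun t => t.hL2⟩
  have hb : GB ⊤ (fun t z => χ ((t.r * t.s) • τ t z)) fun _ => 0 :=
    ((GB.const ⟨B, Eventually.of_forall fun t => t.hr⟩).smul hT).smooth hχ
  set D : Tw Cs B → E4 → E4 := fun t z => (t.w * t.s)⁻¹ • t.d + t.w⁻¹ • (t.L2 (τ t z) - t.L z)
  have sm : ∀ t : Tw Cs B, ∀ z, t.s • z ∈ t.V → ContDiffAt ℝ ∞ (τ t) z :=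
    fun t z hz => (P t).contDiffAt hz
  have smD : ∀ t : Tw Cs B, ContDiffAt ℝ ∞ (D t) 0 := fun t => contDiffAt_const.add
    (((t.L2.contDiff.contDiffAt.comp _ (sm t 0 (m0 t))).sub t.L.contDiff.contDiffAt).const_smul _)
  have dD : ∀ t : Tw Cs B, ∀ z, t.s • z ∈ t.V →
      fderiv ℝ (D t) z = t.w⁻¹ • (t.L2.comp (fderiv ℝ (τ t) z) - t.L) := fun t z hz =>
    ((((t.L2.hasFDerivAt.comp z ((sm t z hz).differentiableAt (by simp)).hasFDerivAt).sub
      t.L.hasFDerivAt).const_smul t.w⁻¹).const_add ((t.w * t.s)⁻¹ • t.d)).fderiv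
  have hD : GB ⊤ D fun _ => 0 := by
    refine gb_of_fderiv (Eventually.of_forall smD) ⟨B, Eventually.of_forall fun t => ?_⟩
      (gb_of_fderiv (Eventually.of_forall fun t => (smD t).fderiv_right (by simp))
        ⟨B, Eventually.of_forall fun t => ?_⟩ ?_)
    · have e : D t 0 = (t.w * t.s)⁻¹ • (t.d + t.L2 (t.T 0)) := by
        simp [D, hτ, smul_smul, mul_comm]
      rw [e, norm_smul, Real.norm_eq_abs, abs_of_pos (inv_pos.2 (mul_pos t.hw t.hs)),
        inv_mul_le_iff₀ (mul_pos t.hw t.hs), mul_comm]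
      exact t.h0
    · rw [dD t 0 (m0 t), fderiv_scale t.hs.ne'
        ((t.pull.contDiffAt (m0 t)).differentiableAt (by simp)), norm_smul, Real.norm_eq_abs,
        abs_of_pos (inv_pos.2 t.hw), inv_mul_le_iff₀ t.hw, mul_comm, smul_zero]
      exact t.h1
    · refine ((cL.prodMk h2).smooth (Φ := fun p => (ContinuousLinearMap.compL ℝ E4 E4 E4 p.1).comp
        p.2) (((ContinuousLinearMap.contDiff _).comp contDiff_fst).clm_comp contDiff_snd)).congr
        (Eventually.of_forall fun t => ⟨rfl, ?_⟩)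
      filter_upwards [(P t).isOpen.mem_nhds (m0 t)] with z hz
      have e : fderiv ℝ (D t) =ᶠ[𝓝 z] fun z => t.w⁻¹ • (t.L2.comp (fderiv ℝ (τ t) z) - t.L) := by
        filter_upwards [(P t).isOpen.mem_nhds hz] with y hy using dD t y hy
      have d2 : DifferentiableAt ℝ (fderiv ℝ (τ t)) z :=
        ((sm t z hz).fderiv_right (m := ∞) (by simp)).differentiableAt (by simp)
      rw [e.fderiv_eq]
      refine ((((ContinuousLinearMap.compL ℝ E4 E4 E4 t.L2).hasFDerivAt.comp z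
        d2.hasFDerivAt).sub_const t.L).const_smul t.w⁻¹).fderiv.trans ?_
      simp
  obtain ⟨C1, c1⟩ := jb_of_gb (f := fun (t : Tw Cs B) y => χ (t.r • t.T y)) (y := fun _ => 0)
    (s := fun t => t.s) (c := fun _ => 1) (fun t => ⟨t.hs, one_pos⟩)
    (hb.congr (Eventually.of_forall fun t => ⟨rfl, Eventually.of_forall fun z => by
      simp [hτ, smul_smul, t.hs.ne']⟩))
  obtain ⟨C2, c2⟩ := jb_of_gb (f := fun (t : Tw Cs B) y => χ (t.r • t.T y) •
      (t.d + t.L2 (t.T y) - t.L y)) (y := fun _ => 0)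
    (s := fun t => t.s) (c := fun t => t.w * t.s) (fun t => ⟨t.hs, mul_pos t.hw t.hs⟩)
    ((hb.smul hD).congr (Eventually.of_forall fun t => ⟨rfl, Eventually.of_forall fun z => by
      have e1 : (t.r * t.s) • τ t z = t.r • t.T (t.s • z) := by
        simp [hτ, smul_smul, t.hs.ne']
      have e2 : D t z = (t.w * t.s)⁻¹ • (t.d + t.L2 (t.T (t.s • z)) - t.L (t.s • z)) := by
        simp only [D, hτ, map_smul, smul_sub, smul_add, smul_smul, mul_inv, add_sub_assoc]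
        rw [mul_assoc, inv_mul_cancel₀ t.hs.ne', mul_one]
      simp only [e1, e2]
      rw [smul_comm]⟩))
  refine ⟨fun k => max (C1 k) (C2 k), fun t => ⟨?_, ?_⟩⟩
  · simpa using (c1 t).mono zero_le_one fun k => le_max_left _ (C2 k)
  · simpa using (c2 t).mono (mul_pos t.hw t.hs).le fun k => le_max_right (C1 k) _

end Crest.Agent.N207.H.Sm

end
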