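import Crest.Agent.N207.H.Smooth1
import Crest.Agent.N207.Rad.Crd

/-!
# Row 207, block H (helper45): `SMOOTH`, part 2: one chart
-/

set_option autoImplicit false
set_option linter.unusedSectionVars false

open scoped ContDiff Topology
open Set Filter Metric
open Crest.GeometryTopology.CoordMetric
open Crest.Agent.R202.Tens Crest.Agent.N207.Sk Crest.Agent.N207.Jt

noncomputable section

namespace Crest.Agent.N207.H.Sm

theorem wt_pos {a : ℝ} (b : ℝ) (ha : 0 < a) {x : E4} (hx : x ≠ 0) : 0 < wt a b x :=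
  add_pos_of_pos_of_nonneg (Real.sqrt_pos.2 (div_pos ha (norm_pos_iff.2 hx))) (Real.sqrt_nonneg _)

theorem wt_le_two {a b : ℝ} (ha : 0 < a) {x : E4} (hx : x ∈ shell a b) : wt a b x ≤ 2 := by
  have h0 : 0 < ‖x‖ := ha.trans hx.1
  have h1 : √(a / ‖x‖) ≤ 1 := Real.sqrt_le_one.2 ((div_le_one h0).2 hx.1.le)
  have h2 : √(‖x‖ / b) ≤ 1 := Real.sqrt_le_one.2 ((div_le_one (h0.trans hx.2)).2 hx.2.le)
  rw [wt]; linarith

theorem wt_cmp {a b : ℝ} (ha : 0 < a) (hb : 0 < b) {x y : E4} (hy : 0 < ‖y‖)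
    (h1 : ‖x‖ ≤ 4 * ‖y‖) (h2 : ‖y‖ ≤ 4 * ‖x‖) : wt a b x ≤ 2 * wt a b y := by
  have hx : 0 < ‖x‖ := by linarith
  have k : ∀ {u v : ℝ}, u ≤ 4 * v → √u ≤ 2 * √v := fun {u v} h => by
    rw [show (2 : ℝ) = √4 by rw [show (4 : ℝ) = 2 ^ 2 by norm_num, Real.sqrt_sq zero_le_two],
      ← Real.sqrt_mul (by norm_num)]
    exact Real.sqrt_le_sqrt h
  have a1 := k (u := a / ‖x‖) (v := a / ‖y‖) (by
    rw [← mul_div_assoc, div_le_div_iff₀ hx hy]; nlinarith)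
  have a2 := k (u := ‖x‖ / b) (v := ‖y‖ / b) (by rw [← mul_div_assoc]; gcongr)
  rw [wt, wt]; linarith

theorem ball_sub_shell {a b : ℝ} (ha : 0 < a) {p x : E4} (hp : p ∈ shell (2 * a) (b / 2))
    (hx : x ∈ ball p (‖p‖ / 4)) : x ∈ shell a b ∧ ‖p‖ ≤ 2 * ‖x‖ ∧ ‖x‖ ≤ 2 * ‖p‖ := by
  have h := abs_lt.1 ((abs_norm_sub_norm_le x p).trans_lt (mem_ball_iff_norm.1 hx))
  have h1 := hp.1
  have h2 := hp.2
  exact ⟨⟨by linarith [h.1], by linarith [h.2]⟩, by linarith [h.1], by linarith [h.2]⟩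

theorem le_two_mul {u v : ℝ} (hv : 0 ≤ v) (h : u ^ 2 ≤ 4 * v ^ 2) : u ≤ 2 * v :=
  (abs_le_of_sq_le_sq' (by linarith [mul_pow 2 v 2]) (by positivity)).2

theorem norm_gam_le {G : MetricField 4} {x : E4} {c : ℝ} (h : ∀ k i j, |christoffel G x k i j| ≤ c) :
    ‖Gam G x‖ ≤ 32 * c := by
  have hc : 0 ≤ c := (abs_nonneg _).trans (h 0 0 0)
  refine ContinuousLinearMap.opNorm_le_bound₂ _ (by positivity) fun X Y => ?_
  have h1 : ∀ k, Gam G x X Y k ^ 2 ≤ (16 * c * (‖X‖ * ‖Y‖)) ^ 2 := fun k => by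
    have := abs_bil_le (A := Matrix.of fun i j => christoffel G x k i j) (h k) X Y
    rw [bil_apply] at this
    rw [Gam_apply]
    refine sq_le_sq' (abs_le.1 (this.trans_eq ?_)).1 (abs_le.1 (this.trans_eq ?_)).2 <;> norm_num
  have := le_two_mul (u := ‖Gam G x X Y‖) (v := 16 * c * (‖X‖ * ‖Y‖)) (by positivity) (by
    rw [EuclideanSpace.real_norm_sq_eq, Fin.sum_univ_four]
    linarith [h1 0, h1 1, h1 2, h1 3])
  linarith

/-- the coframe read in the chart -/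
def Th (θ : E4 → E4 →L[ℝ] E4) (φ : E4 → E4) (z : E4) : E4 →L[ℝ] E4 :=
  (θ (φ z)).comp (fderiv ℝ φ z)

/-- the output of the one chart lemma -/
structure OC (θ : E4 → E4 →L[ℝ] E4) (Y : E4 → E4) (ρ w : ℝ) (p : E4) (φ : E4 → E4)
    (G' : MetricField 4) (ψ : E4 → E4) : Prop where
  up : ∀ z ∈ ball (0 : E4) ρ, ‖fderiv ℝ φ z‖ ≤ 2
  low : ∀ z ∈ ball (0 : E4) ρ, ∀ X, ‖X‖ ≤ 2 * ‖fderiv ℝ φ z X‖
  pos : ∀ z ∈ ball (0 : E4) ρ, Pos (1 / 2) (G' z)
  th : ∀ z ∈ ball (0 : E4) ρ, ‖Th θ φ 0 - Th θ φ z‖ ≤ w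
  val : ∀ z ∈ ball (0 : E4) ρ, ‖Y p - Y (φ z) + Th θ φ 0 z‖ ≤ 2 * (w * ρ)
  nth : ‖Th θ φ 0‖ ≤ 4
  opn : IsOpen (φ '' ball 0 ρ)
  sm : ContDiffOn ℝ ∞ ψ (φ '' ball 0 ρ)
  inv : ∀ z ∈ ball (0 : E4) ρ, ψ (φ z) = z
  surj : ∀ x, ‖x - p‖ ≤ ρ / 16 → ∃ z, ‖z‖ ≤ ρ / 4 ∧ φ z = x

/-- inverse of an almost linear map on a ball -/
theorem exists_inv {φ : E4 → E4} {ρ : ℝ} (hρ : 0 < ρ)
    (hs : ∀ z ∈ ball (0 : E4) ρ, ContDiffAt ℝ ∞ φ z)
    (hl : ∀ z ∈ ball (0 : E4) ρ, ∀ X, ‖X‖ ≤ 2 * ‖fderiv ℝ φ z X‖)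
    (hn : ∀ z ∈ ball (0 : E4) ρ, ‖fderiv ℝ φ z - fderiv ℝ φ 0‖ ≤ 1 / 4) :
    ∃ ψ : E4 → E4, IsOpen (φ '' ball 0 ρ) ∧ ContDiffOn ℝ ∞ ψ (φ '' ball 0 ρ) ∧
      (∀ z ∈ ball (0 : E4) ρ, ψ (φ z) = z) ∧
      ∀ x, ‖x - φ 0‖ ≤ ρ / 16 → ∃ z, ‖z‖ ≤ ρ / 4 ∧ φ z = x := by
  have h0 : (0 : E4) ∈ ball (0 : E4) ρ := mem_ball_self hρ
  have hi : ∀ z ∈ ball (0 : E4) ρ, Function.Injective (fderiv ℝ φ z) := fun z hz =>
    (injective_iff_map_eq_zero _).2 fun X hX => by simpa [hX] using hl z hz X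
  have ap : ∀ x ∈ ball (0 : E4) ρ, ∀ y ∈ ball (0 : E4) ρ,
      ‖φ x - φ y - fderiv ℝ φ 0 (x - y)‖ ≤ 1 / 4 * ‖x - y‖ := fun x hx y hy =>
    (convex_ball 0 ρ).norm_image_sub_le_of_norm_fderiv_le'
      (fun z hz => (hs z hz).differentiableAt (by simp)) hn hy hx
  have inj : InjOn φ (ball 0 ρ) := fun x hx y hy e => by
    have h1 := ap x hx y hy
    have h2 := hl 0 h0 (x - y)
    rw [e, sub_self, zero_sub, norm_neg] at h1
    exact sub_eq_zero.1 (norm_le_zero_iff.1 (by linarith))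
  have loc : ∀ z ∈ ball (0 : E4) ρ, ∃ (S : E4 → E4) (W : Set E4), IsOpen W ∧ φ z ∈ W ∧
      S (φ z) = z ∧ ContDiffOn ℝ ∞ S W ∧ ∀ w ∈ W, S w ∈ ball (0 : E4) ρ ∧ φ (S w) = w :=
    fun z hz => Gs.exists_loc_inv isOpen_ball hs hi hz
  refine ⟨Function.invFunOn φ (ball 0 ρ), isOpen_iff_mem_nhds.2 ?_, ?_,
    fun z hz => inj.leftInvOn_invFunOn hz, fun x hx => ?_⟩
  · rintro _ ⟨z, hz, rfl⟩
    obtain ⟨S, W, a, b, -, -, e⟩ := loc z hz
    exact mem_of_superset (a.mem_nhds b) fun w hw => ⟨S w, e w hw⟩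
  · rintro _ ⟨z, hz, rfl⟩
    obtain ⟨S, W, a, b, -, d, e⟩ := loc z hz
    refine ((d.contDiffAt (a.mem_nhds b)).congr_of_eventuallyEq ?_).contDiffWithinAt
    filter_upwards [a.mem_nhds b] with w hw
    have := inj.leftInvOn_invFunOn (e w hw).1
    rwa [(e w hw).2] at this
  · have su : Function.Surjective (fderiv ℝ φ 0) := (LinearMap.injective_iff_surjective
      (f := (fderiv ℝ φ 0 : E4 →ₗ[ℝ] E4))).1 (hi 0 h0)
    choose R hR using su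
    let N : (fderiv ℝ φ 0).NonlinearRightInverse :=
      ⟨R, 2, fun y => by simpa [hR] using hl 0 h0 (R y), hR⟩
    have hA : ApproximatesLinearOn φ (fderiv ℝ φ 0) (ball 0 ρ) (1 / 4) := fun x hx y hy => by
      simpa using ap x hx y hy
    obtain ⟨z, hz, e⟩ := hA.surjOn_closedBall_of_nonlinearRightInverse N (ε := ρ / 4) (b := 0)
      (by positivity) (closedBall_subset_ball (by linarith)) (a := x) (by
        rw [mem_closedBall_iff_norm]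
        refine hx.trans (le_of_eq ?_)
        simp only [N]; push_cast; ring)
    exact ⟨z, by simpa using hz, e⟩

variable {Cs : ℕ → ℝ} {G G' : MetricField 4} {Γ : Subgroup (E4 ≃ₗᵢ[ℝ] E4)} {a b c e : ℝ}
  {θ : E4 → E4 →L[ℝ] E4} {Y φ : E4 → E4} {p : E4}

theorem norm_theta (h : FD G Γ a b (1 / 100) θ Y) {x : E4} (hx : x ∈ shell a b) : ‖θ x‖ ≤ 2 := by
  refine ContinuousLinearMap.opNorm_le_bound _ zero_le_two fun u => le_two_mul (norm_nonneg _) ?_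
  have h1 := (abs_le.1 (h.iso x hx u u)).2
  have h2 := (abs_le.1 (h.near x hx u u)).2
  rw [real_inner_self_eq_norm_sq] at h1 h2
  have := wt_le_two h.a_pos hx
  nlinarith [mul_le_mul_of_nonneg_right this (mul_self_nonneg ‖u‖), sq_nonneg ‖u‖]

/-- the chart metric on a small ball -/
theorem lch_jg {w : ℝ} (k : LCh Cs G c w p φ G') (hw : 0 < w) (hp : 0 < ‖p‖) (hec : e ≤ c)
    (he : 0 < e) {z : E4} (hz : z ∈ ball (0 : E4) (e * ‖p‖)) :
    JG 1 G' z (e * ‖p‖) ((|Cs 1| + 1) * w * e) := by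
  have sub : ball (0 : E4) (e * ‖p‖) ⊆ ball 0 (c * ‖p‖) := ball_subset_ball (by gcongr)
  have d1 : ∀ i j, ∀ y ∈ ball (0 : E4) (e * ‖p‖),
      ‖fderiv ℝ (dv G' i j) y‖ ≤ (|Cs 1| + 1) * w / ‖p‖ := fun i j y hy => by
    have := k.jet y (sub hy) 1 i j
    rw [J1, ← norm_iteratedFDeriv_fderiv, norm_iteratedFDeriv_zero, pow_one] at this
    rw [le_div_iff₀ hp]
    exact this.trans (mul_le_mul_of_nonneg_right (by linarith [le_abs_self (Cs 1)]) hw.le)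
  intro m hm i j
  interval_cases m
  · have := (convex_ball (0 : E4) (e * ‖p‖)).norm_image_sub_le_of_norm_fderiv_le (f := dv G' i j)
      (fun y hy => (differentiableAt_entry k.pull.riem' (sub hy) i j).sub_const _) (d1 i j)
      (mem_ball_self (by positivity)) hz
    have e0 : dv G' i j 0 = 0 := by simp [dv, k.one]
    rw [J1, norm_iteratedFDeriv_zero, pow_zero, mul_one]
    rw [e0, sub_zero, sub_zero] at this
    refine this.trans ?_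
    calc _ ≤ (|Cs 1| + 1) * w / ‖p‖ * (e * ‖p‖) := by gcongr; exact (mem_ball_zero_iff.1 hz).le
      _ = _ := by field_simp
  · rw [J1, ← norm_iteratedFDeriv_fderiv, norm_iteratedFDeriv_zero, pow_one]
    calc _ ≤ (|Cs 1| + 1) * w / ‖p‖ * (e * ‖p‖) := by gcongr; exact d1 i j z hz
      _ = _ := by field_simp

set_option maxHeartbeats 1000000 in
/-- **one chart** -/
theorem one (h : FD G Γ a b (1 / 100) θ Y) (hp : p ∈ shell (2 * a) (b / 2))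
    (k : LCh Cs G c (wt a b p) p φ G') (hec : e ≤ c) (he : 0 < e)
    (heA : (|Cs 1| + 1) * e ≤ 1 / 20000) : ∃ ψ, OC θ Y (e * ‖p‖) (wt a b p) p φ G' ψ := by
  have ha := h.a_pos
  have hs : 0 < ‖p‖ := lt_trans (by linarith) hp.1
  have hb : 0 < b := by linarith [hp.2]
  have hp' : p ∈ shell a b := (ball_sub_shell ha hp (mem_ball_self (by positivity))).1
  set w := wt a b p with hwd
  set A := |Cs 1| + 1 with hA
  have hA1 : 1 ≤ A := by linarith [abs_nonneg (Cs 1)]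
  have hw : 0 < w := wt_pos b ha (norm_pos_iff.1 hs)
  have hw2 : w ≤ 2 := wt_le_two ha hp'
  have sub : ball (0 : E4) (e * ‖p‖) ⊆ ball 0 (c * ‖p‖) := ball_subset_ball (by gcongr)
  have h0 : (0 : E4) ∈ ball (0 : E4) (e * ‖p‖) := mem_ball_self (by positivity)
  have hη : A * w * e ≤ 1 / 100 := by nlinarith
  have jg := fun z hz => lch_jg k hw hs hec he (z := z) hz
  have sh := fun z hz => ball_sub_shell ha hp (k.pull.maps z (sub hz))
  have wx : ∀ z ∈ ball (0 : E4) (e * ‖p‖), wt a b (φ z) ≤ 2 * w := fun z hz =>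
    wt_cmp ha hb hs (by linarith [(sh z hz).2.2]) (by linarith [(sh z hz).2.1])
  have bl : ∀ z ∈ ball (0 : E4) (e * ‖p‖), ∀ X, ‖X‖ ^ 2 ≤ 4 * ‖fderiv ℝ φ z X‖ ^ 2 ∧
      ‖fderiv ℝ φ z X‖ ^ 2 ≤ 4 * ‖X‖ ^ 2 := fun z hz X => by
    have h1 := Rad.jg_low (jg z hz) hη X
    have h2 := Rad.jg_up (jg z hz) hη X
    have h3 := abs_le.1 (h.near _ (sh z hz).1 (fderiv ℝ φ z X) (fderiv ℝ φ z X))
    rw [← k.pull.bil_eq (sub hz), real_inner_self_eq_norm_sq] at h3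
    constructor <;> nlinarith [h3.1, h3.2, sq_nonneg ‖fderiv ℝ φ z X‖]
  have upX := fun z hz X => le_two_mul (norm_nonneg _) (bl z hz X).2
  have up : ∀ z ∈ ball (0 : E4) (e * ‖p‖), ‖fderiv ℝ φ z‖ ≤ 2 := fun z hz =>
    ContinuousLinearMap.opNorm_le_bound _ zero_le_two (upX z hz)
  have low := fun z hz X => le_two_mul (norm_nonneg _) (bl z hz X).1
  have gm : ∀ z ∈ ball (0 : E4) (e * ‖p‖), ∀ X Y,
      ‖fderiv ℝ φ z (Gam G' z X Y)‖ ≤ 768 * A * w / ‖p‖ * ‖X‖ * ‖Y‖ := fun z hz X Y => by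
    have h1 := norm_gam_le (Rad.jg_chr k.pull.riem' (sub hz) (jg z hz) hη le_rfl (by positivity))
    have h2 := (Gam G' z).le_opNorm₂ X Y
    refine (upX z hz _).trans ?_
    calc _ ≤ 2 * (32 * (12 * (A * w * e / (e * ‖p‖))) * ‖X‖ * ‖Y‖) := by
          refine mul_le_mul_of_nonneg_left (h2.trans ?_) zero_le_two
          gcongr
      _ = _ := by field_simp; ring
  have sm := fun z hz => k.pull.contDiffAt (y := z) (sub hz)
  have d1 := fun z hz => (sm z hz).differentiableAt (by simp)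
  have d2 : ∀ z ∈ ball (0 : E4) (e * ‖p‖), DifferentiableAt ℝ (fderiv ℝ φ) z := fun z hz =>
    ((sm z hz).fderiv_right (m := ∞) (by simp)).differentiableAt (by simp)
  have mv : ∀ {f : E4 → E4 →L[ℝ] E4} {K : ℝ}, 0 ≤ K →
      (∀ z ∈ ball (0 : E4) (e * ‖p‖), DifferentiableAt ℝ f z ∧
        ∀ X Y, ‖fderiv ℝ f z X Y‖ ≤ K / ‖p‖ * ‖X‖ * ‖Y‖) →
      ∀ z ∈ ball (0 : E4) (e * ‖p‖), ‖f z - f 0‖ ≤ K * e := fun {f K} hK hf z hz => by
    have := (convex_ball (0 : E4) (e * ‖p‖)).norm_image_sub_le_of_norm_fderiv_le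
      (fun y hy => (hf y hy).1) (fun y hy => ContinuousLinearMap.opNorm_le_bound₂ _
        (by positivity) (hf y hy).2) h0 hz
    refine this.trans ?_
    rw [sub_zero]
    calc _ ≤ K / ‖p‖ * (e * ‖p‖) := by gcongr; exact (mem_ball_zero_iff.1 hz).le
      _ = _ := by field_simp
  have nr : ∀ z ∈ ball (0 : E4) (e * ‖p‖), ‖fderiv ℝ φ z - fderiv ℝ φ 0‖ ≤ 1 / 4 := fun z hz => by
    refine (mv (K := 2000 * A) (by positivity) (fun z hz => ⟨d2 z hz, fun X Y => ?_⟩) z hz).trans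
      (by linarith)
    rw [eq_sub_of_add_eq' (k.pull.gam_eq (sub hz) X Y).symm]
    have h1 : ‖Gam G (φ z)‖ ≤ 1 / ‖p‖ := by
      rw [le_div_iff₀ hs]
      nlinarith [h.gam _ (sh z hz).1, (sh z hz).2.1, norm_nonneg (Gam G (φ z))]
    have h2 : ‖Gam G (φ z) (fderiv ℝ φ z X) (fderiv ℝ φ z Y)‖ ≤ 1 / ‖p‖ * (2 * ‖X‖) * (2 * ‖Y‖) :=
      ((Gam G (φ z)).le_opNorm₂ _ _).trans (by gcongr; exacts [upX z hz X, upX z hz Y])
    refine (norm_sub_le _ _).trans ((add_le_add (gm z hz X Y) h2).trans ?_)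
    have : 0 ≤ ‖X‖ * ‖Y‖ / ‖p‖ := by positivity
    calc _ = (768 * A * w + 4) * (‖X‖ * ‖Y‖ / ‖p‖) := by ring
      _ ≤ (2000 * A) * (‖X‖ * ‖Y‖ / ‖p‖) := by gcongr; nlinarith
      _ = _ := by ring
  have th : ∀ z ∈ ball (0 : E4) (e * ‖p‖), ‖Th θ φ z - Th θ φ 0‖ ≤ w := fun z hz => by
    refine (mv (K := 2000 * A * w) (by positivity) (fun z hz => ?_) z hz).trans (by nlinarith)
    have hd := ((h.dθ _ (sh z hz).1).hasFDerivAt.comp z (d1 z hz).hasFDerivAt).clm_comp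
      (d2 z hz).hasFDerivAt
    refine ⟨hd.differentiableAt, fun X Y => ?_⟩
    have e1 : fderiv ℝ (Th θ φ) z X Y = (fderiv ℝ θ (φ z) (fderiv ℝ φ z X) (fderiv ℝ φ z Y) -
        θ (φ z) (Gam G (φ z) (fderiv ℝ φ z X) (fderiv ℝ φ z Y))) +
          θ (φ z) (fderiv ℝ φ z (Gam G' z X Y)) := by
      rw [show fderiv ℝ (Th θ φ) z = _ from hd.fderiv, k.pull.gam_eq (sub hz) X Y]
      simp only [map_add, add_apply, ContinuousLinearMap.comp_apply,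
        ContinuousLinearMap.compL_apply, ContinuousLinearMap.flip_apply, Function.comp]
      abel
    have h1 : ‖fderiv ℝ θ (φ z) (fderiv ℝ φ z X) (fderiv ℝ φ z Y) -
        θ (φ z) (Gam G (φ z) (fderiv ℝ φ z X) (fderiv ℝ φ z Y))‖ ≤ w / ‖p‖ * ‖X‖ * ‖Y‖ := by
      have h2 := (h.par _ (sh z hz).1 (fderiv ℝ φ z X) (fderiv ℝ φ z Y)).trans
        (show _ ≤ 1 / 100 * (2 * w) * (2 * ‖X‖) * (2 * ‖Y‖) by
          gcongr; exacts [wx z hz, upX z hz X, upX z hz Y])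
      rw [div_mul_eq_mul_div, div_mul_eq_mul_div, le_div_iff₀ hs]
      have h3 : 0 ≤ w * ‖X‖ * ‖Y‖ := by positivity
      nlinarith [mul_le_mul_of_nonneg_left (sh z hz).2.1 (norm_nonneg (fderiv ℝ θ (φ z)
        (fderiv ℝ φ z X) (fderiv ℝ φ z Y) -
          θ (φ z) (Gam G (φ z) (fderiv ℝ φ z X) (fderiv ℝ φ z Y))))]
    have h2 : ‖θ (φ z) (fderiv ℝ φ z (Gam G' z X Y))‖ ≤ 2 * (768 * A * w / ‖p‖ * ‖X‖ * ‖Y‖) :=
      ((θ (φ z)).le_opNorm _).trans (by gcongr; exacts [norm_theta h (sh z hz).1, gm z hz X Y])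
    rw [e1]
    refine (norm_add_le _ _).trans ((add_le_add h1 h2).trans ?_)
    have : 0 ≤ w * ‖X‖ * ‖Y‖ / ‖p‖ := by positivity
    calc _ = (1 + 1536 * A) * (w * ‖X‖ * ‖Y‖ / ‖p‖) := by ring
      _ ≤ (2000 * A) * (w * ‖X‖ * ‖Y‖ / ‖p‖) := by gcongr; linarith
      _ = _ := by ring
  obtain ⟨ψ, a1, a2, a3, a4⟩ := exists_inv (by positivity) sm low nr
  refine ⟨ψ, up, low, fun z hz => ⟨metric_symm k.pull.riem' (sub hz), fun v => ?_⟩,
    fun z hz => by rw [norm_sub_rev]; exact th z hz, fun z hz => ?_, ?_, a1, a2, a3,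
    by simpa only [k.ctr] using a4⟩
  · linarith [Rad.jg_low (jg z hz) hη v]
  · have hd := fun y hy => (h.dY _ (sh y hy).1).hasFDerivAt.comp y (d1 y hy).hasFDerivAt
    have := (convex_ball (0 : E4) (e * ‖p‖)).norm_image_sub_le_of_norm_fderiv_le' (C := 2 * w)
      (φ := Th θ φ 0) (fun y hy => (hd y hy).differentiableAt) (fun y hy => ?_) h0 hz
    · simp only [Function.comp, k.ctr, sub_zero] at this
      rw [← norm_neg, show -(Y p - Y (φ z) + Th θ φ 0 z) = Y (φ z) - Y p - Th θ φ 0 z by abel]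
      refine this.trans ?_
      rw [mul_assoc]; gcongr; exact (mem_ball_zero_iff.1 hz).le
    · rw [(hd y hy).fderiv, show (fderiv ℝ Y (φ y)).comp (fderiv ℝ φ y) - Th θ φ 0 =
        (fderiv ℝ Y (φ y) - θ (φ y)).comp (fderiv ℝ φ y) + (Th θ φ y - Th θ φ 0) by
          rw [ContinuousLinearMap.sub_comp]; exact (sub_add_sub_cancel _ _ _).symm]
      have h1 : ‖(fderiv ℝ Y (φ y) - θ (φ y)).comp (fderiv ℝ φ y)‖ ≤ 1 / 100 * (2 * w) * 2 :=
        (ContinuousLinearMap.opNorm_comp_le _ _).trans (mul_le_mul ((h.der _ (sh y hy).1).trans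
          (by gcongr; exact wx y hy)) (up y hy) (norm_nonneg _) (by positivity))
      exact (norm_add_le _ _).trans (by linarith [th y hy])
  · exact (ContinuousLinearMap.opNorm_comp_le _ _).trans ((mul_le_mul (norm_theta h (sh 0 h0).1)
      (up 0 h0) (norm_nonneg _) zero_le_two).trans (by norm_num))

end Crest.Agent.N207.H.Sm

end
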