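import Crest.Agent.N207.H.Smooth2

/-!
# Row 207, block H (helper45): `SMOOTH`, part 3: the cover, the bump functions, pairs of charts
-/

set_option autoImplicit false
set_option linter.unusedSectionVars false

open scoped ContDiff Topology
open Set Filter Metric
open Crest.GeometryTopology.CoordMetric
open Crest.Agent.R202.Tens Crest.Agent.N207.Sk Crest.Agent.N207.Jt

noncomputable section

namespace Crest.Agent.N207.H.Sm

/-- a scale invariant cover of bounded multiplicity -/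
theorem cover {ε : ℝ} (hε : 0 < ε) : ∃ N : ℕ, ∀ a b : ℝ, 0 < a → ∃ I : Finset E4,
    (∀ p ∈ I, p ∈ shell (2 * a) (b / 2)) ∧
    (∀ x ∈ shell (4 * a) (b / 4), ∃ p ∈ I, ‖x - p‖ ≤ ε * ‖p‖) ∧
    ∀ (x : E4) (J : Finset E4), J ⊆ I → (∀ p ∈ J, x ∈ ball p (‖p‖ / 4)) → J.card ≤ N := by
  classical
  obtain ⟨Q, hQ, fQ, cQ⟩ := finite_cover_balls_of_compact
    ((isCompact_closedBall (0 : E4) 2).diff (isOpen_ball (x := 0) (ε := 1))) hε
  have nQ : ∀ q ∈ Q, 1 ≤ ‖q‖ ∧ ‖q‖ ≤ 2 := fun q hq => by simpa [and_comm] using hQ hq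
  let F : ℤ → ℤ → Finset E4 := fun m n =>
    (Finset.Icc m n ×ˢ fQ.toFinset).image fun t => (2 : ℝ) ^ t.1 • t.2
  have mF : ∀ m n x, x ∈ F m n ↔ ∃ j, m ≤ j ∧ j ≤ n ∧ ∃ q ∈ Q, (2 : ℝ) ^ j • q = x :=
    fun m n x => by simp [F, and_assoc]
  have lt : ∀ {i j : ℤ}, (2 : ℝ) ^ i < 2 ^ j → i < j := fun h =>
    (zpow_lt_zpow_iff_right₀ one_lt_two).1 h
  have ns : ∀ (j : ℤ) (q : E4), ‖(2 : ℝ) ^ j • q‖ = 2 ^ j * ‖q‖ := fun j q => by
    rw [norm_smul, Real.norm_eq_abs, abs_of_pos (by positivity)]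
  refine ⟨3 * fQ.toFinset.card, fun a b ha => ?_⟩
  obtain ⟨m0, h0, -⟩ := exists_mem_Ico_zpow ha one_lt_two
  obtain ⟨n0, -, h1⟩ := exists_mem_Ico_zpow (show 0 < |b| + 1 by positivity) one_lt_two
  refine ⟨(F m0 n0).filter (· ∈ shell (2 * a) (b / 2)), fun p hp => (Finset.mem_filter.1 hp).2,
    fun x hx => ?_, fun x J hJ hx => ?_⟩
  · have hx0 : 0 < ‖x‖ := lt_trans (by linarith) hx.1
    obtain ⟨m, a1, a2⟩ := exists_mem_Ico_zpow hx0 one_lt_two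
    have hm : (0 : ℝ) < 2 ^ m := by positivity
    rw [zpow_add_one₀ two_ne_zero] at a2
    have e : (2 : ℝ) ^ m • (2 : ℝ) ^ (-m) • x = x := by simp [smul_smul, hm.ne']
    have hn : 2 ^ m * ‖(2 : ℝ) ^ (-m) • x‖ = ‖x‖ := by rw [← ns, e]
    obtain ⟨q, hq, hxq⟩ : ∃ q ∈ Q, (2 : ℝ) ^ (-m) • x ∈ ball q ε := by
      simpa using cQ (a := (2 : ℝ) ^ (-m) • x) ⟨mem_closedBall_zero_iff.2 (by nlinarith),
        fun h => by have := mem_ball_zero_iff.1 h; nlinarith⟩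
    obtain ⟨q1, q2⟩ := nQ q hq
    refine ⟨(2 : ℝ) ^ m • q, Finset.mem_filter.2 ⟨(mF _ _ _).2 ⟨m, ?_, ?_, q, hq, rfl⟩, ?_, ?_⟩, ?_⟩
    · exact Int.lt_add_one_iff.1 (lt (by rw [zpow_add_one₀ two_ne_zero]; linarith [hx.1]))
    · exact Int.lt_add_one_iff.1 (lt (by linarith [hx.2, le_abs_self b, abs_nonneg b]))
    · rw [ns]; nlinarith [hx.1]
    · rw [ns]; nlinarith [hx.2]
    · rw [← e, ← smul_sub, ns, ns, mul_left_comm]
      have := mem_ball_iff_norm.1 hxq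
      gcongr
      nlinarith
  · rcases J.eq_empty_or_nonempty with rfl | ⟨p0, hp0⟩
    · simp
    have cm : ∀ p ∈ J, 3 * ‖p‖ < 4 * ‖x‖ ∧ 4 * ‖x‖ < 5 * ‖p‖ := fun p hp => by
      have h := abs_lt.1 ((abs_norm_sub_norm_le x p).trans_lt (mem_ball_iff_norm.1 (hx p hp)))
      exact ⟨by linarith [h.1], by linarith [h.2]⟩
    have hx0 : 0 < ‖x‖ := by linarith [(cm p0 hp0).1, norm_nonneg p0]
    obtain ⟨m, a1, a2⟩ := exists_mem_Ico_zpow hx0 one_lt_two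
    have : J ⊆ F (m - 1) (m + 1) := fun p hp => by
      obtain ⟨j, -, -, q, hq, rfl⟩ := (mF _ _ _).1 (Finset.mem_filter.1 (hJ hp)).1
      obtain ⟨q1, q2⟩ := nQ q hq
      obtain ⟨c1, c2⟩ := cm _ hp
      rw [ns] at c1 c2
      have hj : (0 : ℝ) < 2 ^ j := by positivity
      refine (mF _ _ _).2 ⟨j, ?_, ?_, q, hq, rfl⟩
      · have : m < j + 1 + 1 := lt (by
          rw [zpow_add_one₀ two_ne_zero, zpow_add_one₀ two_ne_zero]; nlinarith)
        omega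
      · exact Int.lt_add_one_iff.1 (lt (by rw [zpow_add_one₀ two_ne_zero]; nlinarith))
    refine (Finset.card_le_card this).trans (Finset.card_image_le.trans ?_)
    rw [Finset.card_product, Int.card_Icc, show m + 1 + 1 - (m - 1) = 3 by ring]
    rfl

/-- the model bump -/
def chi : ContDiffBump (0 : E4) := ⟨1 / 4, 1 / 2, by norm_num, by norm_num⟩

/-- the bump of a chart -/
def bet (ρ : ℝ) (φ ψ : E4 → E4) : E4 → ℝ := (φ '' ball 0 ρ).indicator fun x => chi (ρ⁻¹ • ψ x)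

section
variable {θ : E4 → E4 →L[ℝ] E4} {Y φ ψ : E4 → E4} {ρ w : ℝ} {p x : E4} {G' : MetricField 4}

theorem bet_nonneg (ρ : ℝ) (φ ψ : E4 → E4) (x : E4) : 0 ≤ bet ρ φ ψ x :=
  indicator_nonneg (fun _ _ => chi.nonneg) x

theorem OC.bet_eq (o : OC θ Y ρ w p φ G' ψ) (hx : x ∈ φ '' ball 0 ρ) :
    bet ρ φ ψ =ᶠ[𝓝 x] fun x => chi (ρ⁻¹ • ψ x) := by
  filter_upwards [o.opn.mem_nhds hx] with y hy using indicator_of_mem hy _

theorem OC.bet_zero (o : OC θ Y ρ w p φ G' ψ) (hρ : 0 < ρ) (hφ : ContinuousOn φ (ball 0 ρ))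
    (hx : x ∉ φ '' closedBall 0 (ρ / 2)) : ∀ᶠ y in 𝓝 x, bet ρ φ ψ y = 0 := by
  have hK : IsCompact (φ '' closedBall 0 (ρ / 2)) := (isCompact_closedBall _ _).image_of_continuousOn
    (hφ.mono (closedBall_subset_ball (by linarith)))
  filter_upwards [hK.isClosed.isOpen_compl.mem_nhds hx] with y hy
  refine indicator_apply_eq_zero.2 ?_
  rintro ⟨z, hz, rfl⟩
  have : ρ / 2 < ‖z‖ := not_le.1 fun h => hy ⟨z, mem_closedBall_zero_iff.2 h, rfl⟩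
  refine chi.zero_of_le_dist ?_
  rw [o.inv z hz, dist_zero_right, norm_smul, Real.norm_eq_abs, abs_of_pos (inv_pos.2 hρ),
    le_inv_mul_iff₀ hρ]
  simp only [chi]; linarith

theorem OC.bet_one (o : OC θ Y ρ w p φ G' ψ) (hρ : 0 < ρ) (hx : ‖x - p‖ ≤ ρ / 16) :
    bet ρ φ ψ x = 1 := by
  obtain ⟨z, hz, rfl⟩ := o.surj x hx
  have hz' : z ∈ ball (0 : E4) ρ := mem_ball_zero_iff.2 (by linarith)
  rw [bet, indicator_of_mem (mem_image_of_mem φ hz'), o.inv z hz']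
  refine chi.one_of_mem_closedBall ?_
  rw [mem_closedBall_zero_iff, norm_smul, Real.norm_eq_abs, abs_of_pos (inv_pos.2 hρ),
    inv_mul_le_iff₀ hρ]
  simp only [chi]; linarith

theorem OC.bet_smul (o : OC θ Y ρ w p φ G' ψ) (hρ : 0 < ρ) (hφ : ContinuousOn φ (ball 0 ρ))
    {F : Type} [NormedAddCommGroup F] [NormedSpace ℝ F] {f : E4 → F} (hf : ContDiff ℝ ∞ f) (x : E4) :
    ContDiffAt ℝ ∞ (fun y => bet ρ φ ψ y • f (ψ y)) x := by
  by_cases hx : x ∈ φ '' closedBall 0 (ρ / 2)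
  · have hx' : x ∈ φ '' ball 0 ρ := image_mono (closedBall_subset_ball (by linarith)) hx
    have h1 := o.sm.contDiffAt (o.opn.mem_nhds hx')
    exact ((chi.contDiff.contDiffAt.comp x (h1.const_smul ρ⁻¹)).congr_of_eventuallyEq
      (o.bet_eq hx')).smul (hf.contDiffAt.comp x h1)
  · refine (contDiffAt_const (c := 0)).congr_of_eventuallyEq ?_
    filter_upwards [o.bet_zero hρ hφ hx] with y hy
    rw [hy, zero_smul]

end

/-- lifting a chart through another one -/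
theorem pull_lift {G G1 G2 : MetricField 4} {φ φ2 T : E4 → E4} {V V2 V0 U U2 : Set E4}
    (h1 : Pull G1 G φ V U) (h2 : Pull G2 G φ2 V2 U2) (h0 : IsOpen V0) (hV : V0 ⊆ V)
    (hT : ContDiffOn ℝ ∞ T V0) (hm : ∀ y ∈ V0, T y ∈ V2 ∧ φ2 (T y) = φ y) :
    Pull G1 G2 T V0 V2 ∧ ∀ y ∈ V0, (fderiv ℝ φ2 (T y)).comp (fderiv ℝ T y) = fderiv ℝ φ y := by
  have e : ∀ y ∈ V0, (fderiv ℝ φ2 (T y)).comp (fderiv ℝ T y) = fderiv ℝ φ y := fun y hy => by
    rw [← fderiv_comp y ((h2.contDiffAt (hm y hy).1).differentiableAt (by simp))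
      ((hT.contDiffAt (h0.mem_nhds hy)).differentiableAt (by simp))]
    refine EventuallyEq.fderiv_eq ?_
    filter_upwards [h0.mem_nhds hy] with z hz using (hm z hz).2
  refine ⟨⟨h0, h2.riem', fun y hy => (hm y hy).1, hT, fun y hy i j => ?_, fun y hy => ?_⟩, e⟩
  · rw [← bil_apply, h2.bil_eq (hm y hy).1, (hm y hy).2, ← Gs.bil_single (G1 y), h1.bil_eq (hV hy),
      ← e y hy]
    rfl
  · have := h1.inj y (hV hy)
    rw [← e y hy] at this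
    exact Function.Injective.of_comp (f := fderiv ℝ φ2 (T y)) this

theorem jall_scale {Cs : ℕ → ℝ} {G : MetricField 4} {x : E4} {s s' w w' : ℝ} (h : JAll Cs G x s w)
    (h0 : 0 ≤ s') (hs : s' ≤ 2 * s) (hw0 : 0 ≤ w) (hw : w ≤ 2 * w') :
    JAll (fun k => 2 ^ (k + 1) * |Cs k|) G x s' w' := fun k i j => by
  have := h k i j
  rw [J1] at this ⊢
  calc _ ≤ ‖iteratedFDeriv ℝ k (dv G i j) x‖ * (2 * s) ^ k := by gcongr
    _ = 2 ^ k * (‖iteratedFDeriv ℝ k (dv G i j) x‖ * s ^ k) := by ring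
    _ ≤ 2 ^ k * (|Cs k| * (2 * w')) := mul_le_mul_of_nonneg_left
        (this.trans (mul_le_mul (le_abs_self _) hw hw0 (abs_nonneg _))) (by positivity)
    _ = _ := by ring

/-- **pairs of charts** -/
theorem pair (Cs : ℕ → ℝ) {c e : ℝ} (hec : e ≤ c) (he : 0 < e)
    (heA : (|Cs 1| + 1) * e ≤ 1 / 20000) : ∃ C : ℕ → ℝ, ∀ {G G1 G2 : MetricField 4}
    {Γ : Subgroup (E4 ≃ₗᵢ[ℝ] E4)} {a b : ℝ} {θ : E4 → E4 →L[ℝ] E4} {Y φ φ2 ψ2 : E4 → E4}
    {p p2 : E4}, FD G Γ a b (1 / 100) θ Y → p ∈ shell (2 * a) (b / 2) →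
    p2 ∈ shell (2 * a) (b / 2) → LCh Cs G c (wt a b p) p φ G1 → LCh Cs G c (wt a b p2) p2 φ2 G2 →
    OC θ Y (e * ‖p2‖) (wt a b p2) p2 φ2 G2 ψ2 → p ∈ φ2 '' ball 0 (e * ‖p2‖) →
    JB C (fun y => bet (e * ‖p2‖) φ2 ψ2 (φ y)) 0 ‖p‖ 1 ∧
      JB C (fun y => bet (e * ‖p2‖) φ2 ψ2 (φ y) •
        (Y p2 + Th θ φ2 0 (ψ2 (φ y)) - (Y p + Th θ φ 0 y))) 0 ‖p‖ (wt a b p * ‖p‖) := by
  obtain ⟨C, hC⟩ := two (fun k => 2 ^ (k + 1) * |Cs k|) (8 + 2 / e) (χ := chi) chi.contDiff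
  refine ⟨C, fun {G G1 G2 Γ a b θ Y φ φ2 ψ2 p p2} h hp hp2 k k2 o2 hm => ?_⟩
  obtain ⟨ψ, o⟩ := one h hp k hec he heA
  obtain ⟨z, hz, ez⟩ := hm
  have ha := h.a_pos
  have hs : 0 < ‖p‖ := lt_trans (by linarith) hp.1
  have hs2 : 0 < ‖p2‖ := lt_trans (by linarith) hp2.1
  have hb : 0 < b := by linarith [hp.2]
  have he1 : e ≤ 1 := by nlinarith [abs_nonneg (Cs 1)]
  have he2 : 0 < 2 / e := by positivity
  have sub : ball (0 : E4) (e * ‖p2‖) ⊆ ball 0 (c * ‖p2‖) := ball_subset_ball (by gcongr)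
  have h0 : (0 : E4) ∈ ball (0 : E4) (c * ‖p‖) := mem_ball_self (mul_pos (he.trans_le hec) hs)
  have h0' : (0 : E4) ∈ ball (0 : E4) (e * ‖p‖) := mem_ball_self (mul_pos he hs)
  obtain ⟨s1, s2, s3⟩ := ball_sub_shell ha hp2 (k2.pull.maps z (sub hz))
  rw [ez] at s1 s2 s3
  have hw := wt_pos b ha (norm_pos_iff.1 hs)
  have hw2 := wt_pos b ha (norm_pos_iff.1 hs2)
  have wc : wt a b p2 ≤ 2 * wt a b p := wt_cmp ha hb hs (by linarith) (by linarith)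
  have m0 : (0 : E4) ∈ ball 0 (c * ‖p‖) ∩ φ ⁻¹' (φ2 '' ball 0 (e * ‖p2‖)) :=
    ⟨h0, z, hz, ez.trans k.ctr.symm⟩
  have hO := k.pull.smooth.continuousOn.isOpen_inter_preimage isOpen_ball o2.opn
  obtain ⟨P, dP⟩ := pull_lift (T := fun y => ψ2 (φ y)) k.pull k2.pull hO inter_subset_left
    (o2.sm.comp (k.pull.smooth.mono inter_subset_left) fun y hy => hy.2) (by
      rintro y ⟨-, u, hu, eu⟩
      rw [← eu, o2.inv u hu]; exact ⟨sub hu, rfl⟩)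
  have T0 : ψ2 (φ 0) = z := by rw [k.ctr, ← ez, o2.inv z hz]
  have dT : ‖fderiv ℝ (fun y => ψ2 (φ y)) 0‖ ≤ 4 := by
    refine ContinuousLinearMap.opNorm_le_bound _ (by norm_num) fun X => (o2.low z hz _).trans ?_
    have := dP 0 m0
    simp only [T0] at this
    rw [← ContinuousLinearMap.comp_apply, this]
    nlinarith [(fderiv ℝ φ 0).le_of_opNorm_le (o.up 0 h0') X]
  obtain ⟨c1, c2⟩ := hC ⟨G1, G2, fun y => ψ2 (φ y), _, _, ‖p‖, wt a b p, (e * ‖p2‖)⁻¹,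
    Y p2 - Y p, Th θ φ 0, Th θ φ2 0, hs, hw, wt_le_two ha s1, P, m0, by
      rw [T0]; nlinarith [mem_ball_zero_iff.1 hz],
    jall_scale (k.jet 0 h0) hs.le (by linarith) hw.le (by linarith), by
      rw [T0]; exact jall_scale (k2.jet z (sub hz)) hs.le s3 hw2.le wc, o.pos 0 h0', by
      rw [T0]; exact o2.pos z hz, by
      rw [abs_of_pos (by positivity), inv_mul_le_iff₀ (by positivity)]
      have : e * ‖p2‖ * (8 + 2 / e) = 8 * (e * ‖p2‖) + 2 * ‖p2‖ := by field_simp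
      rw [this]; nlinarith, by linarith [o2.nth], by
      have := o2.val z hz
      rw [ez] at this
      rw [T0]
      refine this.trans ?_
      calc _ ≤ 2 * (2 * wt a b p * (1 * (2 * ‖p‖))) := by gcongr
        _ ≤ _ := by nlinarith [mul_pos hw hs], by
      have e1 : Th θ φ 0 = (Th θ φ2 z).comp (fderiv ℝ (fun y => ψ2 (φ y)) 0) := by
        have := dP 0 m0
        simp only [T0] at this
        rw [Th, Th, ContinuousLinearMap.comp_assoc, this, ez, k.ctr]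
      rw [e1, ← ContinuousLinearMap.sub_comp]
      refine (ContinuousLinearMap.opNorm_comp_le _ _).trans ((mul_le_mul (o2.th z hz) dT
        (norm_nonneg _) hw2.le).trans (by nlinarith))⟩
  have ev : ∀ᶠ y in 𝓝 (0 : E4), bet (e * ‖p2‖) φ2 ψ2 (φ y) = chi ((e * ‖p2‖)⁻¹ • ψ2 (φ y)) :=
    (k.pull.contDiffAt h0).continuousAt.eventually (o2.bet_eq m0.2)
  refine ⟨c1.congr ev, c2.congr (ev.mono fun y hy => ?_)⟩
  simp only [hy]
  congr 1
  abel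

end Crest.Agent.N207.H.Sm

end
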