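import Crest.Agent.N207.Sk.Defs

/-!
# Row 207, block H (helper39): the leaves of `HDEC`
-/

set_option autoImplicit false
set_option linter.unusedSectionVars false

open scoped ContDiff Manifold Topology
open Set Filter Metric
open Crest.GeometryTopology.CoordMetric
open Crest.Agent.R202.Tens Crest.Agent.N207.Sk

noncomputable section

namespace Crest.Agent.N207.H

/-- Bochner inequality for `|Rm|²` -/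
def BoRm : Prop := ∃ C : ℝ, ∀ (G : MetricField 4) (U : Set E4), IsRiemannianOn G U → ∀ x ∈ U,
  2 * nsq G (covN G (rmT G) 1) x - C * (nsq G (rmT G) x * √(nsq G (rmT G) x) +
    √(nsq G (rmT G) x) * √(nsq G (covN G (ricT G) 2) x)) ≤ laplaceBeltrami G (nsq G (rmT G)) x

/-- refined Kato inequality for `|Rm|²` -/
def KaRm : Prop := ∃ C : ℝ, ∀ (G : MetricField 4) (U : Set E4), IsRiemannianOn G U → ∀ x ∈ U,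
  R247.Bo84.gam G (nsq G (rmT G)) (nsq G (rmT G)) x ≤
    3 * nsq G (rmT G) x * nsq G (covN G (rmT G) 1) x +
      C * nsq G (rmT G) x * nsq G (covN G (ricT G) 1) x

/-- a `Γ`-invariant metric on the shell, `η`-close to the Euclidean one in `C¹` -/
structure RM (G : MetricField 4) (Γ : Subgroup (E4 ≃ₗᵢ[ℝ] E4)) (a b η : ℝ) : Prop where
  fin : Finite Γ
  a_pos : 0 < a
  riem : IsRiemannianOn G (shell a b)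
  inv : ∀ γ ∈ Γ, ∀ x ∈ shell a b, ∀ u v, bil (G (γ x)) (γ u) (γ v) = bil (G x) u v
  near : ∀ x ∈ shell a b, ∀ u v, |bil (G x) u v - inner ℝ u v| ≤ η * ‖u‖ * ‖v‖
  gam : ∀ x ∈ shell a b, ‖Gam G x‖ * ‖x‖ ≤ η

/-- an equivariant almost parallel coframe `θ` and an almost primitive `Y` -/
structure FD (G : MetricField 4) (Γ : Subgroup (E4 ≃ₗᵢ[ℝ] E4)) (a b η : ℝ)
    (θ : E4 → E4 →L[ℝ] E4) (Y : E4 → E4) : Prop extends RM G Γ a b η where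
  dθ : ∀ x ∈ shell a b, DifferentiableAt ℝ θ x
  dY : ∀ x ∈ shell a b, DifferentiableAt ℝ Y x
  eθ : ∀ γ ∈ Γ, ∀ x ∈ shell a b, ∀ v, θ (γ x) (γ v) = γ (θ x v)
  eY : ∀ γ ∈ Γ, ∀ x ∈ shell a b, Y (γ x) = γ (Y x)
  par : ∀ x ∈ shell a b, ∀ u v,
    ‖fderiv ℝ θ x u v - θ x (Gam G x u v)‖ * ‖x‖ ≤ η * wt a b x * ‖u‖ * ‖v‖
  iso : ∀ x ∈ shell a b, ∀ u v,
    |inner ℝ (θ x u) (θ x v) - bil (G x) u v| ≤ η * wt a b x * ‖u‖ * ‖v‖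
  der : ∀ x ∈ shell a b, ‖fderiv ℝ Y x - θ x‖ ≤ η * wt a b x
  val : ∀ x ∈ shell a b, ‖Y x - θ x x‖ ≤ η * ‖x‖

/-- (FRAME, 39) -/
def FRAME : Prop := ∀ η : ℝ, 0 < η → ∃ η0 : ℝ, 0 < η0 ∧ η0 ≤ 1 / 100 ∧
  ∀ (G : MetricField 4) (Γ : Subgroup (E4 ≃ₗᵢ[ℝ] E4)) (a b : ℝ), RM G Γ a b η0 → 100 * a ≤ b →
    (∀ x ∈ shell a b, ∀ u v w,
      ‖curv (Gam G) x u v w‖ * ‖x‖ ^ 2 ≤ η0 * wt a b x * ‖u‖ * ‖v‖ * ‖w‖) →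
    ∃ θ Y, FD G Γ (8 * a) b η θ Y

/-- normal coordinates `φ` at `p` read in the rough chart, with all jets `O(w)` -/
structure LCh (Cs : ℕ → ℝ) (G : MetricField 4) (c w : ℝ) (p : E4) (φ : E4 → E4)
    (G' : MetricField 4) : Prop where
  pull : Pull G' G φ (ball 0 (c * ‖p‖)) (ball p (‖p‖ / 4))
  ctr : φ 0 = p
  one : G' 0 = 1
  jet : ∀ y ∈ ball (0 : E4) (c * ‖p‖), JAll Cs G' y ‖p‖ w

/-- the map `Yt` is, near `p` and in the chart `φ`, affine up to `O(w)` in `C^∞` -/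
structure Aff (C : ℕ → ℝ) (G : MetricField 4) (Yt : E4 → E4) (w : ℝ) (p q : E4) (φ : E4 → E4)
    (G' : MetricField 4) (L : E4 →L[ℝ] E4) : Prop where
  pull : ∃ V W, (0 : E4) ∈ V ∧ Pull G' G φ V W
  ctr : φ 0 = p
  jet : JAll C G' 0 ‖p‖ w
  orth : ∀ u v, |inner ℝ (L u) (L v) - inner ℝ u v| ≤ C 0 * w * ‖u‖ * ‖v‖
  aff : ∀ k, J1 k (fun y => Yt (φ y) - (q + L y)) 0 ‖p‖ (C k * w * ‖p‖)

/-- (SMOOTH) partition of unity in the normal charts -/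
def SMOOTH : Prop := ∃ η0 : ℝ, 0 < η0 ∧ ∀ (c : ℝ) (Cs : ℕ → ℝ), 0 < c → ∃ C : ℕ → ℝ,
  ∀ (G : MetricField 4) (Γ : Subgroup (E4 ≃ₗᵢ[ℝ] E4)) (a b : ℝ) (θ : E4 → E4 →L[ℝ] E4)
    (Y : E4 → E4), FD G Γ a b η0 θ Y →
    (∀ p ∈ shell (2 * a) (b / 2), ∃ φ G', LCh Cs G c (wt a b p) p φ G') →
    ∃ Yt : E4 → E4, ContDiffOn ℝ ∞ Yt (shell (4 * a) (b / 4)) ∧
      (∀ γ ∈ Γ, ∀ x ∈ shell (4 * a) (b / 4), Yt (γ x) = γ (Yt x)) ∧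
      ∀ p ∈ shell (4 * a) (b / 4), ‖Yt p - Y p‖ ≤ C 0 * wt a b p * ‖p‖ ∧
        ‖fderiv ℝ Yt p - θ p‖ ≤ C 0 * wt a b p ∧
        ∃ φ G' L, Aff C G Yt (wt a b p) p (Y p) φ G' L

/-- (JETS) the metric in the coordinates `Yt` -/
def JETS : Prop := ∀ C : ℕ → ℝ, ∃ (w0 : ℝ) (C' : ℕ → ℝ), 0 < w0 ∧
  ∀ (G G' G'' : MetricField 4) (Yt Z φ : E4 → E4) (L : E4 →L[ℝ] E4) (p q : E4) (w : ℝ),
    p ≠ 0 → 0 < w → w ≤ w0 → Aff C G Yt w p q φ G' L → ContDiffAt ℝ ∞ Yt p →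
    ContDiffAt ℝ ∞ Z (Yt p) → Z (Yt p) = p → (∀ᶠ y in 𝓝 (Yt p), Yt (Z y) = y) →
    (∀ᶠ y in 𝓝 (Yt p), ∀ u v,
      bil (G'' y) u v = bil (G (Z y)) (fderiv ℝ Z y u) (fderiv ℝ Z y v)) →
    JAll C' G'' (Yt p) ‖p‖ w

/-- `Z` is the inverse of `Yt` -/
structure Inv (Yt Z : E4 → E4) (A B : ℝ) : Prop where
  sm : ContDiffOn ℝ ∞ Yt (shell A B)
  nrm : ∀ x ∈ shell A B, |‖Yt x‖ - ‖x‖| ≤ ‖x‖ / 20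
  inj : InjOn Yt (shell (2 * A) (B / 2))
  smZ : ContDiffOn ℝ ∞ Z (shell (4 * A) (B / 4))
  inv : ∀ y ∈ shell (4 * A) (B / 4), Z y ∈ shell (2 * A) (B / 2) ∧ Yt (Z y) = y

/-- (INV) -/
def INV : Prop := ∃ η0 : ℝ, 0 < η0 ∧ ∀ (θ : E4 → E4 →L[ℝ] E4) (Yt : E4 → E4) (A B : ℝ), 0 < A →
  ContDiffOn ℝ ∞ Yt (shell A B) →
  (∀ x ∈ shell A B, DifferentiableAt ℝ θ x ∧ ‖fderiv ℝ θ x‖ * ‖x‖ ≤ η0 ∧
    (∀ u, |‖θ x u‖ - ‖u‖| ≤ η0 * ‖u‖) ∧ ‖fderiv ℝ Yt x - θ x‖ ≤ η0 ∧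
    ‖Yt x - θ x x‖ ≤ η0 * ‖x‖) → ∃ Z, Inv Yt Z A B

section mfd

variable (M : Type*) [TopologicalSpace M] [ChartedSpace E4 M] [IsManifold 𝓘(ℝ, E4) ∞ M]

/-- (TOPS) the new neck -/
def TOPS : Prop := ∀ (N : Nk M) (Yt Z : E4 → E4) (A B a' b' : ℝ), N.Top → N.a ≤ A → B ≤ N.b →
  Inv Yt Z A B → (∀ γ ∈ N.Γ, ∀ x ∈ shell A B, Yt (γ x) = γ (Yt x)) →
  8 * A ≤ a' → a' < b' → 8 * b' ≤ B →
  ∃ N' : Nk M, N'.Top ∧ N'.a = a' ∧ N'.b = b' ∧ N'.Γ = N.Γ ∧ N'.Ψ = (fun y => N.Ψ (Z y)) ∧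
    N.In ⊆ N'.In ∧ N'.In ⊆ N.Om (11 / 10 * a') ∧ Cmp N N' (2 * a') b'

variable [CompactSpace M] [T3Space M] [ConnectedSpace M] [MeasurableSpace M] [BorelSpace M]

/-- (LOC) normal coordinates lifted to the rough chart -/
def LOC : Prop := ∀ (n0 : ℕ) (Ck : ℕ → ℝ), ∃ (c : ℝ) (Cs : ℕ → ℝ), 0 < c ∧
  ∀ (g : Met 4 M) (N : Nk M) (V : ℝ), N.Top → Rough g N 0 (1 / 100) V → Nat.card N.Γ ≤ n0 →
    ∀ p ∈ shell (2 * N.a) (N.b / 2), ∀ w : ℝ, 0 < w → w ≤ 2 →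
      (∀ k, ∀ y ∈ ball p (‖p‖ / 4), g.rm k (N.Ψ y) ≤ (Ck k * w / ‖p‖ ^ (k + 2)) ^ 2) →
      ∃ φ G', LCh Cs (g.pm N.Ψ) c w p φ G'

/-- (BR) dictionary -/
def BR : Prop := (∀ η : ℝ, 0 < η → ∃ η1 : ℝ, 0 < η1 ∧ ∀ (g : Met 4 M) (N : Nk M) (V : ℝ),
    N.Top → Rough g N 1 η1 V → RM (g.pm N.Ψ) N.Γ N.a N.b η) ∧
  ∀ (g : Met 4 M) (N : Nk M), N.Top → RM (g.pm N.Ψ) N.Γ N.a N.b (1 / 100) →
    ∀ x ∈ shell N.a N.b, ∀ ρ : ℝ, 0 ≤ ρ → g.rm 0 (N.Ψ x) ≤ ρ ^ 2 → ∀ u v w,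
      ‖curv (Gam (g.pm N.Ψ)) x u v w‖ ≤ 2 * ρ * ‖u‖ * ‖v‖ * ‖w‖

variable {M}

/-- (CURV) curvature decay on a rough neck -/
def CURV (F : Flow M) : Prop := ∀ η2 : ℝ, 0 < η2 → ∃ (η1 r1 : ℝ) (Ck : ℕ → ℝ), 0 < η1 ∧ 0 < r1 ∧
  ∀ t ∈ late F, ∀ (N : Nk M) (V : ℝ), N.Top → Rough (F.m t) N 2 η1 V → N.b ≤ r1 →
    ∀ x ∈ shell (2 * N.a) (N.b / 2),
      (F.m t).rm 0 (N.Ψ x) ≤ (η2 * wt N.a N.b x / ‖x‖ ^ 2) ^ 2 ∧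
      ∀ k, (F.m t).rm k (N.Ψ x) ≤ (Ck k * wt N.a N.b x / ‖x‖ ^ (k + 2)) ^ 2

end mfd

end Crest.Agent.N207.H

end
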