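import Mathlib
import Crest.Agent.Lib.ODEFlow

/-!
# Row 207, block H: transport along straight segments

`Γ : E → E →L 𝔸` is a connection form with values in a Banach algebra, smooth on the open set `U`.
`trp Γ (p, x)` is the value at `t = 1` of the solution of `Θ' = Θ * Γ(p + t(x-p))(x-p)`, `Θ 0 = 1`.
It is smooth on `segD U = {(p, x) | [p, x] ⊆ U}`.
-/

set_option autoImplicit false
set_option linter.unusedSectionVars false

open Set Filter Topology
open scoped ContDiff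
open Crest.Agent.Lib.ODEFlow

noncomputable section

namespace Crest.Agent.N207.H

variable {E 𝔸 : Type} [NormedAddCommGroup E] [NormedSpace ℝ E] [NormedRing 𝔸]
  [NormedAlgebra ℝ 𝔸] [CompleteSpace 𝔸]

/-- the identity function of the unit interval -/
def idI : C(I, ℝ) := ⟨fun t => t, continuous_subtype_val⟩

/-- `v ↦ (t ↦ t • v)` -/
def linL : E →L[ℝ] C(I, E) :=
  LinearMap.mkContinuous
    { toFun := fun v => ⟨fun t => (t : ℝ) • v, continuous_subtype_val.smul continuous_const⟩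
      map_add' := by intro v w; ext t; simp
      map_smul' := by intro c v; ext t; simp [smul_comm c] } 1 (by
    intro v
    rw [ContinuousMap.norm_le _ (by positivity)]
    intro t
    change ‖(t : ℝ) • v‖ ≤ 1 * ‖v‖
    rw [norm_smul, Real.norm_of_nonneg t.2.1]
    gcongr
    exact t.2.2)

/-- position and velocity along the segment -/
def segP (q : E × E) : C(I, E × E) :=
  constL (q.1, q.2 - q.1) + linL (q.2 - q.1, (0 : E))

theorem segP_apply (q : E × E) (t : I) :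
    segP q t = (q.1 + (t : ℝ) • (q.2 - q.1), q.2 - q.1) := by
  change (q.1, q.2 - q.1) + (t : ℝ) • (q.2 - q.1, (0 : E)) = _
  simp

theorem contDiff_segP : ContDiff ℝ ∞ (segP (E := E)) := by
  unfold segP
  fun_prop

/-- pairs of points whose segment lies in `U` -/
def segD (U : Set E) : Set (E × E) := {q | ∀ t ∈ Icc (0 : ℝ) 1, q.1 + t • (q.2 - q.1) ∈ U}

theorem segD_iff {U : Set E} {q : E × E} : q ∈ segD U ↔ segP q ∈ mapsIn I (U ×ˢ (univ : Set E)) :=
  ⟨fun h t => by rw [segP_apply]; exact ⟨h t t.2, trivial⟩,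
    fun h t ht => by have := h ⟨t, ht⟩; rw [segP_apply] at this; exact this.1⟩

theorem isOpen_segD {U : Set E} (hU : IsOpen U) : IsOpen (segD U) := by
  have : segD U = segP (E := E) ⁻¹' mapsIn (E := E × E) I (U ×ˢ univ) := by
    ext q; exact segD_iff
  rw [this]
  exact (isOpen_mapsIn (K := I) (E := E × E) (hU.prod isOpen_univ)).preimage
    (contDiff_segP (E := E)).continuous

theorem segD_scale {U : Set E} {p x : E} (h : (p, x) ∈ segD U) {τ : ℝ} (hτ : τ ∈ Icc (0 : ℝ) 1) :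
    (p, p + τ • (x - p)) ∈ segD U := fun t ht => by
  have := h (t * τ) (mul_mem_I ht hτ)
  simpa [mul_smul] using this

theorem segD_symm {U : Set E} {p x : E} (h : (p, x) ∈ segD U) : (x, p) ∈ segD U := fun t ht => by
  have := h (1 - t) ⟨by linarith [ht.2], by linarith [ht.1]⟩
  convert this using 1
  module

theorem segD_left {U : Set E} {p x : E} (h : (p, x) ∈ segD U) : p ∈ U := by
  simpa using h 0 ⟨le_rfl, zero_le_one⟩

theorem segD_right {U : Set E} {p x : E} (h : (p, x) ∈ segD U) : x ∈ U := segD_left (segD_symm h)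

/-- coefficient path -/
def segA (Γ : E → E →L[ℝ] 𝔸) (q : E × E) : C(I, 𝔸) := nem (fun s : E × E => Γ s.1 s.2) (segP q)

/-- right multiplication -/
def rmul : C(I, 𝔸) →L[ℝ] C(I, 𝔸) →L[ℝ] C(I, 𝔸) :=
  LinearMap.mkContinuous₂
    (LinearMap.mk₂ ℝ (fun (A h : C(I, 𝔸)) => h * A)
      (fun _ _ _ => mul_add _ _ _) (fun _ _ _ => by ext t; exact mul_smul_comm _ _ _)
      (fun _ _ _ => add_mul _ _ _) (fun _ _ _ => by ext t; exact smul_mul_assoc _ _ _)) 1 (by
    intro A h
    change ‖h * A‖ ≤ _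
    rw [one_mul, mul_comm ‖A‖]
    exact norm_mul_le _ _)

/-- the Volterra operator of the coefficient path `A` -/
def vop (A : C(I, 𝔸)) : C(I, 𝔸) →L[ℝ] C(I, 𝔸) :=
  ContinuousLinearMap.id ℝ _ - vol ∘L rmul A

theorem vop_inv (A : C(I, 𝔸)) : (vop A).IsInvertible :=
  isInvertible_id_sub_vol_comp _ (norm_nonneg A) fun h t => by
    change ‖h t * A t‖ ≤ _
    rw [mul_comm ‖A‖]
    exact (norm_mul_le _ _).trans (by gcongr; exact A.norm_coe_le_norm t)

theorem vop_apply (A h : C(I, 𝔸)) (t : I) :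
    vop A h t = h t - ∫ s in (0 : ℝ)..t, h (pr s) * A (pr s) := rfl

/-- solution of `Θ' = Θ * A`, `Θ 0 = 1` -/
def vsol (A : C(I, 𝔸)) : C(I, 𝔸) := (vop A).inverse 1

theorem vop_vsol (A : C(I, 𝔸)) : vop A (vsol A) = 1 := (vop_inv A).self_apply_inverse 1

theorem vsol_eq (A : C(I, 𝔸)) (t : I) :
    vsol A t = 1 + ∫ s in (0 : ℝ)..t, vsol A (pr s) * A (pr s) := by
  have := congrArg (fun h : C(I, 𝔸) => h t) (vop_vsol A)
  simp only [vop_apply, ContinuousMap.one_apply] at this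
  rw [← this]; abel

theorem vsol_unique {A h : C(I, 𝔸)} (e : ∀ t : I, h t = 1 + ∫ s in (0 : ℝ)..t, h (pr s) * A (pr s)) :
    vsol A = h := by
  have : vop A h = 1 := by
    ext t
    rw [vop_apply, ContinuousMap.one_apply]
    nth_rewrite 1 [e t]
    abel
  rw [vsol, ← this, (vop_inv A).inverse_apply_self]

theorem contDiff_vsol : ContDiff ℝ ∞ (vsol (𝔸 := 𝔸)) := by
  rw [contDiff_iff_contDiffAt]
  intro A
  have h1 : ContDiff ℝ ∞ (vop (𝔸 := 𝔸)) := by
    unfold vop
    refine contDiff_const.sub ?_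
    have : ContDiff ℝ ∞ (fun A : C(I, 𝔸) => rmul A) := by fun_prop
    exact contDiff_const.clm_comp this
  have h2 := (vop_inv A).contDiffAt_map_inverse (n := ∞)
  exact (h2.comp A h1.contDiffAt).clm_apply contDiffAt_const

/-- transport along the segment from `q.1` to `q.2` -/
def trp (Γ : E → E →L[ℝ] 𝔸) (q : E × E) : 𝔸 := vsol (segA Γ q) 1

variable {Γ : E → E →L[ℝ] 𝔸} {U : Set E}

theorem contDiffOn_ev (hΓ : ContDiffOn ℝ ∞ Γ U) :
    ContDiffOn ℝ ∞ (fun s : E × E => Γ s.1 s.2) (U ×ˢ univ) :=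
  (hΓ.comp contDiff_fst.contDiffOn fun _ hs => hs.1).clm_apply contDiff_snd.contDiffOn

theorem segA_apply (hΓ : ContDiffOn ℝ ∞ Γ U) {q : E × E} (hq : q ∈ segD U) (t : I) :
    segA Γ q t = Γ (q.1 + (t : ℝ) • (q.2 - q.1)) (q.2 - q.1) := by
  rw [segA, nem_apply (contDiffOn_ev hΓ).continuousOn (segD_iff.1 hq), segP_apply]

theorem contDiffOn_trp (hU : IsOpen U) (hΓ : ContDiffOn ℝ ∞ Γ U) :
    ContDiffOn ℝ ∞ (trp Γ) (segD U) := by
  have h1 : ContDiffOn ℝ ∞ (segA Γ) (segD U) :=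
    (contDiffOn_nem (n := ⊤) (hU.prod isOpen_univ) (contDiffOn_ev hΓ)).comp
      contDiff_segP.contDiffOn fun q hq => segD_iff.1 hq
  have h2 : ContDiff ℝ ∞ (fun f : C(I, 𝔸) => (ContinuousMap.evalCLM ℝ (1 : I) : C(I, 𝔸) →L[ℝ] 𝔸) f) :=
    ContinuousLinearMap.contDiff _
  exact h2.comp_contDiffOn (contDiff_vsol.comp_contDiffOn h1)

theorem contDiffAt_trp (hU : IsOpen U) (hΓ : ContDiffOn ℝ ∞ Γ U) {q : E × E} (hq : q ∈ segD U) :
    ContDiffAt ℝ ∞ (trp Γ) q :=
  (contDiffOn_trp hU hΓ).contDiffAt ((isOpen_segD hU).mem_nhds hq)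

theorem trp_scale (hΓ : ContDiffOn ℝ ∞ Γ U) {p x : E} (h : (p, x) ∈ segD U) {τ : ℝ}
    (hτ : τ ∈ Icc (0 : ℝ) 1) : trp Γ (p, p + τ • (x - p)) = vsol (segA Γ (p, x)) (pr τ) := by
  have e : vsol (segA Γ (p, p + τ • (x - p))) = scale τ (vsol (segA Γ (p, x))) := by
    refine vsol_unique fun t => ?_
    rw [scale_apply, vsol_eq, pr_of_mem (mul_mem_I hτ t.2)]
    have h2 := intervalIntegral.smul_integral_comp_mul_left (a := 0) (b := (t : ℝ))
      (fun r => vsol (segA Γ (p, x)) (pr r) * segA Γ (p, x) (pr r)) τ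
    rw [mul_zero] at h2
    rw [← h2, ← intervalIntegral.integral_smul]
    congr 1
    refine intervalIntegral.integral_congr fun s hs => ?_
    rw [uIcc_of_le t.2.1] at hs
    have hs' : s ∈ Icc (0 : ℝ) 1 := ⟨hs.1, hs.2.trans t.2.2⟩
    simp only [scale_apply]
    rw [segA_apply hΓ (segD_scale h hτ), segA_apply hΓ h, pr_of_mem hs',
      pr_of_mem (mul_mem_I hτ hs')]
    simp only [add_sub_cancel_left, map_smul, mul_smul_comm, smul_smul, mul_comm s τ]
  rw [trp, e, scale_apply]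
  simp

theorem trp_self (hΓ : ContDiffOn ℝ ∞ Γ U) {p : E} (hp : p ∈ U) : trp Γ (p, p) = 1 := by
  have h : (p, p) ∈ segD U := fun t _ => by simpa using hp
  have := trp_scale hΓ h (τ := 0) ⟨le_rfl, zero_le_one⟩
  simp only [zero_smul, add_zero] at this
  rw [this, vsol_eq, pr_of_mem ⟨le_rfl, zero_le_one⟩]
  simp

theorem fderiv_trp_seg (hU : IsOpen U) (hΓ : ContDiffOn ℝ ∞ Γ U) {p x : E} (h : (p, x) ∈ segD U)
    {τ : ℝ} (hτ : τ ∈ Icc (0 : ℝ) 1) :
    fderiv ℝ (trp Γ) (p, p + τ • (x - p)) (0, x - p) =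
      trp Γ (p, p + τ • (x - p)) * Γ (p + τ • (x - p)) (x - p) := by
  set A := segA Γ (p, x) with hA
  have hc : Continuous fun s => vsol A (pr s) * A (pr s) :=
    (continuous_comp_pr _).mul (continuous_comp_pr _)
  have h1 : HasDerivAt (fun u => 1 + ∫ s in (0 : ℝ)..u, vsol A (pr s) * A (pr s))
      (vsol A (pr τ) * A (pr τ)) τ :=
    (intervalIntegral.integral_hasDerivAt_right (hc.intervalIntegrable _ _)
      (hc.stronglyMeasurableAtFilter _ _) hc.continuousAt).const_add 1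
  have h2 : HasDerivAt (fun u : ℝ => (p, p + u • (x - p))) ((0 : E), x - p) τ := by
    have := (hasDerivAt_const τ p).prodMk (((hasDerivAt_id τ).smul_const (x - p)).const_add p)
    simpa using this
  have h3 : HasDerivAt (fun u : ℝ => trp Γ (p, p + u • (x - p)))
      (fderiv ℝ (trp Γ) (p, p + τ • (x - p)) (0, x - p)) τ :=
    HasFDerivAt.comp_hasDerivAt (l := trp Γ) τ ((contDiffAt_trp hU hΓ
      (segD_scale h hτ)).differentiableAt (by simp)).hasFDerivAt h2
  have h4 := h1.hasDerivWithinAt.congr (s := Icc 0 1)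
    (f₁ := fun u : ℝ => trp Γ (p, p + u • (x - p)))
    (fun u hu => by rw [trp_scale hΓ h hu, vsol_eq, pr_of_mem hu])
    (by rw [trp_scale hΓ h hτ, vsol_eq, pr_of_mem hτ])
  rw [(uniqueDiffOn_Icc zero_lt_one τ hτ).eq_deriv _ h3.hasDerivWithinAt h4, trp_scale hΓ h hτ,
    hA, segA_apply hΓ h, pr_of_mem hτ]

/-- the transport equation in any direction parallel to the segment -/
theorem fderiv_trp_dir (hU : IsOpen U) (hΓ : ContDiffOn ℝ ∞ Γ U) {p v : E} {τ : ℝ}
    (h : (p, p + τ • v) ∈ segD U) :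
    fderiv ℝ (trp Γ) (p, p + τ • v) (0, v) = trp Γ (p, p + τ • v) * Γ (p + τ • v) v := by
  rcases eq_or_ne τ 0 with rfl | hτ
  · simp only [zero_smul, add_zero] at h ⊢
    have hc : ContinuousAt (fun s : ℝ => (p, p + s • v)) 0 := by fun_prop
    have h1 : ∀ᶠ s : ℝ in 𝓝 0, (p, p + s • v) ∈ segD U :=
      hc.eventually ((isOpen_segD hU).mem_nhds (by simpa using h))
    obtain ⟨s, hs, hs0⟩ := ((h1.filter_mono nhdsWithin_le_nhds).and
      (self_mem_nhdsWithin (s := {0}ᶜ) (a := (0 : ℝ)))).exists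
    have h2 := fderiv_trp_seg hU hΓ hs (τ := 0) ⟨le_rfl, zero_le_one⟩
    simp only [zero_smul, add_zero, add_sub_cancel_left, map_smul, mul_smul_comm] at h2
    have e : ((0 : E), s • v) = s • ((0 : E), v) := by simp
    rw [e, map_smul] at h2
    exact smul_right_injective _ hs0 h2
  · have h2 := fderiv_trp_seg hU hΓ h (τ := 1) ⟨zero_le_one, le_rfl⟩
    simp only [one_smul, add_sub_cancel_left, map_smul, mul_smul_comm] at h2
    have e : ((0 : E), τ • v) = τ • ((0 : E), v) := by simp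
    rw [e, map_smul] at h2
    exact smul_right_injective _ hτ h2

theorem hasDerivAt_trp (hU : IsOpen U) (hΓ : ContDiffOn ℝ ∞ Γ U) {p v : E} {τ : ℝ}
    (h : (p, p + τ • v) ∈ segD U) :
    HasDerivAt (fun u : ℝ => trp Γ (p, p + u • v)) (trp Γ (p, p + τ • v) * Γ (p + τ • v) v) τ := by
  have h2 : HasDerivAt (fun u : ℝ => (p, p + u • v)) ((0 : E), v) τ := by
    have := (hasDerivAt_const τ p).prodMk (((hasDerivAt_id τ).smul_const v).const_add p)
    simpa using this
  rw [← fderiv_trp_dir hU hΓ h]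
  exact ((contDiffAt_trp hU hΓ h).differentiableAt (by simp)).hasFDerivAt.comp_hasDerivAt τ h2

end Crest.Agent.N207.H

end
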