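import Crest.Agent.N207.H.Tr2
import Crest.Agent.N207.I.Jet2

/-!
# Row 207, block H: uniform jet bounds for linear ODEs with parameters
-/

set_option autoImplicit false
set_option linter.unusedSectionVars false
set_option maxSynthPendingDepth 3

open Set Filter Topology
open scoped ContDiff
open Crest.Agent.N207.Jt

noncomputable section

namespace Crest.Agent.N207.H

variable {ι X : Type} [NormedAddCommGroup X] [NormedSpace ℝ X] [FiniteDimensional ℝ X]

/-- the filter of pairs (index, time in `[0,1]`) -/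
abbrev u01 (l : Filter ι) : Filter (ι × ℝ) := un l fun _ => Icc (0 : ℝ) 1

/-- block matrix of the differentiated equation -/
def blk (X F : Type) [NormedAddCommGroup X] [NormedSpace ℝ X] [NormedAddCommGroup F]
    [NormedSpace ℝ F] : ((F →L[ℝ] F) × (ℝ × X →L[ℝ] F →L[ℝ] F)) →ₗ[ℝ]
      (F × (X →L[ℝ] F) →L[ℝ] F × (X →L[ℝ] F)) where
  toFun q := (q.1.comp (ContinuousLinearMap.fst ℝ F (X →L[ℝ] F))).prod
    ((ContinuousLinearMap.compL ℝ X F F q.1).comp (ContinuousLinearMap.snd ℝ F (X →L[ℝ] F)) +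
      ((q.2.comp (ContinuousLinearMap.inr ℝ ℝ X)).flip).comp
        (ContinuousLinearMap.fst ℝ F (X →L[ℝ] F)))
  map_add' q r := by
    refine ContinuousLinearMap.ext fun w => Prod.ext (by simp) ?_
    ext v; simp; abel
  map_smul' c q := by
    refine ContinuousLinearMap.ext fun w => Prod.ext (by simp) ?_
    ext v; simp

theorem fderiv_slice {F : Type} [NormedAddCommGroup F] [NormedSpace ℝ F] {f : ℝ × X → F} {t : ℝ}
    {z : X} (hf : DifferentiableAt ℝ f (t, z)) :
    fderiv ℝ (fun z => f (t, z)) z = (fderiv ℝ f (t, z)).comp (ContinuousLinearMap.inr ℝ ℝ X) :=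
  (HasFDerivAt.comp (g := f) (f := fun z => (t, z)) z hf.hasFDerivAt
    (hasFDerivAt_prodMk_right t z)).fderiv

theorem hasDerivAt_slice {F : Type} [NormedAddCommGroup F] [NormedSpace ℝ F] {f : ℝ × X → F}
    {t : ℝ} {z : X} (hf : DifferentiableAt ℝ f (t, z)) :
    HasDerivAt (fun s => f (s, z)) (fderiv ℝ f (t, z) (1, 0)) t :=
  HasFDerivAt.comp_hasDerivAt (l := f) (f := fun s => (s, z)) t hf.hasFDerivAt
    ((hasDerivAt_id t).prodMk (hasDerivAt_const t z))

theorem ode_jets {l : Filter ι} {x : ι → X} (k : ℕ) :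
    ∀ {F : Type} [NormedAddCommGroup F] [NormedSpace ℝ F] [FiniteDimensional ℝ F]
      {u : ι → ℝ × X → F} {A : ι → ℝ × X → F →L[ℝ] F} {B : ι → ℝ × X → F},
      (∀ᶠ j in l, ∀ t ∈ Icc (0 : ℝ) 1, ContDiffAt ℝ ∞ (u j) (t, x j)) →
      (∀ᶠ j in l, ∀ t ∈ Icc (0 : ℝ) 1, ∀ᶠ y in 𝓝 (t, x j),
        fderiv ℝ (u j) y (1, 0) = A j y (u j y) + B j y) →
      GB (u01 l) (fun p => A p.1) (fun p => (p.2, x p.1)) →
      GB (u01 l) (fun p => B p.1) (fun p => (p.2, x p.1)) →
      GB l (fun j z => u j (0, z)) x →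
      ∃ C : ℝ, ∀ᶠ j in l, ∀ t ∈ Icc (0 : ℝ) 1,
        ‖iteratedFDeriv ℝ k (fun z => u j (t, z)) (x j)‖ ≤ C := by
  induction k with
  | zero =>
    intro F _ _ _ u A B hu he hA hB h0
    obtain ⟨K, hK⟩ := hA.val
    obtain ⟨ρ, hρ⟩ := hB.val
    obtain ⟨C, hC⟩ := h0.val
    refine ⟨(C + |ρ|) * Real.exp |K|, ?_⟩
    filter_upwards [hu, he, ev_un.1 hK, ev_un.1 hρ, hC] with j a b c d e t ht
    rw [norm_iteratedFDeriv_zero]
    have g := gronwall_le (f := fun s => u j (s, x j))
      (f' := fun s => A j (s, x j) (u j (s, x j)) + B j (s, x j)) (abs_nonneg K) (abs_nonneg ρ)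
      (fun s hs => by
        rw [← (b s hs).self_of_nhds]
        exact hasDerivAt_slice ((a s hs).differentiableAt (by simp)))
      (fun s hs => (norm_add_le _ _).trans (add_le_add
        (((A j (s, x j)).le_opNorm _).trans (by gcongr; exact (c s hs).trans (le_abs_self _)))
        ((d s hs).trans (le_abs_self _)))) t ht
    exact g.trans (by gcongr)
  | succ k ih =>
    intro F _ _ _ u A B hu he hA hB h0
    set R : (ℝ × X →L[ℝ] F) →L[ℝ] X →L[ℝ] F :=
      (ContinuousLinearMap.compL ℝ X (ℝ × X) F).flip (ContinuousLinearMap.inr ℝ ℝ X) with hR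
    have hRa : ∀ L : ℝ × X →L[ℝ] F, R L = L.comp (ContinuousLinearMap.inr ℝ ℝ X) := fun L => rfl
    have sl : ∀ j t, ContDiffAt ℝ ∞ (u j) (t, x j) →
        (fun z => R (fderiv ℝ (u j) (t, z))) =ᶠ[𝓝 (x j)] fderiv ℝ fun z => u j (t, z) := by
      intro j t h
      have c : ContinuousAt (fun z => (t, z)) (x j) := by fun_prop
      filter_upwards [c.eventually ((h.of_le (m := 1) (by norm_cast)).eventually (by simp))]
        with z hz
      rw [fderiv_slice (hz.differentiableAt (by simp)), hRa]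
    obtain ⟨C, hC⟩ := ih (F := F × (X →L[ℝ] F))
      (u := fun j y => (u j y, R (fderiv ℝ (u j) y)))
      (A := fun j y => LinearMap.toContinuousLinearMap (blk X F) (A j y, fderiv ℝ (A j) y))
      (B := fun j y => (B j y, R (fderiv ℝ (B j) y)))
      (hu.mono fun j a t ht => (a t ht).prodMk
        (R.contDiff.contDiffAt.comp _ ((a t ht).fderiv_right (m := ∞) (by simp))))
      (by
        filter_upwards [hu, he, ev_un.1 hA.sm, ev_un.1 hB.sm] with j a b c d t ht
        filter_upwards [(b t ht).eventually_nhds,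
          ((a t ht).of_le (m := 2) (by norm_cast)).eventually (by simp),
          ((c t ht).of_le (m := 1) (by norm_cast)).eventually (by simp),
          ((d t ht).of_le (m := 1) (by norm_cast)).eventually (by simp)] with y y1 y2 y3 y4
        have d1 := (y2.differentiableAt (by simp)).hasFDerivAt
        have d2 := ((y2.fderiv_right (m := 1) (by norm_num)).differentiableAt
          (by simp)).hasFDerivAt
        have d3 := (y3.differentiableAt (by simp)).hasFDerivAt
        have d4 := (y4.differentiableAt (by simp)).hasFDerivAt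
        have e1 := (d1.prodMk (R.hasFDerivAt.comp y d2)).fderiv
        have e2 := (d2.clm_apply (hasFDerivAt_const ((1 : ℝ), (0 : X)) y)).fderiv
        have e3 := ((d3.clm_apply d1).add d4).fderiv
        have e4 := Filter.EventuallyEq.fderiv_eq (𝕜 := ℝ) y1
        rw [e2] at e4
        have e5 := e4.trans e3
        have sy := y2.isSymmSndFDerivAt (by simp)
        refine (congrArg (fun L => L ((1 : ℝ), (0 : X))) e1).trans (Prod.ext ?_ ?_)
        · simpa [blk] using y1.self_of_nhds
        · ext v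
          have := congrArg (fun L => L ((0 : ℝ), v)) e5
          simp only [add_apply, ContinuousLinearMap.comp_apply, ContinuousLinearMap.flip_apply,
            zero_apply, map_zero, zero_add] at this
          rw [sy] at this
          simpa [blk, hRa] using this)
      ((hA.prodMk hA.fderiv).clm (LinearMap.toContinuousLinearMap (blk X F)))
      (hB.prodMk (hB.fderiv.clm R))
      (h0.prodMk (h0.fderiv.congr (hu.mono fun j a => ⟨rfl, sl j 0 (a 0 ⟨le_rfl, zero_le_one⟩)⟩)))
    refine ⟨C, ?_⟩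
    filter_upwards [hC, hu] with j a b t ht
    have s1 : ContDiffAt ℝ ∞ (fun z => (u j (t, z), R (fderiv ℝ (u j) (t, z)))) (x j) :=
      ContDiffAt.comp (g := fun y => (u j y, R (fderiv ℝ (u j) y))) (x j) ((b t ht).prodMk
        (R.contDiff.contDiffAt.comp _ ((b t ht).fderiv_right (m := ∞) (by simp)))) (by fun_prop)
    have s2 := (ContinuousLinearMap.snd ℝ F (X →L[ℝ] F)).norm_iteratedFDeriv_comp_left s1 (kle k)
    rw [← norm_iteratedFDeriv_fderiv, ← ((sl j t (b t ht)).iteratedFDeriv ℝ k).eq_of_nhds]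
    refine s2.trans (le_trans ?_ (a t ht))
    exact mul_le_of_le_one_left (norm_nonneg _) (ContinuousLinearMap.norm_snd_le _ _ _)

/-- **jets of solutions of linear ODEs** -/
theorem gb_ode {l : Filter ι} {x : ι → X} {F : Type} [NormedAddCommGroup F] [NormedSpace ℝ F]
    [FiniteDimensional ℝ F] {u : ι → ℝ × X → F} {A : ι → ℝ × X → F →L[ℝ] F} {B : ι → ℝ × X → F}
    (hu : ∀ᶠ j in l, ∀ t ∈ Icc (0 : ℝ) 1, ContDiffAt ℝ ∞ (u j) (t, x j))
    (he : ∀ᶠ j in l, ∀ t ∈ Icc (0 : ℝ) 1, ∀ᶠ y in 𝓝 (t, x j),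
        fderiv ℝ (u j) y (1, 0) = A j y (u j y) + B j y)
    (hA : GB (u01 l) (fun p => A p.1) (fun p => (p.2, x p.1)))
    (hB : GB (u01 l) (fun p => B p.1) (fun p => (p.2, x p.1)))
    (h0 : GB l (fun j z => u j (0, z)) x) : GB l (fun j z => u j (1, z)) x :=
  ⟨hu.mono fun j a => ContDiffAt.comp (g := u j) (x j) (a 1 ⟨zero_le_one, le_rfl⟩) (by fun_prop),
    fun k => (ode_jets k hu he hA hB h0).imp fun _ hC =>
      hC.mono fun _ a => a 1 ⟨zero_le_one, le_rfl⟩⟩

end Crest.Agent.N207.H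

end
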